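import Vale.Agent.Lib.P322.Defs

namespace Vale.Agent.Lib.P322
open Finset

lemma sum_units (F : ℤˣ → ℝ) : ∑ s, F s = F 1 + F (-1) := by
  have : (Finset.univ : Finset ℤˣ) = {1, -1} := by decide
  rw [this, Finset.sum_pair (by decide)]

/-- the noise weight `P(Y = y | X = x)` -/
noncomputable def W {n : ℕ} (ε : ℝ) (x y : Fin n → ℤˣ) : ℝ :=
  ∏ i, (if x i = y i then 1 - ε else ε)

lemma jointXY_eq {n : ℕ} (ε : ℝ) (x y : Fin n → ℤˣ) : jointXY ε x y = W ε x y / 2 ^ n := by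
  unfold jointXY W
  have : ∀ i, (if x i = y i then (1 - ε) / 2 else ε / 2) = (if x i = y i then 1 - ε else ε) / 2 := by
    intro i; split_ifs <;> rfl
  simp only [this]
  rw [Finset.prod_div_distrib]
  simp

lemma W_nonneg {n : ℕ} {ε : ℝ} (h0 : 0 ≤ ε) (h1 : ε ≤ 1) (x y : Fin n → ℤˣ) : 0 ≤ W ε x y := by
  unfold W
  apply Finset.prod_nonneg
  intro i _
  split_ifs <;> linarith

lemma W_symm {n : ℕ} (ε : ℝ) (x y : Fin n → ℤˣ) : W ε x y = W ε y x := by
  unfold W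
  apply Finset.prod_congr rfl
  intro i _
  by_cases h : x i = y i
  · simp [h]
  · have h' : ¬ y i = x i := fun h'' => h h''.symm
    simp [h, h']

lemma sum_W_right {n : ℕ} (ε : ℝ) (x : Fin n → ℤˣ) : ∑ y, W ε x y = 1 := by
  unfold W
  rw [← Fintype.prod_sum (fun i (s : ℤˣ) => if x i = s then 1 - ε else ε)]
  apply Finset.prod_eq_one
  intro i _
  rw [sum_units]
  rcases Int.units_eq_one_or (x i) with h | h <;> simp [h] 

lemma sum_W_left {n : ℕ} (ε : ℝ) (y : Fin n → ℤˣ) : ∑ x, W ε x y = 1 := by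
  simp_rw [W_symm ε _ y]
  exact sum_W_right ε y

/-- posterior probability `P(f(X) = u | Y = y)` -/
noncomputable def post {n : ℕ} (ε : ℝ) (f : (Fin n → ℤˣ) → ℤˣ) (u : ℤˣ) (y : Fin n → ℤˣ) : ℝ :=
  ∑ x, if f x = u then W ε x y else 0

lemma jointFY_eq {n : ℕ} (ε : ℝ) (f : (Fin n → ℤˣ) → ℤˣ) (u : ℤˣ) (y : Fin n → ℤˣ) :
    jointFY ε f u y = post ε f u y / 2 ^ n := by
  unfold jointFY post
  rw [Finset.sum_div]
  apply Finset.sum_congr rfl
  intro x _
  split_ifs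
  · exact jointXY_eq ε x y
  · simp

lemma post_nonneg {n : ℕ} {ε : ℝ} (h0 : 0 ≤ ε) (h1 : ε ≤ 1) (f : (Fin n → ℤˣ) → ℤˣ) (u : ℤˣ)
    (y : Fin n → ℤˣ) : 0 ≤ post ε f u y := by
  unfold post
  apply Finset.sum_nonneg
  intro x _
  split_ifs
  · exact W_nonneg h0 h1 x y
  · exact le_rfl

lemma post_add {n : ℕ} (ε : ℝ) (f : (Fin n → ℤˣ) → ℤˣ) (y : Fin n → ℤˣ) :
    post ε f 1 y + post ε f (-1) y = 1 := by
  unfold post
  rw [← Finset.sum_add_distrib, ← sum_W_left ε y]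
  apply Finset.sum_congr rfl
  intro x _
  rcases Int.units_eq_one_or (f x) with h | h <;> simp [h]

/-- number of points where `f = u` -/
noncomputable def cnt {n : ℕ} (f : (Fin n → ℤˣ) → ℤˣ) (u : ℤˣ) : ℝ :=
  ((Finset.univ.filter (fun x => f x = u)).card : ℝ)

lemma sum_post {n : ℕ} (ε : ℝ) (f : (Fin n → ℤˣ) → ℤˣ) (u : ℤˣ) :
    ∑ y, post ε f u y = cnt f u := by
  unfold post cnt
  rw [Finset.sum_comm]
  have : ∀ x : Fin n → ℤˣ, (∑ y, if f x = u then W ε x y else 0) = if f x = u then 1 else 0 := by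
    intro x
    split_ifs
    · exact sum_W_right ε x
    · simp
  simp_rw [this]
  simp

lemma cnt_add {n : ℕ} (f : (Fin n → ℤˣ) → ℤˣ) : cnt f 1 + cnt f (-1) = 2 ^ n := by
  have h1 := sum_post (1/2) f 1
  have h2 := sum_post (1/2) f (-1)
  rw [← h1, ← h2, ← Finset.sum_add_distrib]
  simp_rw [post_add]
  simp

lemma cnt_nonneg {n : ℕ} (f : (Fin n → ℤˣ) → ℤˣ) (u : ℤˣ) : 0 ≤ cnt f u := by
  unfold cnt; positivity

lemma probOne_eq {n : ℕ} (f : (Fin n → ℤˣ) → ℤˣ) : probOne f = cnt f 1 / 2 ^ n := rfl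

lemma post_ne_zero_cnt {n : ℕ} {ε : ℝ} (f : (Fin n → ℤˣ) → ℤˣ) (u : ℤˣ)
    (y : Fin n → ℤˣ) (h : post ε f u y ≠ 0) : 0 < cnt f u := by
  unfold cnt
  unfold post at h
  obtain ⟨x, -, hx⟩ := Finset.exists_ne_zero_of_sum_ne_zero h
  have hfx : f x = u := by
    by_contra hne
    simp [hne] at hx
  have : 0 < (Finset.univ.filter (fun x => f x = u)).card := by
    apply Finset.card_pos.mpr
    exact ⟨x, by simp [hfx]⟩
  exact_mod_cast this

lemma term_eq (T a : ℝ) (h : T ≠ 0 → a ≠ 0) :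
    T * Real.logb 2 (T / a) = T * Real.log T / Real.log 2 - T * Real.log a / Real.log 2 := by
  by_cases hT : T = 0
  · simp [hT]
  · rw [Real.logb_div hT (h hT)]
    simp only [Real.logb]
    ring

lemma binEntropy_eq' (p : ℝ) :
    Real.binEntropy p = - (p * Real.log p) - (1 - p) * Real.log (1 - p) := by
  rw [Real.binEntropy_eq_negMulLog_add_negMulLog_one_sub]
  simp only [Real.negMulLog]
  ring

lemma term2 (p c N : ℝ) (hN : 0 < N) (h : p ≠ 0 → 0 < c) :
    (p / N) * Real.logb 2 ((p / N) / ((c / N) * (1 / N)))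
      = (p * Real.log p / Real.log 2 - p * Real.log (c / N) / Real.log 2) / N := by
  have e : (p / N) / ((c / N) * (1 / N)) = p / (c / N) := by
    by_cases hc : c = 0
    · simp [hc]
    · field_simp
  rw [e, div_mul_eq_mul_div, term_eq p (c / N)]
  intro hp
  exact (div_pos (h hp) hN).ne'

theorem infoFY_eq {n : ℕ} (ε : ℝ) (f : (Fin n → ℤˣ) → ℤˣ) :
    infoFY ε f = h2 (probOne f) - (∑ y, h2 (post ε f 1 y)) / 2 ^ n := by
  have hN : (0:ℝ) < 2 ^ n := by positivity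
  have hL : 0 < Real.log 2 := Real.log_pos (by norm_num)
  unfold infoFY mutualInfoBits
  have hrow : ∀ u, ∑ y, jointFY ε f u y = cnt f u / 2 ^ n := by
    intro u
    simp_rw [jointFY_eq]
    rw [← Finset.sum_div, sum_post]
  have hcol : ∀ y, ∑ u, jointFY ε f u y = 1 / 2 ^ n := by
    intro y
    rw [sum_units, jointFY_eq, jointFY_eq, ← add_div, post_add]
  simp_rw [hrow, hcol, jointFY_eq]
  rw [sum_units]
  have t1 : ∀ y, post ε f 1 y / 2 ^ n *
      Real.logb 2 (post ε f 1 y / 2 ^ n / (cnt f 1 / 2 ^ n * (1 / 2 ^ n)))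
      = (post ε f 1 y * Real.log (post ε f 1 y) / Real.log 2
          - post ε f 1 y * Real.log (cnt f 1 / 2 ^ n) / Real.log 2) / 2 ^ n := by
    intro y
    exact term2 _ _ _ hN (post_ne_zero_cnt f 1 y)
  have t2 : ∀ y, post ε f (-1) y / 2 ^ n *
      Real.logb 2 (post ε f (-1) y / 2 ^ n / (cnt f (-1) / 2 ^ n * (1 / 2 ^ n)))
      = (post ε f (-1) y * Real.log (post ε f (-1) y) / Real.log 2
          - post ε f (-1) y * Real.log (cnt f (-1) / 2 ^ n) / Real.log 2) / 2 ^ n := by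
    intro y
    exact term2 _ _ _ hN (post_ne_zero_cnt f (-1) y)
  simp_rw [t1, t2]
  have hm : ∀ y, post ε f (-1) y = 1 - post ε f 1 y := by
    intro y; linarith [post_add ε f y]
  have hc : cnt f (-1) = 2 ^ n - cnt f 1 := by linarith [cnt_add f]
  have hs1 : ∑ y, post ε f 1 y = cnt f 1 := sum_post ε f 1
  have hs2 : ∑ y, (1 - post ε f 1 y) = 2 ^ n - cnt f 1 := by
    rw [Finset.sum_sub_distrib, hs1]; simp
  simp_rw [hm, hc]
  rw [probOne_eq]
  unfold h2
  simp_rw [binEntropy_eq']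
  have hd : (2 ^ n - cnt f 1) / 2 ^ n = 1 - cnt f 1 / (2:ℝ) ^ n := by
    field_simp
  rw [hd]
  rw [← Finset.sum_div, ← Finset.sum_div, Finset.sum_sub_distrib, Finset.sum_sub_distrib,
    ← Finset.sum_div, ← Finset.sum_div, ← Finset.sum_div, ← Finset.sum_div, ← Finset.sum_mul, ← Finset.sum_mul,
    hs1, hs2, ← Finset.sum_div]
  simp_rw [sub_eq_add_neg, Finset.sum_add_distrib, Finset.sum_neg_distrib]
  field_simp
  ring

end Vale.Agent.Lib.P322
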