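import Vale.Agent.Lib.P322.Sdpi

namespace Vale.Agent.Lib.P322
open Finset

lemma binEntropy_kap (p : ℝ) : Real.binEntropy p = - kap p - kap (1 - p) := by
  rw [binEntropy_eq']; unfold kap; ring

lemma log_two_sub_binEntropy (ε : ℝ) :
    Real.log 2 - Real.binEntropy ε = Afun (1 - 2 * ε) / 2 := by
  rw [binEntropy_kap]
  have e1 : (1:ℝ) + (1 - 2 * ε) = 2 * (1 - ε) := by ring
  have e2 : (1:ℝ) - (1 - 2 * ε) = 2 * ε := by ring
  have k1 := kap_mul (m := 2) (c := 1 - ε) (by norm_num)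
  have k2 := kap_mul (m := 2) (c := ε) (by norm_num)
  unfold Afun
  rw [e1, e2]
  unfold kap at k1 k2 ⊢
  rw [k1, k2]
  ring

theorem info_le_sdpi {n : ℕ} {ε : ℝ} (h0 : 0 ≤ ε) (h1 : ε ≤ 1) (f : (Fin n → ℤˣ) → ℤˣ) :
    infoFY ε f ≤ (1 - 2 * ε) ^ 2 * h2 (probOne f) := by
  have hN : (0:ℝ) < 2 ^ n := by positivity
  have hL : 0 < Real.log 2 := Real.log_pos (by norm_num)
  set b : (Fin n → ℤˣ) → ℝ := fun x => if f x = 1 then 1 else 0 with hb
  set b' : (Fin n → ℤˣ) → ℝ := fun x => if f x = 1 then 0 else 1 with hb'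
  have hbn : ∀ x, 0 ≤ b x := by intro x; rw [hb]; dsimp only; split_ifs <;> norm_num
  have hbn' : ∀ x, 0 ≤ b' x := by intro x; rw [hb']; dsimp only; split_ifs <;> norm_num
  have hpost : ∀ y, noise ε b y = post ε f 1 y := by
    intro y
    unfold noise post
    apply Finset.sum_congr rfl
    intro x _
    rw [hb]; dsimp only
    split_ifs <;> simp
  have hpost' : ∀ y, noise ε b' y = 1 - post ε f 1 y := by
    intro y
    rw [← hpost y, ← sum_W_left ε y]
    unfold noise
    rw [← Finset.sum_sub_distrib]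
    apply Finset.sum_congr rfl
    intro x _
    rw [hb, hb']; dsimp only
    split_ifs <;> simp
  have havg : avg b = probOne f := by
    unfold avg probOne
    rw [Finset.card_filter]
    push_cast
    rfl
  have havg' : avg b' = 1 - probOne f := by
    have e : b' = fun x => 1 * (fun _ => (1:ℝ)) x + (-1) * b x := by
      funext x; rw [hb, hb']; dsimp only; split_ifs <;> norm_num
    rw [e, avg_lin, havg]
    unfold avg
    simp
    ring
  have hkb : (fun x => kap (b x)) = fun _ => 0 := by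
    funext x; rw [hb]; dsimp only; split_ifs <;> simp [kap]
  have hkb' : (fun x => kap (b' x)) = fun _ => 0 := by
    funext x; rw [hb']; dsimp only; split_ifs <;> simp [kap]
  have hent : ent b = - kap (probOne f) := by
    unfold ent; rw [hkb, havg]; simp [avg]
  have hent' : ent b' = - kap (1 - probOne f) := by
    unfold ent; rw [hkb', havg']; simp [avg]
  have s1 := sdpi n ε h0 h1 b hbn
  have s2 := sdpi n ε h0 h1 b' hbn'
  have hn1 : ent (noise ε b) = (∑ y, kap (post ε f 1 y)) / 2 ^ n - kap (probOne f) := by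
    unfold ent
    rw [avg_noise, havg]
    unfold avg
    simp_rw [hpost]
  have hn2 : ent (noise ε b') = (∑ y, kap (1 - post ε f 1 y)) / 2 ^ n - kap (1 - probOne f) := by
    unfold ent
    rw [avg_noise, havg']
    unfold avg
    simp_rw [hpost']
  rw [hn1, hent] at s1
  rw [hn2, hent'] at s2
  rw [infoFY_eq]
  unfold h2
  simp_rw [binEntropy_kap]
  rw [← Finset.sum_div, Finset.sum_sub_distrib, Finset.sum_neg_distrib]
  have key : (- kap (probOne f) - kap (1 - probOne f))
      - (-∑ y, kap (post ε f 1 y) - ∑ y, kap (1 - post ε f 1 y)) / 2 ^ n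
      ≤ (1 - 2 * ε) ^ 2 * (- kap (probOne f) - kap (1 - probOne f)) := by
    have : (-∑ y, kap (post ε f 1 y) - ∑ y, kap (1 - post ε f 1 y)) / 2 ^ n
        = - ((∑ y, kap (post ε f 1 y)) / 2 ^ n) - (∑ y, kap (1 - post ε f 1 y)) / 2 ^ n := by
      ring
    rw [this]
    linarith
  have key2 := div_le_div_of_nonneg_right key hL.le
  have e1 : ((- kap (probOne f) - kap (1 - probOne f))
      - (-∑ y, kap (post ε f 1 y) - ∑ y, kap (1 - post ε f 1 y)) / 2 ^ n) / Real.log 2
      = (- kap (probOne f) - kap (1 - probOne f)) / Real.log 2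
        - (-∑ y, kap (post ε f 1 y) - ∑ y, kap (1 - post ε f 1 y)) / Real.log 2 / 2 ^ n := by
    field_simp
  have e2 : (1 - 2 * ε) ^ 2 * (- kap (probOne f) - kap (1 - probOne f)) / Real.log 2
      = (1 - 2 * ε) ^ 2 * ((- kap (probOne f) - kap (1 - probOne f)) / Real.log 2) := by
    ring
  rw [e1, e2] at key2
  exact key2

theorem ck_of_entropy_le {n : ℕ} {ε : ℝ} (h0 : 0 ≤ ε) (h1 : ε ≤ 1) (f : (Fin n → ℤˣ) → ℤˣ)
    (hH : Real.binEntropy (probOne f) ≤ 1 / 2) : infoFY ε f ≤ 1 - h2 ε := by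
  have hL : 0 < Real.log 2 := Real.log_pos (by norm_num)
  have hs := info_le_sdpi h0 h1 f
  have hρ : |1 - 2 * ε| ≤ 1 := by rw [abs_le]; constructor <;> linarith
  have hA := Afun_ge_sq hρ
  have hid := log_two_sub_binEntropy ε
  have e : 1 - h2 ε = Afun (1 - 2 * ε) / 2 / Real.log 2 := by
    unfold h2
    rw [← hid]
    field_simp
  rw [e]
  have h3 : (1 - 2 * ε) ^ 2 * h2 (probOne f) ≤ (1 - 2 * ε) ^ 2 * (1 / 2 / Real.log 2) := by
    apply mul_le_mul_of_nonneg_left _ (sq_nonneg _)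
    unfold h2
    exact div_le_div_of_nonneg_right hH hL.le
  have h4 : (1 - 2 * ε) ^ 2 * (1 / 2 / Real.log 2) ≤ Afun (1 - 2 * ε) / 2 / Real.log 2 := by
    have : (1 - 2 * ε) ^ 2 * (1 / 2 / Real.log 2) = (1 - 2 * ε) ^ 2 / 2 / Real.log 2 := by ring
    rw [this]
    apply div_le_div_of_nonneg_right _ hL.le
    linarith
  linarith

lemma binEntropy_three_sixteenths : Real.binEntropy (3 / 16) ≤ 1 / 2 := by
  rw [binEntropy_eq']
  have hL2 := Real.log_two_lt_d9
  have hL0 : 0 < Real.log 2 := Real.log_pos (by norm_num)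
  have h3 : 79 * Real.log 2 ≤ 50 * Real.log 3 := by
    have := Real.log_le_log (by norm_num : (0:ℝ) < 2 ^ 79) (by norm_num : (2:ℝ) ^ 79 ≤ 3 ^ 50)
    rw [Real.log_pow, Real.log_pow] at this
    exact_mod_cast this
  have h13 : 37 * Real.log 2 ≤ 10 * Real.log 13 := by
    have := Real.log_le_log (by norm_num : (0:ℝ) < 2 ^ 37) (by norm_num : (2:ℝ) ^ 37 ≤ 13 ^ 10)
    rw [Real.log_pow, Real.log_pow] at this
    exact_mod_cast this
  have e1 : Real.log (3 / 16) = Real.log 3 - 4 * Real.log 2 := by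
    rw [Real.log_div (by norm_num) (by norm_num)]
    have : (16:ℝ) = 2 ^ 4 := by norm_num
    rw [this, Real.log_pow]; norm_num
  have e2 : Real.log (1 - 3 / 16) = Real.log 13 - 4 * Real.log 2 := by
    have : (1:ℝ) - 3 / 16 = 13 / 16 := by norm_num
    rw [this, Real.log_div (by norm_num) (by norm_num)]
    have : (16:ℝ) = 2 ^ 4 := by norm_num
    rw [this, Real.log_pow]; norm_num
  rw [e1, e2]
  nlinarith

theorem ck_of_biased {n : ℕ} {ε : ℝ} (h0 : 0 ≤ ε) (h1 : ε ≤ 1) (f : (Fin n → ℤˣ) → ℤˣ)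
    (hb : probOne f ≤ 3 / 16 ∨ 13 / 16 ≤ probOne f) : infoFY ε f ≤ 1 - h2 ε := by
  apply ck_of_entropy_le h0 h1 f
  have hN : (0:ℝ) < 2 ^ n := by positivity
  have hp0 : 0 ≤ probOne f := by
    rw [probOne_eq]; exact div_nonneg (cnt_nonneg f 1) hN.le
  have hp1 : probOne f ≤ 1 := by
    rw [probOne_eq, div_le_one hN]
    have := cnt_add f
    have := cnt_nonneg f (-1)
    linarith
  have hmono := Real.binEntropy_strictMonoOn.monotoneOn
  rcases hb with h | h
  · have := hmono (a := probOne f) (b := 3 / 16) ⟨hp0, by norm_num; linarith⟩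
      ⟨by norm_num, by norm_num⟩ h
    linarith [binEntropy_three_sixteenths]
  · rw [← Real.binEntropy_one_sub]
    have := hmono (a := 1 - probOne f) (b := 3 / 16) ⟨by linarith, by norm_num; linarith⟩
      ⟨by norm_num, by norm_num⟩ (by linarith)
    linarith [binEntropy_three_sixteenths]

end Vale.Agent.Lib.P322
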