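import Mathlib

namespace Vale.Agent.Lib.P322

open Finset

/-- `E[g(X) | X_j = x_j for all j < i]` for `X` uniform on `{-1,1}^n`:
the average of `g` over the points of the cube that agree with `x` in the first `i` coordinates. -/
noncomputable def condMean {n : ℕ} (g : (Fin n → ℤˣ) → ℝ) (i : ℕ) (x : Fin n → ℤˣ) : ℝ :=
  (∑ z : Fin n → ℤˣ, if (∀ j : Fin n, (j : ℕ) < i → z j = x j) then g z else 0) /
    (∑ z : Fin n → ℤˣ, if (∀ j : Fin n, (j : ℕ) < i → z j = x j) then (1 : ℝ) else 0)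

/-- The Doob martingale of `f`: `doob f i x = P(f(X) = 1 | X_j = x_j for all j < i)`. -/
noncomputable def doob {n : ℕ} (f : (Fin n → ℤˣ) → ℤˣ) (i : ℕ) (x : Fin n → ℤˣ) : ℝ :=
  condMean (fun z => if f z = 1 then (1 : ℝ) else 0) i x

/-- Normalized quadratic variation of the Doob martingale `M_i = doob f i X`:
`E ∑_{i < n} (M_{i+1} - M_i)^2 / (M_i (1 - M_i))` (terms with `M_i ∈ {0,1}` are `0`). -/
noncomputable def qvarDoob {n : ℕ} (f : (Fin n → ℤˣ) → ℤˣ) : ℝ :=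
  (∑ x : Fin n → ℤˣ, ∑ i ∈ Finset.range n,
      (doob f (i + 1) x - doob f i x) ^ 2 / (doob f i x * (1 - doob f i x))) / 2 ^ n

end Vale.Agent.Lib.P322
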