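import Vale.Agent.Lib.P322.Biased
import Vale.Agent.Lib.P322.DefsDoob

namespace Vale.Agent.Lib.P322
open Finset

/-- quadratic variation functional for a general `g` -/
noncomputable def qv {n : ℕ} (g : (Fin n → ℤˣ) → ℝ) : ℝ :=
  (∑ x : Fin n → ℤˣ, ∑ i ∈ Finset.range n,
      (condMean g (i + 1) x - condMean g i x) ^ 2 / (condMean g i x * (1 - condMean g i x))) / 2 ^ n

lemma qvarDoob_eq {n : ℕ} (f : (Fin n → ℤˣ) → ℤˣ) :
    qvarDoob f = qv (fun z => if f z = 1 then (1 : ℝ) else 0) := rfl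

lemma card_cube (n : ℕ) : (∑ _z : Fin n → ℤˣ, (1:ℝ)) = 2 ^ n := by
  simp

lemma condMean_zero {n : ℕ} (g : (Fin n → ℤˣ) → ℝ) (x : Fin n → ℤˣ) :
    condMean g 0 x = avg g := by
  unfold condMean avg
  simp

lemma ag_cons {n : ℕ} (i : ℕ) (t s : ℤˣ) (z' x' : Fin n → ℤˣ) :
    (∀ j : Fin (n + 1), (j : ℕ) < i + 1 →
        (Fin.cons t z' : Fin (n + 1) → ℤˣ) j = (Fin.cons s x' : Fin (n + 1) → ℤˣ) j)
      ↔ (t = s ∧ ∀ j : Fin n, (j : ℕ) < i → z' j = x' j) := by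
  rw [Fin.forall_fin_succ]
  simp

lemma condMean_cons {n : ℕ} (g : (Fin (n + 1) → ℤˣ) → ℝ) (i : ℕ) (s : ℤˣ) (x' : Fin n → ℤˣ) :
    condMean g (i + 1) (Fin.cons s x') = condMean (sl g s) i x' := by
  unfold condMean
  rw [sum_cons, sum_cons]
  simp only [ag_cons]
  unfold sl
  rcases Int.units_eq_one_or s with h | h
  · subst h
    have hne : ¬ ((-1 : ℤˣ) = 1) := by decide
    simp [hne]
  · subst h
    have hne : ¬ ((1 : ℤˣ) = -1) := by decide
    simp [hne]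

lemma qv_cons {n : ℕ} (g : (Fin (n + 1) → ℤˣ) → ℝ) :
    qv g = ((avg (sl g 1) - avg (sl g (-1))) / 2) ^ 2 / (avg g * (1 - avg g))
      + (qv (sl g 1) + qv (sl g (-1))) / 2 := by
  have hN : (0:ℝ) < 2 ^ n := by positivity
  have hslice : ∀ s : ℤˣ, (∑ x' : Fin n → ℤˣ, ∑ i ∈ Finset.range (n + 1),
      (condMean g (i + 1) (Fin.cons s x') - condMean g i (Fin.cons s x')) ^ 2 /
        (condMean g i (Fin.cons s x') * (1 - condMean g i (Fin.cons s x'))))
      = 2 ^ n * qv (sl g s) + 2 ^ n * ((avg (sl g s) - avg g) ^ 2 / (avg g * (1 - avg g))) := by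
    intro s
    have hterm : ∀ x' : Fin n → ℤˣ, (∑ i ∈ Finset.range (n + 1),
        (condMean g (i + 1) (Fin.cons s x') - condMean g i (Fin.cons s x')) ^ 2 /
          (condMean g i (Fin.cons s x') * (1 - condMean g i (Fin.cons s x'))))
        = (∑ i ∈ Finset.range n,
          (condMean (sl g s) (i + 1) x' - condMean (sl g s) i x') ^ 2 /
            (condMean (sl g s) i x' * (1 - condMean (sl g s) i x')))
          + (avg (sl g s) - avg g) ^ 2 / (avg g * (1 - avg g)) := by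
      intro x'
      rw [Finset.sum_range_succ']
      congr 1
      · apply Finset.sum_congr rfl
        intro i _
        rw [condMean_cons, condMean_cons]
      · rw [condMean_cons, condMean_zero, condMean_zero]
    simp_rw [hterm]
    rw [Finset.sum_add_distrib]
    unfold qv
    rw [Finset.sum_const, Finset.card_univ]
    have hcard : (Fintype.card (Fin n → ℤˣ) : ℝ) = 2 ^ n := by simp
    rw [nsmul_eq_mul, hcard]
    field_simp
  unfold qv at hslice ⊢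
  rw [sum_cons, hslice 1, hslice (-1), avg_cons g, pow_succ]
  have e1 : avg (sl g 1) - (avg (sl g 1) + avg (sl g (-1))) / 2
      = (avg (sl g 1) - avg (sl g (-1))) / 2 := by ring
  have e2 : avg (sl g (-1)) - (avg (sl g 1) + avg (sl g (-1))) / 2
      = -((avg (sl g 1) - avg (sl g (-1))) / 2) := by ring
  rw [e1, e2, neg_sq]
  field_simp
  ring

lemma p_convex {s₁ s₂ m₁ m₂ t : ℝ} (h₁ : |s₁| ≤ m₁) (h₂ : |s₂| ≤ m₂) (ht0 : 0 ≤ t) (ht1 : t ≤ 1) :
    (t * s₁ + (1 - t) * s₂) ^ 2 / (t * m₁ + (1 - t) * m₂)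
      ≤ t * (s₁ ^ 2 / m₁) + (1 - t) * (s₂ ^ 2 / m₂) := by
  have hm₁ : 0 ≤ m₁ := (abs_nonneg _).trans h₁
  have hm₂ : 0 ≤ m₂ := (abs_nonneg _).trans h₂
  have ht1' : 0 ≤ 1 - t := by linarith
  have hR : 0 ≤ t * (s₁ ^ 2 / m₁) + (1 - t) * (s₂ ^ 2 / m₂) := by
    have a1 : 0 ≤ s₁ ^ 2 / m₁ := div_nonneg (sq_nonneg _) hm₁
    have a2 : 0 ≤ s₂ ^ 2 / m₂ := div_nonneg (sq_nonneg _) hm₂
    positivity
  rcases eq_or_lt_of_le hm₁ with hz₁ | hp₁
  · have hs₁ : s₁ = 0 := by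
      have : |s₁| ≤ 0 := by rw [hz₁]; exact h₁
      exact abs_eq_zero.mp (le_antisymm this (abs_nonneg _))
    subst hs₁
    rw [← hz₁]
    by_cases hd : (1 - t) * m₂ = 0
    · simp [hd]
      exact mul_nonneg ht1' (div_nonneg (sq_nonneg _) hm₂)
    · have hne1 : (1 - t) ≠ 0 := fun h => hd (by rw [h]; ring)
      have hne2 : m₂ ≠ 0 := fun h => hd (by rw [h]; ring)
      have : (t * 0 + (1 - t) * s₂) ^ 2 / (t * 0 + (1 - t) * m₂) = (1 - t) * (s₂ ^ 2 / m₂) := by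
        field_simp
        ring
      rw [this]
      simp
  rcases eq_or_lt_of_le hm₂ with hz₂ | hp₂
  · have hs₂ : s₂ = 0 := by
      have : |s₂| ≤ 0 := by rw [hz₂]; exact h₂
      exact abs_eq_zero.mp (le_antisymm this (abs_nonneg _))
    subst hs₂
    rw [← hz₂]
    by_cases hd : t * m₁ = 0
    · simp [hd]
      exact mul_nonneg ht0 (div_nonneg (sq_nonneg _) hm₁)
    · have hne1 : t ≠ 0 := fun h => hd (by rw [h]; ring)
      have hne2 : m₁ ≠ 0 := fun h => hd (by rw [h]; ring)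
      have : (t * s₁ + (1 - t) * 0) ^ 2 / (t * m₁ + (1 - t) * 0) = t * (s₁ ^ 2 / m₁) := by
        field_simp
        ring
      rw [this]
      simp
  · have hM : 0 < t * m₁ + (1 - t) * m₂ := by
      rcases eq_or_lt_of_le ht0 with h | h
      · rw [← h]; simpa using hp₂
      · have : 0 < t * m₁ := mul_pos h hp₁
        have : 0 ≤ (1 - t) * m₂ := mul_nonneg ht1' hp₂.le
        linarith
    rw [div_le_iff₀ hM]
    have e : t * (s₁ ^ 2 / m₁) + (1 - t) * (s₂ ^ 2 / m₂)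
        = (t * s₁ ^ 2 * m₂ + (1 - t) * s₂ ^ 2 * m₁) / (m₁ * m₂) := by
      field_simp
    rw [e, div_mul_eq_mul_div, le_div_iff₀ (mul_pos hp₁ hp₂)]
    nlinarith [mul_nonneg (mul_nonneg ht0 ht1') (sq_nonneg (s₁ * m₂ - s₂ * m₁))]

/-- `r s m = s^2 / (m (1 - m))` -/
noncomputable def rfun (s m : ℝ) : ℝ := s ^ 2 / (m * (1 - m))

lemma rfun_eq {s m : ℝ} (h₁ : |s| ≤ m) (h₂ : |s| ≤ 1 - m) :
    rfun s m = s ^ 2 / m + s ^ 2 / (1 - m) := by
  unfold rfun
  have hm : 0 ≤ m := (abs_nonneg _).trans h₁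
  have hm' : 0 ≤ 1 - m := (abs_nonneg _).trans h₂
  rcases eq_or_lt_of_le hm with hz | hp
  · have hs : s = 0 := by
      have : |s| ≤ 0 := by rw [hz]; exact h₁
      exact abs_eq_zero.mp (le_antisymm this (abs_nonneg _))
    subst hs; simp
  rcases eq_or_lt_of_le hm' with hz' | hp'
  · have hs : s = 0 := by
      have : |s| ≤ 0 := by rw [hz']; exact h₂
      exact abs_eq_zero.mp (le_antisymm this (abs_nonneg _))
    subst hs; simp
  · field_simp
    ring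

lemma rfun_convex {s₁ s₂ m₁ m₂ t : ℝ} (h₁ : |s₁| ≤ m₁) (h₁' : |s₁| ≤ 1 - m₁)
    (h₂ : |s₂| ≤ m₂) (h₂' : |s₂| ≤ 1 - m₂) (ht0 : 0 ≤ t) (ht1 : t ≤ 1) :
    rfun (t * s₁ + (1 - t) * s₂) (t * m₁ + (1 - t) * m₂)
      ≤ t * rfun s₁ m₁ + (1 - t) * rfun s₂ m₂ := by
  have ht1' : 0 ≤ 1 - t := by linarith
  have hc : |t * s₁ + (1 - t) * s₂| ≤ t * |s₁| + (1 - t) * |s₂| := by
    calc |t * s₁ + (1 - t) * s₂| ≤ |t * s₁| + |(1 - t) * s₂| := abs_add_le _ _
      _ = t * |s₁| + (1 - t) * |s₂| := by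
          rw [abs_mul, abs_mul, abs_of_nonneg ht0, abs_of_nonneg ht1']
  have hA : |t * s₁ + (1 - t) * s₂| ≤ t * m₁ + (1 - t) * m₂ := by
    have := mul_le_mul_of_nonneg_left h₁ ht0
    have := mul_le_mul_of_nonneg_left h₂ ht1'
    linarith
  have hB : |t * s₁ + (1 - t) * s₂| ≤ 1 - (t * m₁ + (1 - t) * m₂) := by
    have := mul_le_mul_of_nonneg_left h₁' ht0
    have := mul_le_mul_of_nonneg_left h₂' ht1'
    linarith
  rw [rfun_eq hA hB, rfun_eq h₁ h₁', rfun_eq h₂ h₂']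
  have c1 := p_convex h₁ h₂ ht0 ht1
  have c2 := p_convex h₁' h₂' ht0 ht1
  have e : 1 - (t * m₁ + (1 - t) * m₂) = t * (1 - m₁) + (1 - t) * (1 - m₂) := by ring
  rw [e]
  linarith

lemma avg_le_one {n : ℕ} {g : (Fin n → ℤˣ) → ℝ} (hg : ∀ x, g x ≤ 1) : avg g ≤ 1 := by
  unfold avg
  have hN : (0:ℝ) < 2 ^ n := by positivity
  rw [div_le_one hN]
  calc ∑ x, g x ≤ ∑ _x : Fin n → ℤˣ, (1:ℝ) := Finset.sum_le_sum (fun x _ => hg x)
    _ = 2 ^ n := card_cube n

lemma qv_zero (g : (Fin 0 → ℤˣ) → ℝ) : qv g = 0 := by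
  unfold qv
  simp

lemma slice_dom {n : ℕ} {g : (Fin (n + 1) → ℤˣ) → ℝ} (hg : ∀ x, 0 ≤ g x ∧ g x ≤ 1) :
    |(avg (sl g 1) - avg (sl g (-1))) / 2| ≤ avg g
      ∧ |(avg (sl g 1) - avg (sl g (-1))) / 2| ≤ 1 - avg g := by
  have a1 : 0 ≤ avg (sl g 1) := avg_nonneg (fun x => (hg _).1)
  have a2 : 0 ≤ avg (sl g (-1)) := avg_nonneg (fun x => (hg _).1)
  have b1 : avg (sl g 1) ≤ 1 := avg_le_one (fun x => (hg _).2)
  have b2 : avg (sl g (-1)) ≤ 1 := avg_le_one (fun x => (hg _).2)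
  rw [avg_cons g]
  constructor
  · rw [abs_le]; constructor <;> linarith
  · rw [abs_le]; constructor <;> linarith

theorem qv_convex : ∀ (n : ℕ) (g₁ g₂ : (Fin n → ℤˣ) → ℝ), (∀ x, 0 ≤ g₁ x ∧ g₁ x ≤ 1) →
    (∀ x, 0 ≤ g₂ x ∧ g₂ x ≤ 1) → ∀ t : ℝ, 0 ≤ t → t ≤ 1 →
    qv (fun x => t * g₁ x + (1 - t) * g₂ x) ≤ t * qv g₁ + (1 - t) * qv g₂ := by
  intro n
  induction n with
  | zero =>
    intro g₁ g₂ _ _ t _ _
    rw [qv_zero, qv_zero, qv_zero]; simp
  | succ n ih =>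
    intro g₁ g₂ h₁ h₂ t ht0 ht1
    have ht1' : 0 ≤ 1 - t := by linarith
    rw [qv_cons, qv_cons g₁, qv_cons g₂]
    have hsl : ∀ s : ℤˣ, sl (fun x => t * g₁ x + (1 - t) * g₂ x) s
        = fun x' => t * sl g₁ s x' + (1 - t) * sl g₂ s x' := fun s => rfl
    rw [hsl 1, hsl (-1), avg_lin, avg_lin, avg_lin]
    have hs1 : ∀ s : ℤˣ, ∀ x', 0 ≤ sl g₁ s x' ∧ sl g₁ s x' ≤ 1 := fun s x' => h₁ _
    have hs2 : ∀ s : ℤˣ, ∀ x', 0 ≤ sl g₂ s x' ∧ sl g₂ s x' ≤ 1 := fun s x' => h₂ _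
    have i1 := ih (sl g₁ 1) (sl g₂ 1) (hs1 1) (hs2 1) t ht0 ht1
    have i2 := ih (sl g₁ (-1)) (sl g₂ (-1)) (hs1 (-1)) (hs2 (-1)) t ht0 ht1
    obtain ⟨d1, d1'⟩ := slice_dom h₁
    obtain ⟨d2, d2'⟩ := slice_dom h₂
    have hr := rfun_convex d1 d1' d2 d2' ht0 ht1
    unfold rfun at hr
    have e : (t * avg (sl g₁ 1) + (1 - t) * avg (sl g₂ 1)
        - (t * avg (sl g₁ (-1)) + (1 - t) * avg (sl g₂ (-1)))) / 2
        = t * ((avg (sl g₁ 1) - avg (sl g₁ (-1))) / 2)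
          + (1 - t) * ((avg (sl g₂ 1) - avg (sl g₂ (-1))) / 2) := by ring
    rw [e]
    linarith

lemma two_point_chi {u v ε : ℝ} (hu : 0 ≤ u) (hv : 0 ≤ v) (h0 : 0 ≤ ε) (h1 : ε ≤ 1) :
    (kap ((1 - ε) * u + ε * v) + kap (ε * u + (1 - ε) * v)) / 2 - kap ((u + v) / 2)
      ≤ ((u - v) / 2) ^ 2 / ((u + v) / 2) * (Afun (1 - 2 * ε) / 2) := by
  by_cases hm0 : u + v = 0
  · have hu0 : u = 0 := by linarith
    have hv0 : v = 0 := by linarith
    simp [hu0, hv0, kap_zero]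
  · have hm : 0 < (u + v) / 2 := by
      have : 0 < u + v := lt_of_le_of_ne (by linarith) (Ne.symm hm0)
      linarith
    set m := (u + v) / 2 with hmdef
    set x := (u - v) / (u + v) with hxdef
    set ρ := 1 - 2 * ε with hρdef
    have hx : |x| ≤ 1 := by
      rw [hxdef, abs_div, div_le_one (abs_pos.mpr hm0)]
      rw [abs_le]
      constructor
      · rw [abs_of_nonneg (by linarith : (0:ℝ) ≤ u + v)]; linarith
      · rw [abs_of_nonneg (by linarith : (0:ℝ) ≤ u + v)]; linarith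
    have hρ : |ρ| ≤ 1 := by
      rw [abs_le]; constructor <;> linarith
    have hmx : m * x = (u - v) / 2 := by
      rw [hmdef, hxdef]; field_simp
    have ep : (1 - ε) * u + ε * v = m * (1 + ρ * x) := by
      have : m * (1 + ρ * x) = m + ρ * (m * x) := by ring
      rw [this, hmx, hmdef, hρdef]; ring
    have eq : ε * u + (1 - ε) * v = m * (1 - ρ * x) := by
      have : m * (1 - ρ * x) = m - ρ * (m * x) := by ring
      rw [this, hmx, hmdef, hρdef]; ring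
    rw [ep, eq, K_id hm, ← hmx]
    have hsc : Afun (ρ * x) ≤ x ^ 2 * Afun ρ := by
      rw [mul_comm]
      exact Afun_scale hρ hx
    have hm2 : 0 ≤ m / 2 := by linarith
    have e : (m * x) ^ 2 / m * (Afun ρ / 2) = m / 2 * (x ^ 2 * Afun ρ) := by
      field_simp
    rw [e]
    exact mul_le_mul_of_nonneg_left hsc hm2

/-- `I(U;Y)` in nats for `U | X ~ Bernoulli(g(X))` -/
noncomputable def Jf {n : ℕ} (ε : ℝ) (g : (Fin n → ℤˣ) → ℝ) : ℝ :=
  ent (noise ε g) + ent (noise ε (fun x => 1 - g x))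

theorem chain_bound : ∀ (n : ℕ) (ε : ℝ), 0 ≤ ε → ε ≤ 1 → ∀ g : (Fin n → ℤˣ) → ℝ,
    (∀ x, 0 ≤ g x ∧ g x ≤ 1) → Jf ε g ≤ qv g * (Afun (1 - 2 * ε) / 2) := by
  intro n
  induction n with
  | zero =>
    intro ε _ _ g _
    unfold Jf
    rw [ent_zero, ent_zero, qv_zero]; simp
  | succ n ih =>
    intro ε h0 h1 g hg
    have hρ : |1 - 2 * ε| ≤ 1 := by rw [abs_le]; constructor <;> linarith
    have hA : 0 ≤ Afun (1 - 2 * ε) / 2 := by
      have := Afun_ge_sq hρ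
      have := sq_nonneg (1 - 2 * ε)
      linarith
    have hs1 : ∀ x', 0 ≤ sl g 1 x' ∧ sl g 1 x' ≤ 1 := fun x' => hg _
    have hs2 : ∀ x', 0 ≤ sl g (-1) x' ∧ sl g (-1) x' ≤ 1 := fun x' => hg _
    have hw11 : w1 ε 1 1 = 1 - ε := by simp [w1]
    have hw12 : w1 ε (-1) 1 = ε := by
      have : ¬ ((-1 : ℤˣ) = 1) := by decide
      simp [w1, this]
    have hw21 : w1 ε 1 (-1) = ε := by
      have : ¬ ((1 : ℤˣ) = -1) := by decide
      simp [w1, this]
    have hw22 : w1 ε (-1) (-1) = 1 - ε := by simp [w1]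
    set c1 : (Fin n → ℤˣ) → ℝ := fun x' => (1 - ε) * sl g 1 x' + (1 - (1 - ε)) * sl g (-1) x' with hc1
    set c2 : (Fin n → ℤˣ) → ℝ := fun x' => ε * sl g 1 x' + (1 - ε) * sl g (-1) x' with hc2
    have hn1 : sl (noise ε g) 1 = noise ε c1 := by
      rw [noise_cons, hw11, hw12, hc1]
      congr 1; funext x'; ring
    have hn2 : sl (noise ε g) (-1) = noise ε c2 := by
      rw [noise_cons, hw21, hw22]
    have hn1' : sl (noise ε (fun x => 1 - g x)) 1 = noise ε (fun x' => 1 - c1 x') := by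
      rw [noise_cons, hw11, hw12, hc1]
      congr 1; funext x'; unfold sl; ring
    have hn2' : sl (noise ε (fun x => 1 - g x)) (-1) = noise ε (fun x' => 1 - c2 x') := by
      rw [noise_cons, hw21, hw22, hc2]
      congr 1; funext x'; unfold sl; ring
    have hc1n : ∀ x', 0 ≤ c1 x' ∧ c1 x' ≤ 1 := by
      intro x'
      obtain ⟨p1, p2⟩ := hs1 x'
      obtain ⟨q1, q2⟩ := hs2 x'
      rw [hc1]
      constructor
      · have h3 : 0 ≤ (1 - ε) * sl g 1 x' := mul_nonneg (by linarith) p1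
        have h4 : 0 ≤ (1 - (1 - ε)) * sl g (-1) x' := mul_nonneg (by linarith) q1
        simpa using add_nonneg h3 h4
      · have h3 : (1 - ε) * sl g 1 x' ≤ (1 - ε) * 1 := mul_le_mul_of_nonneg_left p2 (by linarith)
        have h4 : (1 - (1 - ε)) * sl g (-1) x' ≤ (1 - (1 - ε)) * 1 :=
          mul_le_mul_of_nonneg_left q2 (by linarith)
        show (1 - ε) * sl g 1 x' + (1 - (1 - ε)) * sl g (-1) x' ≤ 1
        linarith
    have hc2n : ∀ x', 0 ≤ c2 x' ∧ c2 x' ≤ 1 := by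
      intro x'
      obtain ⟨p1, p2⟩ := hs1 x'
      obtain ⟨q1, q2⟩ := hs2 x'
      rw [hc2]
      constructor
      · have h3 : 0 ≤ ε * sl g 1 x' := mul_nonneg h0 p1
        have h4 : 0 ≤ (1 - ε) * sl g (-1) x' := mul_nonneg (by linarith) q1
        simpa using add_nonneg h3 h4
      · have h3 : ε * sl g 1 x' ≤ ε * 1 := mul_le_mul_of_nonneg_left p2 h0
        have h4 : (1 - ε) * sl g (-1) x' ≤ (1 - ε) * 1 :=
          mul_le_mul_of_nonneg_left q2 (by linarith)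
        show ε * sl g 1 x' + (1 - ε) * sl g (-1) x' ≤ 1
        linarith
    have ih1 := ih ε h0 h1 c1 hc1n
    have ih2 := ih ε h0 h1 c2 hc2n
    have cv1 : qv c1 ≤ (1 - ε) * qv (sl g 1) + (1 - (1 - ε)) * qv (sl g (-1)) :=
      qv_convex n (sl g 1) (sl g (-1)) hs1 hs2 (1 - ε) (by linarith) (by linarith)
    have cv2 : qv c2 ≤ ε * qv (sl g 1) + (1 - ε) * qv (sl g (-1)) :=
      qv_convex n (sl g 1) (sl g (-1)) hs1 hs2 ε h0 h1
    have ha1 : avg (noise ε c1) = (1 - ε) * avg (sl g 1) + ε * avg (sl g (-1)) := by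
      rw [avg_noise, hc1, avg_lin]; ring
    have ha2 : avg (noise ε c2) = ε * avg (sl g 1) + (1 - ε) * avg (sl g (-1)) := by
      rw [avg_noise, hc2, avg_lin]
    have hone : ∀ c : (Fin n → ℤˣ) → ℝ, avg (fun x' => 1 - c x') = 1 - avg c := by
      intro c
      have e : (fun x' => 1 - c x') = fun x' => 1 * (fun _ => (1:ℝ)) x' + (-1) * c x' := by
        funext x'; ring
      rw [e, avg_lin]
      unfold avg
      simp
      ring
    have ha1' : avg (noise ε (fun x' => 1 - c1 x'))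
        = (1 - ε) * (1 - avg (sl g 1)) + ε * (1 - avg (sl g (-1))) := by
      rw [avg_noise, hone, ← avg_noise ε c1, ha1]; ring
    have ha2' : avg (noise ε (fun x' => 1 - c2 x'))
        = ε * (1 - avg (sl g 1)) + (1 - ε) * (1 - avg (sl g (-1))) := by
      rw [avg_noise, hone, ← avg_noise ε c2, ha2]; ring
    have a1 : 0 ≤ avg (sl g 1) := avg_nonneg (fun x => (hs1 x).1)
    have a2 : 0 ≤ avg (sl g (-1)) := avg_nonneg (fun x => (hs2 x).1)
    have b1 : avg (sl g 1) ≤ 1 := avg_le_one (fun x => (hs1 x).2)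
    have b2 : avg (sl g (-1)) ≤ 1 := avg_le_one (fun x => (hs2 x).2)
    have tp := two_point_chi a1 a2 h0 h1
    have tp' := two_point_chi (by linarith : (0:ℝ) ≤ 1 - avg (sl g 1))
      (by linarith : (0:ℝ) ≤ 1 - avg (sl g (-1))) h0 h1
    obtain ⟨d1, d1'⟩ := slice_dom hg
    have hr := rfun_eq d1 d1'
    unfold Jf at ih1 ih2 ⊢
    rw [ent_cons (noise ε g), ent_cons (noise ε (fun x => 1 - g x)), hn1, hn2, hn1', hn2',
      ha1, ha2, ha1', ha2', qv_cons g]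
    have hmid : ((1 - ε) * avg (sl g 1) + ε * avg (sl g (-1))
        + (ε * avg (sl g 1) + (1 - ε) * avg (sl g (-1)))) / 2
        = (avg (sl g 1) + avg (sl g (-1))) / 2 := by ring
    have hmid' : ((1 - ε) * (1 - avg (sl g 1)) + ε * (1 - avg (sl g (-1)))
        + (ε * (1 - avg (sl g 1)) + (1 - ε) * (1 - avg (sl g (-1))))) / 2
        = ((1 - avg (sl g 1)) + (1 - avg (sl g (-1)))) / 2 := by ring
    rw [hmid, hmid']
    have e1 : ((1 - avg (sl g 1)) - (1 - avg (sl g (-1)))) / 2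
        = -((avg (sl g 1) - avg (sl g (-1))) / 2) := by ring
    have e2 : ((1 - avg (sl g 1)) + (1 - avg (sl g (-1)))) / 2 = 1 - avg g := by
      rw [avg_cons g]; ring
    have e3 : (avg (sl g 1) + avg (sl g (-1))) / 2 = avg g := by rw [avg_cons g]
    rw [e1, e2, neg_sq] at tp'
    rw [e3] at tp
    unfold rfun at hr
    rw [hr]
    have hq1 := mul_le_mul_of_nonneg_right cv1 hA
    have hq2 := mul_le_mul_of_nonneg_right cv2 hA
    rw [e2, e3]
    nlinarith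

end Vale.Agent.Lib.P322
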