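import Vale.Agent.Lib.P322.Chain

namespace Vale.Agent.Lib.P322
open Finset

theorem info_eq_Jf {n : ℕ} (ε : ℝ) (f : (Fin n → ℤˣ) → ℤˣ) :
    infoFY ε f = Jf ε (fun x => if f x = 1 then (1:ℝ) else 0) / Real.log 2 := by
  have hN : (0:ℝ) < 2 ^ n := by positivity
  have hL : 0 < Real.log 2 := Real.log_pos (by norm_num)
  set b : (Fin n → ℤˣ) → ℝ := fun x => if f x = 1 then 1 else 0 with hb
  have hpost : ∀ y, noise ε b y = post ε f 1 y := by
    intro y
    unfold noise post
    apply Finset.sum_congr rfl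
    intro x _
    rw [hb]; dsimp only
    split_ifs <;> simp
  have hpost' : ∀ y, noise ε (fun x => 1 - b x) y = 1 - post ε f 1 y := by
    intro y
    have e : noise ε (fun x => 1 - b x) y = ∑ x, W ε x y - noise ε b y := by
      unfold noise
      rw [← Finset.sum_sub_distrib]
      apply Finset.sum_congr rfl
      intro x _
      ring
    rw [e, sum_W_left, hpost]
  have havg : avg b = probOne f := by
    unfold avg probOne
    rw [Finset.card_filter]
    push_cast
    rfl
  have havg' : avg (fun x => 1 - b x) = 1 - probOne f := by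
    have e : (fun x => 1 - b x) = fun x => 1 * (fun _ => (1:ℝ)) x + (-1) * b x := by
      funext x; ring
    rw [e, avg_lin, havg]
    unfold avg
    simp
    ring
  have hn1 : ent (noise ε b) = (∑ y, kap (post ε f 1 y)) / 2 ^ n - kap (probOne f) := by
    unfold ent
    rw [avg_noise, havg]
    unfold avg
    simp_rw [hpost]
  have hn2 : ent (noise ε (fun x => 1 - b x))
      = (∑ y, kap (1 - post ε f 1 y)) / 2 ^ n - kap (1 - probOne f) := by
    unfold ent
    rw [avg_noise, havg']
    unfold avg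
    simp_rw [hpost']
  unfold Jf
  rw [hn1, hn2, infoFY_eq]
  unfold h2
  simp_rw [binEntropy_kap]
  rw [← Finset.sum_div, Finset.sum_sub_distrib, Finset.sum_neg_distrib]
  field_simp
  ring

theorem one_sub_h2 (ε : ℝ) : 1 - h2 ε = Afun (1 - 2 * ε) / 2 / Real.log 2 := by
  have hL : 0 < Real.log 2 := Real.log_pos (by norm_num)
  unfold h2
  rw [← log_two_sub_binEntropy ε]
  field_simp

theorem info_le_qvar {n : ℕ} {ε : ℝ} (h0 : 0 ≤ ε) (h1 : ε ≤ 1) (f : (Fin n → ℤˣ) → ℤˣ) :
    infoFY ε f ≤ qvarDoob f * (1 - h2 ε) := by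
  have hL : 0 < Real.log 2 := Real.log_pos (by norm_num)
  rw [info_eq_Jf, one_sub_h2, qvarDoob_eq]
  have hb : ∀ x, 0 ≤ (fun x => if f x = 1 then (1:ℝ) else 0) x
      ∧ (fun x => if f x = 1 then (1:ℝ) else 0) x ≤ 1 := by
    intro x; dsimp only; split_ifs <;> norm_num
  have := chain_bound n ε h0 h1 _ hb
  have h3 := div_le_div_of_nonneg_right this hL.le
  calc Jf ε (fun x => if f x = 1 then (1:ℝ) else 0) / Real.log 2
      ≤ qv (fun x => if f x = 1 then (1:ℝ) else 0) * (Afun (1 - 2 * ε) / 2) / Real.log 2 := h3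
    _ = qv (fun x => if f x = 1 then (1:ℝ) else 0) * (Afun (1 - 2 * ε) / 2 / Real.log 2) := by
        ring

theorem one_sub_h2_nonneg {ε : ℝ} (h0 : 0 ≤ ε) (h1 : ε ≤ 1) : 0 ≤ 1 - h2 ε := by
  have hL : 0 < Real.log 2 := Real.log_pos (by norm_num)
  rw [one_sub_h2]
  have hρ : |1 - 2 * ε| ≤ 1 := by rw [abs_le]; constructor <;> linarith
  have h3 := Afun_ge_sq hρ
  have h4 := sq_nonneg (1 - 2 * ε)
  exact div_nonneg (div_nonneg (by linarith) (by norm_num)) hL.le

end Vale.Agent.Lib.P322
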