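import Vale.Agent.Lib.P322.Union

namespace Vale.Agent.Lib.P322
open Finset

/-- Harnack inequality for the noise weight in its second argument. -/
lemma W_adjacent_right {n : ℕ} {ε : ℝ} (h0 : 0 ≤ ε) (h1 : ε ≤ 1 / 2) (x y y' : Fin n → ℤˣ)
    (h : ∃! i, y' i ≠ y i) : ε * W ε x y ≤ (1 - ε) * W ε x y' := by
  rw [W_symm ε x y, W_symm ε x y']
  exact W_adjacent h0 h1 y y' x h

/-- Harnack inequality for the posterior along an edge of the cube. -/
lemma post_adjacent {n : ℕ} {ε : ℝ} (h0 : 0 ≤ ε) (h1 : ε ≤ 1 / 2) (f : (Fin n → ℤˣ) → ℤˣ)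
    (u : ℤˣ) (y y' : Fin n → ℤˣ) (h : ∃! i, y' i ≠ y i) :
    ε * post ε f u y ≤ (1 - ε) * post ε f u y' := by
  unfold post
  rw [Finset.mul_sum, Finset.mul_sum]
  apply Finset.sum_le_sum
  intro x _
  split_ifs
  · exact W_adjacent_right h0 h1 x y y' h
  · simp

lemma pair_aux {ε u w : ℝ} (h0 : 0 ≤ ε) (h1 : ε ≤ 1 / 2)
    (hε : 2 * Real.binEntropy ε ≤ Real.log 2)
    (hu0 : 0 ≤ u) (huw : u ≤ w) (hw : w ≤ 1 / 2) (hc : ε ≤ (1 - ε) * u + ε * w) :
    2 * Real.binEntropy ε ≤ Real.binEntropy u + Real.binEntropy w := by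
  have hmono := Real.binEntropy_strictMonoOn.monotoneOn
  have hB0 : 0 ≤ Real.binEntropy ε := Real.binEntropy_nonneg h0 (by linarith)
  by_cases hu : ε ≤ u
  · have e1 : Real.binEntropy ε ≤ Real.binEntropy u :=
      hmono ⟨h0, by norm_num at h1 ⊢; linarith⟩ ⟨hu0, by norm_num at hw ⊢; linarith⟩ hu
    have e2 : Real.binEntropy ε ≤ Real.binEntropy w :=
      hmono ⟨h0, by norm_num at h1 ⊢; linarith⟩ ⟨by linarith, by norm_num at hw ⊢; linarith⟩
        (hu.trans huw)
    linarith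
  · rw [not_le] at hu
    have hεpos : 0 < ε := lt_of_le_of_lt hu0 hu
    have hlt : ε < 1 / 2 := by
      rcases h1.lt_or_eq with h | h
      · exact h
      · exfalso
        rw [h, one_div, Real.binEntropy_two_inv] at hε
        have := Real.log_pos (by norm_num : (1:ℝ) < 2)
        linarith
    obtain ⟨r, hr⟩ : ∃ r : ℝ, u = r * ε := ⟨u / ε, by field_simp⟩
    have hr0 : 0 ≤ r := by
      by_contra hcon
      rw [not_le] at hcon
      nlinarith
    have hr1 : r ≤ 1 := by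
      by_contra hcon
      rw [not_le] at hcon
      nlinarith
    -- chord of the entropy from 0 to ε
    have c1 : r * Real.binEntropy ε ≤ Real.binEntropy u := by
      have hx : ε ∈ Set.Icc (0:ℝ) 1 := ⟨h0, by linarith⟩
      have hy : (0:ℝ) ∈ Set.Icc (0:ℝ) 1 := ⟨le_rfl, zero_le_one⟩
      have hc' := Real.strictConcave_binEntropy.concaveOn.2 hx hy hr0 (sub_nonneg.mpr hr1)
        (by ring)
      simp only [smul_eq_mul, Real.binEntropy_zero, mul_zero, add_zero] at hc'
      rw [hr]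
      exact hc'
    -- the point w0 on the constraint line
    have hw0w : 1 - (1 - ε) * r ≤ w := by
      by_contra hcon
      rw [not_le] at hcon
      rw [hr] at hc
      nlinarith
    have hw0ε : ε ≤ 1 - (1 - ε) * r := by nlinarith
    have e2 : Real.binEntropy (1 - (1 - ε) * r) ≤ Real.binEntropy w :=
      hmono ⟨by linarith, by norm_num at hw ⊢; linarith⟩
        ⟨by linarith, by norm_num at hw ⊢; linarith⟩ hw0w
    have hd : 0 < 1 / 2 - ε := by linarith
    obtain ⟨μ, hμ⟩ : ∃ μ : ℝ, μ * (1 / 2 - ε) = (1 - ε) * (1 - r) :=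
      ⟨(1 - ε) * (1 - r) / (1 / 2 - ε), div_mul_cancel₀ _ hd.ne'⟩
    have hμ0 : 0 ≤ μ := by
      by_contra hcon
      rw [not_le] at hcon
      nlinarith
    have hμ1 : μ ≤ 1 := by
      by_contra hcon
      rw [not_le] at hcon
      nlinarith
    have hμr : 1 - r ≤ μ := by
      by_contra hcon
      rw [not_le] at hcon
      nlinarith
    have c2 : μ * Real.log 2 + (1 - μ) * Real.binEntropy ε
        ≤ Real.binEntropy (1 - (1 - ε) * r) := by
      have hx : (2⁻¹ : ℝ) ∈ Set.Icc (0:ℝ) 1 := ⟨by norm_num, by norm_num⟩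
      have hy : ε ∈ Set.Icc (0:ℝ) 1 := ⟨h0, by linarith⟩
      have hc' := Real.strictConcave_binEntropy.concaveOn.2 hx hy hμ0 (sub_nonneg.mpr hμ1)
        (by ring)
      simp only [smul_eq_mul, Real.binEntropy_two_inv] at hc'
      have harg : μ * 2⁻¹ + (1 - μ) * ε = 1 - (1 - ε) * r := by
        have : μ * 2⁻¹ + (1 - μ) * ε = μ * (1 / 2 - ε) + ε := by ring
        rw [this, hμ]
        ring
      rw [harg] at hc'
      exact hc'
    have p1 : 0 ≤ μ * (Real.log 2 - 2 * Real.binEntropy ε) :=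
      mul_nonneg hμ0 (by linarith)
    have p2 : 0 ≤ Real.binEntropy ε * (μ - (1 - r)) := mul_nonneg hB0 (by linarith)
    nlinarith

lemma pair_half {ε Q Q' : ℝ} (h0 : 0 ≤ ε) (h1 : ε ≤ 1 / 2)
    (hε : 2 * Real.binEntropy ε ≤ Real.log 2)
    (hQ : 1 / 2 ≤ Q) (hQ1 : Q ≤ 1) (hQ'0 : 0 ≤ Q') (hQ' : Q' ≤ 1 / 2)
    (a1 : ε * Q ≤ (1 - ε) * Q') (a4 : ε * (1 - Q') ≤ (1 - ε) * (1 - Q)) :
    2 * Real.binEntropy ε ≤ Real.binEntropy Q + Real.binEntropy Q' := by
  rw [← Real.binEntropy_one_sub Q]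
  rcases le_total (1 - Q) Q' with h | h
  · exact pair_aux h0 h1 hε (by linarith) h hQ' (by nlinarith)
  · have := pair_aux h0 h1 hε hQ'0 h (by linarith) (by nlinarith)
    linarith

/-- Two posteriors at the ends of a cube edge that lie on opposite sides of `1/2` carry total
entropy at least `2 H(ε)`, provided `2 H(ε) ≤ log 2`. -/
lemma pair_entropy {ε Q Q' : ℝ} (h0 : 0 ≤ ε) (h1 : ε ≤ 1 / 2)
    (hε : 2 * Real.binEntropy ε ≤ Real.log 2)
    (hQ0 : 0 ≤ Q) (hQ1 : Q ≤ 1) (hQ'0 : 0 ≤ Q') (hQ'1 : Q' ≤ 1)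
    (a1 : ε * Q ≤ (1 - ε) * Q') (a2 : ε * Q' ≤ (1 - ε) * Q)
    (a3 : ε * (1 - Q) ≤ (1 - ε) * (1 - Q')) (a4 : ε * (1 - Q') ≤ (1 - ε) * (1 - Q))
    (hopp : (Q - 1 / 2) * (Q' - 1 / 2) ≤ 0) :
    2 * Real.binEntropy ε ≤ Real.binEntropy Q + Real.binEntropy Q' := by
  rcases lt_trichotomy Q (1 / 2) with h | h | h
  · have hQ' : 1 / 2 ≤ Q' := by
      by_contra hcon
      rw [not_le] at hcon
      nlinarith [mul_pos (sub_pos.mpr h) (sub_pos.mpr hcon)]
    have := pair_half h0 h1 hε hQ' hQ'1 hQ0 h.le a2 a3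
    linarith
  · rw [h, one_div, Real.binEntropy_two_inv]
    have := Real.binEntropy_nonneg hQ'0 hQ'1
    linarith
  · have hQ' : Q' ≤ 1 / 2 := by
      by_contra hcon
      rw [not_le] at hcon
      nlinarith [mul_pos (sub_pos.mpr h) (sub_pos.mpr hcon)]
    exact pair_half h0 h1 hε h.le hQ1 hQ'0 hQ' a1 a4

lemma post_le_one {n : ℕ} {ε : ℝ} (h0 : 0 ≤ ε) (h1 : ε ≤ 1) (f : (Fin n → ℤˣ) → ℤˣ)
    (y : Fin n → ℤˣ) : post ε f 1 y ≤ 1 := by
  have := post_add ε f y
  have := post_nonneg h0 h1 f (-1) y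
  linarith

/-- Entropy bound from a matching of the cube by edges across which the posterior of `f`
crosses `1/2`. -/
theorem map_matching_info {n : ℕ} {ε : ℝ} (h0 : 0 ≤ ε) (h1 : ε ≤ 1 / 2) (hε : h2 ε ≤ 1 / 2)
    (f : (Fin n → ℤˣ) → ℤˣ) (τ : (Fin n → ℤˣ) → (Fin n → ℤˣ)) (hinv : ∀ y, τ (τ y) = y)
    (hτ : ∀ y, τ y = y ∨ ((∃! i, τ y i ≠ y i) ∧
        (post ε f 1 y - 1 / 2) * (post ε f 1 (τ y) - 1 / 2) ≤ 0)) :
    infoFY ε f ≤ h2 (probOne f)
      - (((Finset.univ.filter (fun y => τ y ≠ y)).card : ℝ) / 2 ^ n) * h2 ε := by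
  have hN : (0:ℝ) < 2 ^ n := by positivity
  have hL : 0 < Real.log 2 := Real.log_pos (by norm_num)
  have hε1 : ε ≤ 1 := by linarith
  have hε' : 2 * Real.binEntropy ε ≤ Real.log 2 := by
    unfold h2 at hε
    rw [div_le_iff₀ hL] at hε
    linarith
  rw [infoFY_eq]
  let e : Equiv.Perm (Fin n → ℤˣ) := Function.Involutive.toPerm τ hinv
  have hre : ∑ y, h2 (post ε f 1 (τ y)) = ∑ y, h2 (post ε f 1 y) :=
    Equiv.sum_comp e (fun y => h2 (post ε f 1 y))
  have hpair : ∀ y, (if τ y ≠ y then 2 * h2 ε else 0)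
      ≤ h2 (post ε f 1 y) + h2 (post ε f 1 (τ y)) := by
    intro y
    have q0 := post_nonneg h0 hε1 f 1 y
    have q1 := post_le_one h0 hε1 f y
    have q0' := post_nonneg h0 hε1 f 1 (τ y)
    have q1' := post_le_one h0 hε1 f (τ y)
    split_ifs with hy
    · rcases hτ y with hfix | ⟨hadj, hopp⟩
      · exact absurd hfix hy
      · have hadj' : ∃! i, y i ≠ τ y i := by
          obtain ⟨i, hi, hu⟩ := hadj
          exact ⟨i, fun h => hi h.symm, fun j hj => hu j (fun h => hj h.symm)⟩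
        have a1 := post_adjacent h0 h1 f 1 y (τ y) hadj
        have a2 := post_adjacent h0 h1 f 1 (τ y) y hadj'
        have a3 := post_adjacent h0 h1 f (-1) y (τ y) hadj
        have a4 := post_adjacent h0 h1 f (-1) (τ y) y hadj'
        have m1 : post ε f (-1) y = 1 - post ε f 1 y := by linarith [post_add ε f y]
        have m2 : post ε f (-1) (τ y) = 1 - post ε f 1 (τ y) := by
          linarith [post_add ε f (τ y)]
        rw [m1, m2] at a3
        rw [m1, m2] at a4
        have := pair_entropy h0 h1 hε' q0 q1 q0' q1' a1 a2 a3 a4 hopp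
        unfold h2
        rw [← add_div, ← mul_div_assoc]
        exact div_le_div_of_nonneg_right this hL.le
    · unfold h2
      have b1 := Real.binEntropy_nonneg q0 q1
      have b2 := Real.binEntropy_nonneg q0' q1'
      positivity
  have key : ((Finset.univ.filter (fun y => τ y ≠ y)).card : ℝ) * h2 ε
      ≤ ∑ y, h2 (post ε f 1 y) := by
    have hsum := Finset.sum_le_sum (fun y (_ : y ∈ (Finset.univ : Finset (Fin n → ℤˣ))) => hpair y)
    rw [Finset.sum_add_distrib, hre] at hsum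
    have hcount : ∑ y : Fin n → ℤˣ, (if τ y ≠ y then 2 * h2 ε else 0)
        = ((Finset.univ.filter (fun y => τ y ≠ y)).card : ℝ) * (2 * h2 ε) := by
      rw [← Finset.sum_filter, Finset.sum_const, nsmul_eq_mul]
    rw [hcount] at hsum
    linarith
  have : ((Finset.univ.filter (fun y => τ y ≠ y)).card : ℝ) / 2 ^ n * h2 ε
      ≤ (∑ y, h2 (post ε f 1 y)) / 2 ^ n := by
    rw [div_mul_eq_mul_div]
    exact div_le_div_of_nonneg_right key hN.le
  linarith

lemma h2_le_one {p : ℝ} : h2 p ≤ 1 := by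
  have hL : 0 < Real.log 2 := Real.log_pos (by norm_num)
  unfold h2
  rw [div_le_one hL]
  exact Real.binEntropy_le_log_two

/-- The inequality when the matching is perfect. -/
theorem ck_of_map_matching {n : ℕ} {ε : ℝ} (h0 : 0 ≤ ε) (h1 : ε ≤ 1 / 2) (hε : h2 ε ≤ 1 / 2)
    (f : (Fin n → ℤˣ) → ℤˣ) (τ : (Fin n → ℤˣ) → (Fin n → ℤˣ)) (hinv : ∀ y, τ (τ y) = y)
    (hτ : ∀ y, (∃! i, τ y i ≠ y i) ∧
        (post ε f 1 y - 1 / 2) * (post ε f 1 (τ y) - 1 / 2) ≤ 0) :
    infoFY ε f ≤ 1 - h2 ε := by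
  have hfix : ∀ y, τ y ≠ y := by
    intro y hy
    obtain ⟨i, hi, -⟩ := (hτ y).1
    exact hi (by rw [hy])
  have hmain := map_matching_info h0 h1 hε f τ hinv (fun y => Or.inr (hτ y))
  have hcard : ((Finset.univ.filter (fun y => τ y ≠ y)).card : ℝ) = 2 ^ n := by
    have : Finset.univ.filter (fun y => τ y ≠ y) = Finset.univ := by
      apply Finset.filter_true_of_mem
      intro y _
      exact hfix y
    rw [this]
    simp
  have hN : (0:ℝ) < 2 ^ n := by positivity
  rw [hcard, div_self hN.ne', one_mul] at hmain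
  have := @h2_le_one (probOne f)
  linarith

/-- The total noise weight of the half-cube `{x : x i = s}` seen from `y`. -/
lemma sum_W_coord {n : ℕ} (ε : ℝ) (i : Fin n) (s : ℤˣ) (y : Fin n → ℤˣ) :
    ∑ x : Fin n → ℤˣ, (if x i = s then W ε x y else 0) = w1 ε s (y i) := by
  classical
  have hprod : ∀ x : Fin n → ℤˣ, (if x i = s then W ε x y else 0)
      = ∏ j, (if j = i then (if x j = s then w1 ε (x j) (y j) else 0)
          else w1 ε (x j) (y j)) := by
    intro x
    by_cases hx : x i = s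
    · rw [if_pos hx, W_eq_prod]
      apply Finset.prod_congr rfl
      intro j _
      by_cases hj : j = i
      · subst hj
        simp [hx]
      · simp [hj]
    · rw [if_neg hx]
      symm
      apply Finset.prod_eq_zero (Finset.mem_univ i)
      simp [hx]
  simp_rw [hprod]
  rw [← Fintype.prod_sum (fun j (t : ℤˣ) =>
    if j = i then (if t = s then w1 ε t (y j) else 0) else w1 ε t (y j))]
  have hfac : ∀ j, (∑ t : ℤˣ,
      (if j = i then (if t = s then w1 ε t (y j) else 0) else w1 ε t (y j)))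
      = if j = i then w1 ε s (y i) else 1 := by
    intro j
    by_cases hj : j = i
    · subst hj
      rw [if_pos rfl]
      have hcg : ∀ t ∈ (Finset.univ : Finset ℤˣ),
          (if j = j then (if t = s then w1 ε t (y j) else 0) else w1 ε t (y j))
            = (if t = s then w1 ε t (y j) else 0) := by
        intro t _
        rw [if_pos rfl]
      rw [Finset.sum_congr rfl hcg, Finset.sum_ite_eq' Finset.univ s (fun t => w1 ε t (y j)),
        if_pos (Finset.mem_univ s)]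
    · simp only [hj, if_false]
      rw [sum_units]
      unfold w1
      rcases Int.units_eq_one_or (y j) with h | h <;> simp [h]
  simp_rw [hfac]
  simp

/-- The inequality when a coordinate is an optimal guess of `f(X)` given `Y`. -/
theorem ck_of_coord_decoder {n : ℕ} {ε : ℝ} (h0 : 0 ≤ ε) (h1 : ε ≤ 1 / 2) (hε : h2 ε ≤ 1 / 2)
    (f : (Fin n → ℤˣ) → ℤˣ) (i : Fin n)
    (hdec : ∀ y, (y i = 1 → 1 / 2 ≤ post ε f 1 y) ∧ (y i = -1 → post ε f 1 y ≤ 1 / 2)) :
    infoFY ε f ≤ 1 - h2 ε := by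
  refine ck_of_map_matching h0 h1 hε f (fun y => Function.update y i (-(y i))) ?_ ?_
  · intro y
    funext j
    by_cases hj : j = i
    · subst hj
      simp
    · simp [hj]
  · intro y
    refine ⟨⟨i, ?_, ?_⟩, ?_⟩
    · rcases Int.units_eq_one_or (y i) with h | h <;> simp [h]
    · intro j hj
      by_contra hji
      simp [Function.update_of_ne hji] at hj
    · rcases Int.units_eq_one_or (y i) with h | h
      · have hA := (hdec y).1 h
        have hB := (hdec (Function.update y i (-(y i)))).2 (by simp [h])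
        nlinarith
      · have hA := (hdec y).2 h
        have hB := (hdec (Function.update y i (-(y i)))).1 (by simp [h])
        nlinarith

/-- The inequality for functions that agree with a coordinate outside a set `D` whose
posterior probability never exceeds `1/2 - ε`. -/
theorem ck_of_invisible {n : ℕ} {ε : ℝ} (h0 : 0 ≤ ε) (h1 : ε ≤ 1 / 2) (hε : h2 ε ≤ 1 / 2)
    (f : (Fin n → ℤˣ) → ℤˣ) (i : Fin n) (D : Finset (Fin n → ℤˣ))
    (hD : ∀ x, x ∉ D → f x = x i) (hDy : ∀ y, ∑ x ∈ D, W ε x y ≤ 1 / 2 - ε) :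
    infoFY ε f ≤ 1 - h2 ε := by
  classical
  have hε1 : ε ≤ 1 := by linarith
  have key : ∀ (s : ℤˣ) (y : Fin n → ℤˣ), y i = s → 1 / 2 ≤ post ε f s y := by
    intro s y hy
    have hDsum : ∑ x ∈ D, W ε x y = ∑ x : Fin n → ℤˣ, (if x ∈ D then W ε x y else 0) := by
      rw [Finset.sum_ite_mem, Finset.univ_inter]
    have hlow : (∑ x : Fin n → ℤˣ, (if x i = s then W ε x y else 0)) - ∑ x ∈ D, W ε x y
        ≤ post ε f s y := by
      unfold post
      rw [hDsum, ← Finset.sum_sub_distrib]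
      apply Finset.sum_le_sum
      intro x _
      have hW := W_nonneg h0 hε1 x y
      by_cases hx : x ∈ D
      · rw [if_pos hx]
        split_ifs <;> linarith
      · rw [if_neg hx, hD x hx]
        linarith
    rw [sum_W_coord] at hlow
    have hw : w1 ε s (y i) = 1 - ε := by
      unfold w1
      rw [if_pos hy.symm]
    rw [hw] at hlow
    have := hDy y
    linarith
  apply ck_of_coord_decoder h0 h1 hε f i
  intro y
  refine ⟨fun hy => key 1 y hy, fun hy => ?_⟩
  have := key (-1) y hy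
  have := post_add ε f y
  linarith

lemma W_le_pow {n : ℕ} {ε : ℝ} (h0 : 0 ≤ ε) (h1 : ε ≤ 1 / 2) (x y : Fin n → ℤˣ) :
    W ε x y ≤ (1 - ε) ^ n := by
  unfold W
  have : ∏ _j : Fin n, (1 - ε) = (1 - ε) ^ n := by simp
  rw [← this]
  apply Finset.prod_le_prod
  · intro j _
    split_ifs <;> linarith
  · intro j _
    split_ifs <;> linarith

/-- The inequality for functions that differ from a coordinate in few points. -/
theorem ck_of_few {n : ℕ} {ε : ℝ} (h0 : 0 ≤ ε) (h1 : ε ≤ 1 / 2) (hε : h2 ε ≤ 1 / 2)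
    (f : (Fin n → ℤˣ) → ℤˣ) (i : Fin n) (D : Finset (Fin n → ℤˣ))
    (hD : ∀ x, x ∉ D → f x = x i) (hcard : (D.card : ℝ) * (1 - ε) ^ n ≤ 1 / 2 - ε) :
    infoFY ε f ≤ 1 - h2 ε := by
  apply ck_of_invisible h0 h1 hε f i D hD
  intro y
  have : ∑ x ∈ D, W ε x y ≤ ∑ _x ∈ D, (1 - ε) ^ n :=
    Finset.sum_le_sum (fun x _ => W_le_pow h0 h1 x y)
  rw [Finset.sum_const, nsmul_eq_mul] at this
  linarith

end Vale.Agent.Lib.P322
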