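import Vale.Agent.Lib.P322.DefsCoord
import Vale.Agent.Lib.P322.MapMatch

namespace Vale.Agent.Lib.P322
open Finset

/-- the conditional probability `P(f(X) = 1 | Y_i = s)` as a sum over the inputs -/
lemma condOne_eq {n : ℕ} (ε : ℝ) (f : (Fin n → ℤˣ) → ℤˣ) (i : Fin n) (s : ℤˣ) :
    condOne ε f i s = 2 * (∑ x, if f x = 1 then w1 ε s (x i) else 0) / 2 ^ n := by
  unfold condOne
  have h1 : ∀ y : Fin n → ℤˣ, (if y i = s then jointFY ε f 1 y else 0)
      = (∑ x, if f x = 1 then (if y i = s then W ε x y else 0) else 0) / 2 ^ n := by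
    intro y
    rw [jointFY_eq]
    unfold post
    by_cases hy : y i = s
    · simp [hy]
    · simp [hy]
  simp_rw [h1]
  rw [← Finset.sum_div, Finset.sum_comm]
  have h2 : ∀ x : Fin n → ℤˣ, (∑ y, if f x = 1 then (if y i = s then W ε x y else 0) else 0)
      = if f x = 1 then w1 ε s (x i) else 0 := by
    intro x
    by_cases hx : f x = 1
    · simp only [hx, if_true]
      rw [← sum_W_coord ε i s x]
      apply Finset.sum_congr rfl
      intro y _
      rw [W_symm]
    · simp [hx]
  simp_rw [h2]
  ring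

end Vale.Agent.Lib.P322
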