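import Vale.Agent.Lib.P322.CoordBasic

namespace Vale.Agent.Lib.P322
open Finset

/-- the probability of the cell `{f = u, x_i = s}` -/
noncomputable def cellP {n : ℕ} (f : (Fin n → ℤˣ) → ℤˣ) (i : Fin n) (u s : ℤˣ) : ℝ :=
  ((Finset.univ.filter (fun x => f x = u ∧ x i = s)).card : ℝ) / 2 ^ n

lemma coordCells_one_ne : (1 : ℤˣ) ≠ -1 := by decide

lemma coordCells_neg_ne : (-1 : ℤˣ) ≠ 1 := by decide

/-- splitting a count according to the value of the coordinate `i` -/
lemma coordCells_split {n : ℕ} (p : (Fin n → ℤˣ) → Prop) [DecidablePred p] (i : Fin n) :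
    (Finset.univ.filter p).card
      = (Finset.univ.filter (fun x => p x ∧ x i = 1)).card
        + (Finset.univ.filter (fun x => p x ∧ x i = -1)).card := by
  simp only [Finset.card_filter]
  rw [← Finset.sum_add_distrib]
  apply Finset.sum_congr rfl
  intro x _
  rcases Int.units_eq_one_or (x i) with h | h <;> by_cases hp : p x <;>
    simp [h, hp]

/-- splitting a count according to the value of `f` -/
lemma coordCells_splitF {n : ℕ} (f : (Fin n → ℤˣ) → ℤˣ) (q : (Fin n → ℤˣ) → Prop)
    [DecidablePred q] :
    (Finset.univ.filter q).card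
      = (Finset.univ.filter (fun x => f x = 1 ∧ q x)).card
        + (Finset.univ.filter (fun x => f x = -1 ∧ q x)).card := by
  simp only [Finset.card_filter]
  rw [← Finset.sum_add_distrib]
  apply Finset.sum_congr rfl
  intro x _
  rcases Int.units_eq_one_or (f x) with h | h <;> by_cases hq : q x <;>
    simp [h, hq]

lemma coordCells_pow_pos (n : ℕ) : (0 : ℝ) < 2 ^ n := by positivity

lemma coordCells_card_univ (n : ℕ) : (Finset.univ : Finset (Fin n → ℤˣ)).card = 2 ^ n := by
  rw [Finset.card_univ, Fintype.card_fun, Fintype.card_units_int, Fintype.card_fin]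

/-- the flip of the coordinate `i` -/
def coordCells_flip {n : ℕ} (i : Fin n) (x : Fin n → ℤˣ) : Fin n → ℤˣ :=
  Function.update x i (-(x i))

lemma coordCells_flip_apply {n : ℕ} (i : Fin n) (x : Fin n → ℤˣ) :
    coordCells_flip i x i = -(x i) := by
  simp [coordCells_flip]

lemma coordCells_flip_flip {n : ℕ} (i : Fin n) (x : Fin n → ℤˣ) :
    coordCells_flip i (coordCells_flip i x) = x := by
  unfold coordCells_flip
  simp

/-- a count is unchanged by the flip of the coordinate `i` -/
lemma coordCells_card_flip {n : ℕ} (i : Fin n) (p : (Fin n → ℤˣ) → Prop) [DecidablePred p] :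
    (Finset.univ.filter (fun x => p (coordCells_flip i x))).card = (Finset.univ.filter p).card := by
  apply Finset.card_bij (fun x _ => coordCells_flip i x)
  · intro x hx
    simpa using hx
  · intro x _ y _ h
    have := congrArg (coordCells_flip i) h
    rwa [coordCells_flip_flip, coordCells_flip_flip] at this
  · intro y hy
    refine ⟨coordCells_flip i y, ?_, coordCells_flip_flip i y⟩
    simp only [Finset.mem_filter, Finset.mem_univ, true_and] at hy ⊢
    rwa [coordCells_flip_flip]

lemma coordCells_card_coord {n : ℕ} (i : Fin n) :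
    (Finset.univ.filter (fun x : Fin n → ℤˣ => x i = 1)).card
      = (Finset.univ.filter (fun x : Fin n → ℤˣ => x i = -1)).card := by
  rw [← coordCells_card_flip i (fun x : Fin n → ℤˣ => x i = -1)]
  congr 1
  apply Finset.filter_congr
  intro x _
  rw [coordCells_flip_apply]
  constructor
  · intro h
    rw [h]
  · intro h
    have := congrArg (fun t : ℤˣ => -t) h
    simpa using this

/-- each value of the coordinate `i` has probability one half -/
lemma coordCells_coord_half {n : ℕ} (i : Fin n) (s : ℤˣ) :
    ((Finset.univ.filter (fun x : Fin n → ℤˣ => x i = s)).card : ℝ) / 2 ^ n = 1 / 2 := by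
  have hsplit := coordCells_split (fun _ : Fin n → ℤˣ => True) i
  simp only [true_and, Finset.filter_true] at hsplit
  rw [coordCells_card_univ] at hsplit
  have hE := coordCells_card_coord i
  have hpos := coordCells_pow_pos n
  have hR : ((2 : ℝ) ^ n) = ((Finset.univ.filter (fun x : Fin n → ℤˣ => x i = 1)).card : ℝ)
      + ((Finset.univ.filter (fun x : Fin n → ℤˣ => x i = -1)).card : ℝ) := by
    exact_mod_cast hsplit
  have hER : ((Finset.univ.filter (fun x : Fin n → ℤˣ => x i = 1)).card : ℝ)
      = ((Finset.univ.filter (fun x : Fin n → ℤˣ => x i = -1)).card : ℝ) := by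
    exact_mod_cast hE
  rcases Int.units_eq_one_or s with h | h
  · subst h
    rw [div_eq_iff hpos.ne']
    linarith
  · subst h
    rw [div_eq_iff hpos.ne']
    linarith

lemma cellP_nonneg {n : ℕ} (f : (Fin n → ℤˣ) → ℤˣ) (i : Fin n) (u s : ℤˣ) : 0 ≤ cellP f i u s := by
  unfold cellP
  positivity

lemma probOne_cells {n : ℕ} (f : (Fin n → ℤˣ) → ℤˣ) (i : Fin n) :
    probOne f = cellP f i 1 1 + cellP f i 1 (-1) := by
  unfold probOne cellP
  rw [coordCells_split (fun x => f x = 1) i]
  push_cast
  ring

/-- the weighted count of the inputs with `f = 1` in terms of the two cells -/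
lemma coordCells_wsum {n : ℕ} (ε : ℝ) (f : (Fin n → ℤˣ) → ℤˣ) (i : Fin n) (s : ℤˣ) :
    (∑ x, if f x = 1 then w1 ε s (x i) else 0)
      = (1 - ε) * ((Finset.univ.filter (fun x => f x = 1 ∧ x i = s)).card : ℝ)
        + ε * ((Finset.univ.filter (fun x => f x = 1 ∧ x i = -s)).card : ℝ) := by
  simp only [Finset.card_filter, Nat.cast_sum]
  rw [Finset.mul_sum, Finset.mul_sum, ← Finset.sum_add_distrib]
  apply Finset.sum_congr rfl
  intro x _
  unfold w1
  rcases Int.units_eq_one_or s with hs | hs <;> rcases Int.units_eq_one_or (x i) with h | h <;>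
    by_cases hf : f x = 1 <;>
    simp [hs, h, hf]

lemma condOne_cells {n : ℕ} (ε : ℝ) (f : (Fin n → ℤˣ) → ℤˣ) (i : Fin n) :
    condOne ε f i 1 = 2 * ((1 - ε) * cellP f i 1 1 + ε * cellP f i 1 (-1))
      ∧ condOne ε f i (-1) = 2 * (ε * cellP f i 1 1 + (1 - ε) * cellP f i 1 (-1)) := by
  constructor
  · rw [condOne_eq, coordCells_wsum]
    unfold cellP
    ring
  · rw [condOne_eq, coordCells_wsum, neg_neg]
    unfold cellP
    ring

lemma cells_half {n : ℕ} (f : (Fin n → ℤˣ) → ℤˣ) (i : Fin n) :
    cellP f i 1 1 + cellP f i (-1) 1 = 1 / 2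
      ∧ cellP f i 1 (-1) + cellP f i (-1) (-1) = 1 / 2 := by
  constructor
  · rw [← coordCells_coord_half i 1]
    unfold cellP
    rw [coordCells_splitF f (fun x => x i = 1)]
    push_cast
    ring
  · rw [← coordCells_coord_half i (-1)]
    unfold cellP
    rw [coordCells_splitF f (fun x => x i = -1)]
    push_cast
    ring

lemma card_disagree {n : ℕ} (f : (Fin n → ℤˣ) → ℤˣ) (i : Fin n) :
    ((Finset.univ.filter (fun x => f x ≠ x i)).card : ℝ) / 2 ^ n
      = cellP f i 1 (-1) + cellP f i (-1) 1 := by
  unfold cellP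
  rw [← add_div]
  congr 1
  have h : (Finset.univ.filter (fun x => f x ≠ x i)).card
      = (Finset.univ.filter (fun x => f x = 1 ∧ x i = -1)).card
        + (Finset.univ.filter (fun x => f x = -1 ∧ x i = 1)).card := by
    simp only [Finset.card_filter]
    rw [← Finset.sum_add_distrib]
    apply Finset.sum_congr rfl
    intro x _
    rcases Int.units_eq_one_or (f x) with hf | hf <;>
      rcases Int.units_eq_one_or (x i) with h | h <;>
      simp [hf, h]
  exact_mod_cast h

lemma infl_ge_cells {n : ℕ} (f : (Fin n → ℤˣ) → ℤˣ) (i : Fin n) :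
    1 - 2 * (cellP f i 1 (-1) + cellP f i (-1) 1) ≤ infl f i := by
  rw [← card_disagree]
  unfold infl
  have hpos := coordCells_pow_pos n
  have hsub : (Finset.univ : Finset (Fin n → ℤˣ)) ⊆
      (Finset.univ.filter (fun x => f (Function.update x i (-(x i))) ≠ f x)) ∪
        ((Finset.univ.filter (fun x => f x ≠ x i)) ∪
          (Finset.univ.filter (fun x => f (coordCells_flip i x) ≠ coordCells_flip i x i))) := by
    intro x _
    by_contra hx
    simp only [Finset.mem_union, Finset.mem_filter, Finset.mem_univ, true_and, not_or,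
      not_not] at hx
    obtain ⟨h1, h2, h3⟩ := hx
    rw [coordCells_flip_apply] at h3
    have h4 : f (coordCells_flip i x) = f x := h1
    rw [h4, h2] at h3
    rcases Int.units_eq_one_or (x i) with h | h
    · rw [h] at h3
      exact coordCells_one_ne h3
    · rw [h] at h3
      simp at h3
  have hcard := Finset.card_le_card hsub
  rw [coordCells_card_univ] at hcard
  have h1 := Finset.card_union_le
    (Finset.univ.filter (fun x => f (Function.update x i (-(x i))) ≠ f x))
    ((Finset.univ.filter (fun x => f x ≠ x i)) ∪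
      (Finset.univ.filter (fun x => f (coordCells_flip i x) ≠ coordCells_flip i x i)))
  have h2 := Finset.card_union_le (Finset.univ.filter (fun x => f x ≠ x i))
    (Finset.univ.filter (fun x => f (coordCells_flip i x) ≠ coordCells_flip i x i))
  have h3 := coordCells_card_flip i (fun x => f x ≠ x i)
  have hN : 2 ^ n ≤ (Finset.univ.filter (fun x => f (Function.update x i (-(x i))) ≠ f x)).card
      + 2 * (Finset.univ.filter (fun x => f x ≠ x i)).card := by
    omega
  have hR : ((2 : ℝ) ^ n) ≤
      ((Finset.univ.filter (fun x => f (Function.update x i (-(x i))) ≠ f x)).card : ℝ)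
      + 2 * ((Finset.univ.filter (fun x => f x ≠ x i)).card : ℝ) := by
    exact_mod_cast hN
  rw [← sub_nonneg]
  have e : ((Finset.univ.filter (fun x => f (Function.update x i (-(x i))) ≠ f x)).card : ℝ)
        / 2 ^ n - (1 - 2 * (((Finset.univ.filter (fun x => f x ≠ x i)).card : ℝ) / 2 ^ n))
      = (((Finset.univ.filter (fun x => f (Function.update x i (-(x i))) ≠ f x)).card : ℝ)
        + 2 * ((Finset.univ.filter (fun x => f x ≠ x i)).card : ℝ) - 2 ^ n) / 2 ^ n := by
    field_simp
    ring
  rw [e]
  apply div_nonneg _ hpos.le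
  linarith

lemma card_cond {n : ℕ} (f : (Fin n → ℤˣ) → ℤˣ) (i : Fin n) (u : ℤˣ) :
    ((Finset.univ.filter (fun x => f x = u ∧ x i ≠ u)).card : ℝ) = 2 ^ n * cellP f i u (-u)
      ∧ ((Finset.univ.filter (fun x => f x = u)).card : ℝ)
          = 2 ^ n * (cellP f i u 1 + cellP f i u (-1)) := by
  have hpos := coordCells_pow_pos n
  constructor
  · unfold cellP
    rw [mul_div_cancel₀ _ hpos.ne']
    congr 2
    apply Finset.filter_congr
    intro x _
    rcases Int.units_eq_one_or u with hu | hu <;>
      rcases Int.units_eq_one_or (x i) with h | h <;>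
      simp [hu, h]
  · unfold cellP
    rw [coordCells_split (fun x => f x = u) i]
    push_cast
    field_simp

end Vale.Agent.Lib.P322
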