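import Mathlib

namespace Vale.Agent.Lib.P322

open Finset

/-- Joint probability `P(X = x, Y = y)`, where `X` is uniform on `{-1,1}^n` and
`Y_i = X_i * Z_i` with independent signs `Z_i`, `P(Z_i = -1) = ε`. -/
noncomputable def jointXY {n : ℕ} (ε : ℝ) (x y : Fin n → ℤˣ) : ℝ :=
  ∏ i, (if x i = y i then (1 - ε) / 2 else ε / 2)

/-- Joint probability `P(f(X) = u, Y = y)`. -/
noncomputable def jointFY {n : ℕ} (ε : ℝ) (f : (Fin n → ℤˣ) → ℤˣ) (u : ℤˣ)
    (y : Fin n → ℤˣ) : ℝ :=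
  ∑ x, if f x = u then jointXY ε x y else 0

/-- Mutual information, in bits, of a joint probability mass function `p` on a product
of two finite types: `∑ p(a,b) log₂ (p(a,b) / (p(a) p(b)))`. -/
noncomputable def mutualInfoBits {α β : Type} [Fintype α] [Fintype β] (p : α → β → ℝ) : ℝ :=
  ∑ a, ∑ b, p a b * Real.logb 2 (p a b / ((∑ b', p a b') * (∑ a', p a' b)))

/-- The mutual information `I(f(X);Y)` in bits. -/
noncomputable def infoFY {n : ℕ} (ε : ℝ) (f : (Fin n → ℤˣ) → ℤˣ) : ℝ :=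
  mutualInfoBits (jointFY ε f)

/-- Binary entropy in bits. -/
noncomputable def h2 (p : ℝ) : ℝ := Real.binEntropy p / Real.log 2

/-- `P(f(X) = 1)` for `X` uniform on `{-1,1}^n`. -/
noncomputable def probOne {n : ℕ} (f : (Fin n → ℤˣ) → ℤˣ) : ℝ :=
  ((Finset.univ.filter (fun x => f x = 1)).card : ℝ) / 2 ^ n

end Vale.Agent.Lib.P322
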