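import Vale.Agent.Lib.P322.Defs

namespace Vale.Agent.Lib.P322

/-- `P(f(X) = 1 | Y_i = s)`: twice the mass `P(f(X) = 1, Y_i = s)`, as `P(Y_i = s) = 1/2`. -/
noncomputable def condOne {n : ℕ} (ε : ℝ) (f : (Fin n → ℤˣ) → ℤˣ) (i : Fin n) (s : ℤˣ) : ℝ :=
  2 * ∑ y, (if y i = s then jointFY ε f 1 y else 0)

/-- The influence of the coordinate `i`: `P(f(X) ≠ f(X with the coordinate i flipped))`. -/
noncomputable def infl {n : ℕ} (f : (Fin n → ℤˣ) → ℤˣ) (i : Fin n) : ℝ :=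
  ((Finset.univ.filter (fun x => f (Function.update x i (-(x i))) ≠ f x)).card : ℝ) / 2 ^ n

end Vale.Agent.Lib.P322
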