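import Mathlib

namespace Vale.Agent.Lib.P322

open Finset

/-- Rank of a point `x` of the cube `{-1,1}^n` in the lexicographic order in which coordinate `0`
is the most significant and the value `1` precedes the value `-1`: the integer whose binary
digits are `d_i = 1` if `x_i = -1` and `d_i = 0` if `x_i = 1`. It ranges over `0, …, 2^n - 1`. -/
def lexRank {n : ℕ} (x : Fin n → ℤˣ) : ℕ :=
  ∑ i : Fin n, if x i = -1 then 2 ^ (n - 1 - (i : ℕ)) else 0

/-- The lexicographic function with `t` ones: it takes the value `1` on the first `t` points of
the cube in lexicographic order (those of rank `< t`) and `-1` on the other points. -/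
def lexFun (n t : ℕ) : (Fin n → ℤˣ) → ℤˣ := fun x => if lexRank x < t then 1 else -1

end Vale.Agent.Lib.P322
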