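import Mathlib

namespace Vale.Agent.Lib.P322

open Finset

/-- `E[g(X) | X_{π j} = x_{π j} for all j < i]` for `X` uniform on `{-1,1}^n`: the average of `g`
over the points of the cube that agree with `x` in the coordinates `π 0, …, π (i-1)`. -/
noncomputable def condMeanOrd {n : ℕ} (g : (Fin n → ℤˣ) → ℝ) (π : Equiv.Perm (Fin n)) (i : ℕ)
    (x : Fin n → ℤˣ) : ℝ :=
  (∑ z : Fin n → ℤˣ, if (∀ j : Fin n, (j : ℕ) < i → z (π j) = x (π j)) then g z else 0) /
    (∑ z : Fin n → ℤˣ, if (∀ j : Fin n, (j : ℕ) < i → z (π j) = x (π j)) then (1 : ℝ) else 0)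

/-- The Doob martingale of `f` when the coordinates are revealed in the order `π 0, π 1, …`:
`doobOrd f π i x = P(f(X) = 1 | X_{π j} = x_{π j} for all j < i)`. -/
noncomputable def doobOrd {n : ℕ} (f : (Fin n → ℤˣ) → ℤˣ) (π : Equiv.Perm (Fin n)) (i : ℕ)
    (x : Fin n → ℤˣ) : ℝ :=
  condMeanOrd (fun z => if f z = 1 then (1 : ℝ) else 0) π i x

/-- Normalized quadratic variation of the Doob martingale `M_i = doobOrd f π i X`:
`E ∑_{i < n} (M_{i+1} - M_i)^2 / (M_i (1 - M_i))` (terms with `M_i ∈ {0,1}` are `0`). -/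
noncomputable def qvarOrd {n : ℕ} (f : (Fin n → ℤˣ) → ℤˣ) (π : Equiv.Perm (Fin n)) : ℝ :=
  (∑ x : Fin n → ℤˣ, ∑ i ∈ Finset.range n,
      (doobOrd f π (i + 1) x - doobOrd f π i x) ^ 2 /
        (doobOrd f π i x * (1 - doobOrd f π i x))) / 2 ^ n

end Vale.Agent.Lib.P322
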