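import Vale.Agent.Lib.P322.Lex

namespace Vale.Agent.Lib.P322
open Finset

lemma ent_three_valued {n : ℕ} (p q : (Fin n → ℤˣ) → ℝ) (hp : ∀ x, p x = 0 ∨ p x = 1)
    (hq : ∀ x, q x = 0 ∨ q x = 1) (hpq : ∀ x, p x = 0 ∨ q x = 0) (a b d m : ℝ)
    (c : (Fin n → ℤˣ) → ℝ) (hc : ∀ x, c x = a * p x + b * q x + d * (1 - p x - q x))
    (hm : m = a * avg p + b * avg q + d * (1 - avg p - avg q)) :
    ent c = avg p * kap a + avg q * kap b + (1 - avg p - avg q) * kap d - kap m := by
  have hcf : c = fun x => a * p x + b * q x + d * (1 - p x - q x) := funext hc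
  unfold ent
  have e1 : (fun x => kap (c x))
      = fun x => kap a * p x + (kap b * q x + kap d * (fun x => 1 - (1 * p x + 1 * q x)) x) := by
    funext x
    rw [hc x]
    rcases hp x with h | h <;> rcases hq x with h' | h' <;> rcases hpq x with h'' | h'' <;>
      simp_all
  have e3 : avg (fun x => 1 - (1 * p x + 1 * q x)) = 1 - avg p - avg q := by
    rw [avg_one_sub, avg_lin]; ring
  have e2 : avg c = m := by
    have hcf' : c = fun x => a * p x + 1 * (fun x => b * q x + d * (fun x => 1 - (1 * p x + 1 * q x)) x) x := by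
      funext x; rw [hc x]; ring
    rw [hcf', avg_lin, avg_lin, e3, hm]; ring
  rw [e1, e2]
  have e4 : avg (fun x => kap b * q x + kap d * (fun x => 1 - (1 * p x + 1 * q x)) x)
      = kap b * avg q + kap d * (1 - avg p - avg q) := by
    rw [avg_lin, e3]
  have e5 : (fun x => kap a * p x + (kap b * q x + kap d * (fun x => 1 - (1 * p x + 1 * q x)) x))
      = fun x => kap a * p x + 1 * (fun x => kap b * q x + kap d * (fun x => 1 - (1 * p x + 1 * q x)) x) x := by
    funext x; ring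
  rw [e5, avg_lin, e4]
  ring

lemma binEntropy_mix {P₁ P₂ ε : ℝ} (h1 : 0 ≤ P₁) (h2 : 0 ≤ P₂) (h3 : P₁ + P₂ ≤ 1) (h0 : 0 ≤ ε)
    (he : ε ≤ 1) :
    Real.binEntropy ((1 - ε) * (P₁ + P₂)) + Real.binEntropy (ε * (P₁ + P₂))
      ≤ Real.binEntropy ((1 - ε) * P₁ + ε * P₂) + Real.binEntropy (ε * P₁ + (1 - ε) * P₂) := by
  have hconc : ConcaveOn ℝ (Set.Icc (0:ℝ) 1) Real.binEntropy :=
    Real.strictConcave_binEntropy.concaveOn
  set t := P₁ + P₂ with ht
  rcases eq_or_lt_of_le (add_nonneg h1 h2) with hz | hpos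
  · have hP1 : P₁ = 0 := by linarith
    have hP2 : P₂ = 0 := by linarith
    rw [ht, hP1, hP2]; simp
  · have htpos : 0 < t := hpos
    have hu : (1 - ε) * t ∈ Set.Icc (0:ℝ) 1 := by
      constructor
      · exact mul_nonneg (by linarith) htpos.le
      · nlinarith
    have hw : ε * t ∈ Set.Icc (0:ℝ) 1 := by
      constructor
      · exact mul_nonneg h0 htpos.le
      · nlinarith
    have hl1 : 0 ≤ P₁ / t := div_nonneg h1 htpos.le
    have hl2 : 0 ≤ P₂ / t := div_nonneg h2 htpos.le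
    have hsum : P₁ / t + P₂ / t = 1 := by rw [← add_div, ← ht]; exact div_self htpos.ne'
    have c1 := hconc.2 hu hw hl1 hl2 hsum
    have c2 := hconc.2 hu hw hl2 hl1 (by linarith)
    simp only [smul_eq_mul] at c1 c2
    have e1 : P₁ / t * ((1 - ε) * t) + P₂ / t * (ε * t) = (1 - ε) * P₁ + ε * P₂ := by
      field_simp
    have e2 : P₂ / t * ((1 - ε) * t) + P₁ / t * (ε * t) = ε * P₁ + (1 - ε) * P₂ := by
      field_simp; ring
    rw [e1] at c1
    rw [e2] at c2
    have : (P₁ / t + P₂ / t) * Real.binEntropy ((1 - ε) * t)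
        + (P₁ / t + P₂ / t) * Real.binEntropy (ε * t)
        ≤ Real.binEntropy ((1 - ε) * P₁ + ε * P₂) + Real.binEntropy (ε * P₁ + (1 - ε) * P₂) := by
      linarith
    rw [hsum] at this
    linarith

lemma core_alg2 {ε P₁ P₂ : ℝ} (h0 : 0 ≤ ε) (h1 : ε ≤ 1 / 2) (hP1 : 0 ≤ P₁) (hP2 : 0 ≤ P₂)
    (hP : P₁ + P₂ ≤ 1) :
    (1 - 2 * ε) ^ 2 * (((P₁ * kap (1 - ε) + P₂ * kap ε + (1 - P₁ - P₂) * kap 0
            - kap ((1 - ε) * P₁ + ε * P₂))
        + (P₁ * kap ε + P₂ * kap (1 - ε) + (1 - P₁ - P₂) * kap 0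
            - kap (ε * P₁ + (1 - ε) * P₂))) / 2)
      + ((kap ((1 - ε) * P₁ + ε * P₂) + kap (ε * P₁ + (1 - ε) * P₂)) / 2 - kap ((P₁ + P₂) / 2))
      + ((1 - 2 * ε) ^ 2 * (((P₁ * kap ε + P₂ * kap (1 - ε) + (1 - P₁ - P₂) * kap 1
            - kap (1 - ((1 - ε) * P₁ + ε * P₂)))
        + (P₁ * kap (1 - ε) + P₂ * kap ε + (1 - P₁ - P₂) * kap 1
            - kap (1 - (ε * P₁ + (1 - ε) * P₂)))) / 2)
      + ((kap (1 - ((1 - ε) * P₁ + ε * P₂)) + kap (1 - (ε * P₁ + (1 - ε) * P₂))) / 2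
          - kap (1 - (P₁ + P₂) / 2)))
      ≤ Real.log 2 - Real.binEntropy ε := by
  have hF := Ffun_nonneg h0 h1 (add_nonneg hP1 hP2) hP
  have hmix := binEntropy_mix hP1 hP2 hP h0 (by linarith : ε ≤ 1)
  have hk0 : 0 ≤ ε * (1 - ε) := mul_nonneg h0 (by linarith)
  unfold Ffun at hF
  simp only [binEntropy_kap] at hF hmix ⊢
  rw [kap_zero, kap_one]
  nlinarith [hF, mul_le_mul_of_nonneg_left hmix hk0]

lemma edgefree_core {n : ℕ} {ε : ℝ} (h0 : 0 ≤ ε) (h1 : ε ≤ 1 / 2) (G : (Fin (n + 1) → ℤˣ) → ℝ)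
    (hG01 : ∀ x, G x = 0 ∨ G x = 1) (hdisj : ∀ x', sl G 1 x' = 0 ∨ sl G (-1) x' = 0) :
    ent (noise ε G) + ent (noise ε (fun x => 1 - G x)) ≤ Real.log 2 - Real.binEntropy ε := by
  have h1' : ε ≤ 1 := by linarith
  have hGn : ∀ x, 0 ≤ G x := by
    intro x; rcases hG01 x with h | h <;> simp [h]
  have hGn' : ∀ x, 0 ≤ (fun x => 1 - G x) x := by
    intro x; rcases hG01 x with h | h <;> simp [h]
  have b1 := ent_noise_le h0 h1' G hGn
  have b2 := ent_noise_le h0 h1' (fun x => 1 - G x) hGn'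
  set p := sl G 1 with hp
  set q := sl G (-1) with hq
  have hp01 : ∀ x', p x' = 0 ∨ p x' = 1 := fun x' => hG01 _
  have hq01 : ∀ x', q x' = 0 ∨ q x' = 1 := fun x' => hG01 _
  have hp' : sl (fun x => 1 - G x) 1 = fun x' => 1 - p x' := rfl
  have hq' : sl (fun x => 1 - G x) (-1) = fun x' => 1 - q x' := rfl
  rw [hp', hq', avg_one_sub, avg_one_sub] at b2
  have hP1 : 0 ≤ avg p := avg_nonneg (fun x' => hGn _)
  have hP2 : 0 ≤ avg q := avg_nonneg (fun x' => hGn _)
  have hP : avg p + avg q ≤ 1 := by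
    have hnn : 0 ≤ avg (fun x' => 1 - (1 * p x' + 1 * q x')) := by
      apply avg_nonneg
      intro x'
      rcases hp01 x' with h | h <;> rcases hq01 x' with h' | h' <;> rcases hdisj x' with h'' | h'' <;>
        simp_all
    rw [avg_one_sub, avg_lin] at hnn
    linarith
  have E1 := ent_three_valued p q hp01 hq01 hdisj (1 - ε) ε 0 ((1 - ε) * avg p + ε * avg q)
    (fun x' => (1 - ε) * p x' + ε * q x') (fun x' => by ring) (by ring)
  have E2 := ent_three_valued p q hp01 hq01 hdisj ε (1 - ε) 0 (ε * avg p + (1 - ε) * avg q)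
    (fun x' => ε * p x' + (1 - ε) * q x') (fun x' => by ring) (by ring)
  have E3 := ent_three_valued p q hp01 hq01 hdisj ε (1 - ε) 1 (1 - ((1 - ε) * avg p + ε * avg q))
    (fun x' => (1 - ε) * (fun x' => 1 - p x') x' + ε * (fun x' => 1 - q x') x')
    (fun x' => by ring) (by ring)
  have E4 := ent_three_valued p q hp01 hq01 hdisj (1 - ε) ε 1 (1 - (ε * avg p + (1 - ε) * avg q))
    (fun x' => ε * (fun x' => 1 - p x') x' + (1 - ε) * (fun x' => 1 - q x') x')
    (fun x' => by ring) (by ring)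
  rw [E1, E2] at b1
  rw [E3, E4] at b2
  have a4 : (1 - ε) * (1 - avg p) + ε * (1 - avg q) = 1 - ((1 - ε) * avg p + ε * avg q) := by ring
  have a5 : ε * (1 - avg p) + (1 - ε) * (1 - avg q) = 1 - (ε * avg p + (1 - ε) * avg q) := by ring
  have a6 : ((1 - avg p) + (1 - avg q)) / 2 = 1 - (avg p + avg q) / 2 := by ring
  rw [a4, a5, a6] at b2
  have := core_alg2 h0 h1 hP1 hP2 hP
  linarith

theorem ck_of_edgefree_zero {n : ℕ} {ε : ℝ} (h0 : 0 ≤ ε) (h1 : ε ≤ 1 / 2)
    (f : (Fin (n + 1) → ℤˣ) → ℤˣ) (u : ℤˣ)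
    (hf : ∀ x, f x = u → f (Function.update x 0 (-(x 0))) = -u) :
    infoFY ε f ≤ 1 - h2 ε := by
  have hL : 0 < Real.log 2 := Real.log_pos (by norm_num)
  have hid := info_eq_ent ε f
  have hne : ¬ ((-1 : ℤˣ) = 1) := by decide
  have hne' : ¬ ((1 : ℤˣ) = -1) := by decide
  -- the indicator of the level set `f = u` has disjoint slices
  have hdisj : ∀ x' : Fin n → ℤˣ, sl (fun x => if f x = u then (1:ℝ) else 0) 1 x' = 0
      ∨ sl (fun x => if f x = u then (1:ℝ) else 0) (-1) x' = 0 := by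
    intro x'
    unfold sl
    by_cases hx : f (Fin.cons 1 x') = u
    · right
      have := hf _ hx
      rw [Fin.cons_zero, Fin.update_cons_zero] at this
      have hneq : f (Fin.cons (-1) x') ≠ u := by
        rw [this]
        rcases Int.units_eq_one_or u with rfl | rfl <;> decide
      simp [hneq]
    · left
      simp [hx]
  have hc := edgefree_core h0 h1 (fun x => if f x = u then (1:ℝ) else 0)
    (by intro x; split_ifs <;> simp) hdisj
  have key : infoFY ε f * Real.log 2 ≤ Real.log 2 - Real.binEntropy ε := by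
    rcases Int.units_eq_one_or u with rfl | rfl
    · have e : (fun x => 1 - (fun x => if f x = 1 then (1:ℝ) else 0) x)
          = fun x => if f x = 1 then (0:ℝ) else 1 := by
        funext x; dsimp only; split_ifs <;> norm_num
      rw [e] at hc
      rw [hid]; linarith
    · have e1 : (fun x => if f x = -1 then (1:ℝ) else 0) = fun x => if f x = 1 then (0:ℝ) else 1 := by
        funext x
        rcases Int.units_eq_one_or (f x) with h | h <;> simp [h, hne, hne']
      have e2 : (fun x => 1 - (fun x => if f x = -1 then (1:ℝ) else 0) x)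
          = fun x => if f x = 1 then (1:ℝ) else 0 := by
        funext x
        rcases Int.units_eq_one_or (f x) with h | h <;> simp [h, hne, hne']
      rw [e2, e1] at hc
      rw [hid]; linarith
  unfold h2
  have e : 1 - Real.binEntropy ε / Real.log 2 = (Real.log 2 - Real.binEntropy ε) / Real.log 2 := by
    field_simp
  rw [e, le_div_iff₀ hL]
  exact key

lemma relabel_symm_update {m : ℕ} (i : Fin (m + 1)) (z : Fin (m + 1) → ℤˣ) (c : ℤˣ) :
    (relabel (Equiv.swap 0 i)).symm (Function.update z 0 c)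
      = Function.update ((relabel (Equiv.swap 0 i)).symm z) i c := by
  funext j
  rw [relabel_symm_apply]
  by_cases hj : j = i
  · subst hj
    simp
  · rw [Function.update_of_ne hj, relabel_symm_apply]
    have h : (Equiv.swap 0 i).symm j ≠ 0 := by
      rw [Equiv.symm_swap]
      intro h
      apply hj
      have h2 := congrArg (Equiv.swap 0 i) h
      rw [Equiv.swap_apply_self, Equiv.swap_apply_left] at h2
      exact h2
    rw [Function.update_of_ne h]

theorem ck_of_edgefree {n : ℕ} {ε : ℝ} (h0 : 0 ≤ ε) (h1 : ε ≤ 1 / 2) (f : (Fin n → ℤˣ) → ℤˣ)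
    (i : Fin n) (u : ℤˣ) (hf : ∀ x, f x = u → f (Function.update x i (-(x i))) = -u) :
    infoFY ε f ≤ 1 - h2 ε := by
  cases n with
  | zero => exact i.elim0
  | succ m =>
    rw [← infoFY_relabel ε f (Equiv.swap 0 i)]
    apply ck_of_edgefree_zero h0 h1 _ u
    intro z hz
    have := hf _ hz
    rw [relabel_symm_update]
    have e : (relabel (Equiv.swap 0 i)).symm z i = z 0 := by
      rw [relabel_symm_apply]; simp
    rw [e] at this
    exact this

/-- the half-cube case as a corollary -/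
theorem ck_of_halfcube' {n : ℕ} {ε : ℝ} (h0 : 0 ≤ ε) (h1 : ε ≤ 1 / 2) (f : (Fin n → ℤˣ) → ℤˣ)
    (i : Fin n) (b v : ℤˣ) (hf : ∀ x, x i = b → f x = v) : infoFY ε f ≤ 1 - h2 ε := by
  apply ck_of_edgefree h0 h1 f i (-v)
  intro x hx
  rw [neg_neg]
  apply hf
  rw [Function.update_self]
  by_contra hne
  have hxi : x i = b := by
    rcases Int.units_eq_one_or (x i) with h | h <;> rcases Int.units_eq_one_or b with h' | h' <;>
      simp_all
  have := hf x hxi
  rw [this] at hx
  rcases Int.units_eq_one_or v with h | h <;> simp [h] at hx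

end Vale.Agent.Lib.P322
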