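import Vale.Agent.Lib.P322.HNSlice

namespace Vale.Agent.Lib.P322
open Finset

lemma hncs_avg_nonneg {n : ℕ} {u : (Fin n → ℤˣ) → ℝ} (h : ∀ x, 0 ≤ u x) : 0 ≤ avg u := by
  have h1 := avg_mono (u := fun _ => (0 : ℝ)) (v := u) h
  rw [avg_const] at h1
  exact h1

/-- Cauchy-Schwarz in the form used below -/
lemma hncs_cs {n : ℕ} (u v : (Fin n → ℤˣ) → ℝ) {a b c : ℝ}
    (hu : avg (fun x => u x ^ 2) ≤ a) (hv : avg (fun x => v x ^ 2) ≤ b) (hc : 0 ≤ c)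
    (habc : a * b ≤ c ^ 2) : |avg (fun x => u x * v x)| ≤ c := by
  have h0 : 0 ≤ avg (fun x => u x ^ 2) := hncs_avg_nonneg (fun x => sq_nonneg _)
  have h1 : 0 ≤ avg (fun x => v x ^ 2) := hncs_avg_nonneg (fun x => sq_nonneg _)
  have h2 := avg_mul_sq_le u v
  have h3 : avg (fun x => u x ^ 2) * avg (fun x => v x ^ 2) ≤ a * b :=
    mul_le_mul hu hv h1 (le_trans h0 hu)
  exact abs_le_of_sq_le_sq (le_trans h2 (le_trans h3 habc)) hc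

lemma hncs_lin4 {n : ℕ} (c1 c2 c3 c4 : ℝ) (u1 u2 u3 u4 : (Fin n → ℤˣ) → ℝ) :
    avg (fun x => c1 * u1 x + c2 * u2 x + c3 * u3 x + c4 * u4 x)
      = c1 * avg u1 + c2 * avg u2 + c3 * avg u3 + c4 * avg u4 := by
  unfold avg
  simp only [Finset.sum_add_distrib, ← Finset.mul_sum]
  ring

lemma hncs_lin5 {n : ℕ} (c1 c2 c3 c4 c5 : ℝ) (u1 u2 u3 u4 u5 : (Fin n → ℤˣ) → ℝ) :
    avg (fun x => c1 * u1 x + c2 * u2 x + c3 * u3 x + c4 * u4 x + c5 * u5 x)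
      = c1 * avg u1 + c2 * avg u2 + c3 * avg u3 + c4 * avg u4 + c5 * avg u5 := by
  unfold avg
  simp only [Finset.sum_add_distrib, ← Finset.mul_sum]
  ring

lemma hncs_scale {c A B : ℝ} (hc : 0 ≤ c) (h : |A| ≤ B) : |c * A| ≤ c * B := by
  rw [abs_mul, abs_of_nonneg hc]
  exact mul_le_mul_of_nonneg_left h hc

/-- third moment of `ρ L + h` by Cauchy-Schwarz -/
theorem cs_third {n : ℕ} (L h : (Fin n → ℤˣ) → ℝ) (ρ σ K : ℝ) (hρ : 0 ≤ ρ) (hσ : 0 ≤ σ)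
    (hK : 0 ≤ K)
    (hL2 : avg (fun x => L x ^ 2) ≤ σ ^ 2) (hL3 : avg (fun x => L x ^ 3) = 0)
    (hL4 : avg (fun x => L x ^ 4) ≤ 3 * σ ^ 4)
    (hh2 : avg (fun x => h x ^ 2) ≤ ρ ^ 4 * K ^ 2)
    (hh4 : avg (fun x => h x ^ 4) ≤ 81 * ρ ^ 8 * K ^ 4) :
    |avg (fun x => (ρ * L x + h x) ^ 3)|
      ≤ ρ ^ 4 * (3 * (17321 / 10000) * σ ^ 2 * K + 27 * ρ * σ * K ^ 2 + 9 * ρ ^ 2 * K ^ 3) := by
  have eL4 : avg (fun x => (L x ^ 2) ^ 2) = avg (fun x => L x ^ 4) :=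
    avg_congr (fun x => by ring)
  have eh4 : avg (fun x => (h x ^ 2) ^ 2) = avg (fun x => h x ^ 4) :=
    avg_congr (fun x => by ring)
  have hL4' : avg (fun x => (L x ^ 2) ^ 2) ≤ 3 * σ ^ 4 := le_of_eq_of_le eL4 hL4
  have hh4' : avg (fun x => (h x ^ 2) ^ 2) ≤ 81 * ρ ^ 8 * K ^ 4 := le_of_eq_of_le eh4 hh4
  have hA1 : |avg (fun x => L x ^ 2 * h x)| ≤ (17321 / 10000) * σ ^ 2 * ρ ^ 2 * K := by
    refine hncs_cs (fun x => L x ^ 2) h hL4' hh2 (by positivity) ?_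
    have hp : 0 ≤ σ ^ 4 * (ρ ^ 4 * K ^ 2) := by positivity
    nlinarith [hp]
  have hA2 : |avg (fun x => L x * h x ^ 2)| ≤ 9 * σ * ρ ^ 4 * K ^ 2 := by
    refine hncs_cs L (fun x => h x ^ 2) hL2 hh4' (by positivity) ?_
    exact le_of_eq (by ring)
  have hA3 : |avg (fun x => h x * h x ^ 2)| ≤ 9 * ρ ^ 6 * K ^ 3 := by
    refine hncs_cs h (fun x => h x ^ 2) hh2 hh4' (by positivity) ?_
    exact le_of_eq (by ring)
  have hpt : ∀ x, (ρ * L x + h x) ^ 3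
      = ρ ^ 3 * L x ^ 3 + 3 * ρ ^ 2 * (L x ^ 2 * h x) + 3 * ρ * (L x * h x ^ 2)
        + 1 * (h x * h x ^ 2) := fun x => by ring
  have hexp : avg (fun x => (ρ * L x + h x) ^ 3)
      = ρ ^ 3 * avg (fun x => L x ^ 3) + 3 * ρ ^ 2 * avg (fun x => L x ^ 2 * h x)
        + 3 * ρ * avg (fun x => L x * h x ^ 2) + 1 * avg (fun x => h x * h x ^ 2) := by
    have e := hncs_lin4 (ρ ^ 3) (3 * ρ ^ 2) (3 * ρ) 1 (fun x => L x ^ 3)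
      (fun x => L x ^ 2 * h x) (fun x => L x * h x ^ 2) (fun x => h x * h x ^ 2)
    exact (avg_congr hpt).trans e
  have h1 := hncs_scale (by positivity : (0 : ℝ) ≤ 3 * ρ ^ 2) hA1
  have h2 := hncs_scale (by positivity : (0 : ℝ) ≤ 3 * ρ) hA2
  rw [hexp, hL3]
  rw [abs_le] at h1 h2 hA3 ⊢
  constructor
  · linarith [h1.1, h2.1, hA3.1]
  · linarith [h1.2, h2.2, hA3.2]

/-- fourth moment of `ρ L + h` by Cauchy-Schwarz -/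
theorem cs_fourth {n : ℕ} (L h : (Fin n → ℤˣ) → ℝ) (ρ σ K : ℝ) (hρ : 0 ≤ ρ) (hσ : 0 ≤ σ)
    (hK : 0 ≤ K)
    (hL2 : avg (fun x => L x ^ 2) ≤ σ ^ 2)
    (hL4 : avg (fun x => L x ^ 4) ≤ 3 * σ ^ 4)
    (hL6 : avg (fun x => L x ^ 6) ≤ 15 * σ ^ 6)
    (hh2 : avg (fun x => h x ^ 2) ≤ ρ ^ 4 * K ^ 2)
    (hh4 : avg (fun x => h x ^ 4) ≤ 81 * ρ ^ 8 * K ^ 4) :
    avg (fun x => (ρ * L x + h x) ^ 4)
      ≤ ρ ^ 4 * (3 * σ ^ 4 + 4 * (3873 / 1000) * ρ * σ ^ 3 * K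
          + 54 * (17321 / 10000) * ρ ^ 2 * σ ^ 2 * K ^ 2
          + 108 * (13161 / 10000) * ρ ^ 3 * σ * K ^ 3 + 81 * ρ ^ 4 * K ^ 4) := by
  have _ := hL2
  have eL4 : avg (fun x => (L x ^ 2) ^ 2) = avg (fun x => L x ^ 4) :=
    avg_congr (fun x => by ring)
  have eL6 : avg (fun x => (L x ^ 3) ^ 2) = avg (fun x => L x ^ 6) :=
    avg_congr (fun x => by ring)
  have eh4 : avg (fun x => (h x ^ 2) ^ 2) = avg (fun x => h x ^ 4) :=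
    avg_congr (fun x => by ring)
  have hL4' : avg (fun x => (L x ^ 2) ^ 2) ≤ 3 * σ ^ 4 := le_of_eq_of_le eL4 hL4
  have hL6' : avg (fun x => (L x ^ 3) ^ 2) ≤ 15 * σ ^ 6 := le_of_eq_of_le eL6 hL6
  have hh4' : avg (fun x => (h x ^ 2) ^ 2) ≤ 81 * ρ ^ 8 * K ^ 4 := le_of_eq_of_le eh4 hh4
  have hB1 : |avg (fun x => L x ^ 3 * h x)| ≤ (3873 / 1000) * σ ^ 3 * ρ ^ 2 * K := by
    refine hncs_cs (fun x => L x ^ 3) h hL6' hh2 (by positivity) ?_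
    have hp : 0 ≤ σ ^ 6 * (ρ ^ 4 * K ^ 2) := by positivity
    nlinarith [hp]
  have hB2 : |avg (fun x => L x ^ 2 * h x ^ 2)|
      ≤ (17321 / 10000) * 9 * σ ^ 2 * ρ ^ 4 * K ^ 2 := by
    refine hncs_cs (fun x => L x ^ 2) (fun x => h x ^ 2) hL4' hh4' (by positivity) ?_
    have hp : 0 ≤ σ ^ 4 * (ρ ^ 8 * K ^ 4) := by positivity
    nlinarith [hp]
  have eB2 : avg (fun x => (L x * h x) ^ 2) = avg (fun x => L x ^ 2 * h x ^ 2) :=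
    avg_congr (fun x => by ring)
  have hB2' : avg (fun x => (L x * h x) ^ 2) ≤ (17321 / 10000) * 9 * σ ^ 2 * ρ ^ 4 * K ^ 2 :=
    le_of_eq_of_le eB2 (le_trans (le_abs_self _) hB2)
  have hB3 : |avg (fun x => L x * h x * h x ^ 2)|
      ≤ (13161 / 10000) * 27 * σ * ρ ^ 6 * K ^ 3 := by
    refine hncs_cs (fun x => L x * h x) (fun x => h x ^ 2) hB2' hh4' (by positivity) ?_
    have hp : 0 ≤ σ ^ 2 * (ρ ^ 12 * K ^ 6) := by positivity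
    nlinarith [hp]
  have hpt : ∀ x, (ρ * L x + h x) ^ 4
      = ρ ^ 4 * L x ^ 4 + 4 * ρ ^ 3 * (L x ^ 3 * h x) + 6 * ρ ^ 2 * (L x ^ 2 * h x ^ 2)
        + 4 * ρ * (L x * h x * h x ^ 2) + 1 * h x ^ 4 := fun x => by ring
  have hexp : avg (fun x => (ρ * L x + h x) ^ 4)
      = ρ ^ 4 * avg (fun x => L x ^ 4) + 4 * ρ ^ 3 * avg (fun x => L x ^ 3 * h x)
        + 6 * ρ ^ 2 * avg (fun x => L x ^ 2 * h x ^ 2)
        + 4 * ρ * avg (fun x => L x * h x * h x ^ 2) + 1 * avg (fun x => h x ^ 4) := by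
    have e := hncs_lin5 (ρ ^ 4) (4 * ρ ^ 3) (6 * ρ ^ 2) (4 * ρ) 1 (fun x => L x ^ 4)
      (fun x => L x ^ 3 * h x) (fun x => L x ^ 2 * h x ^ 2) (fun x => L x * h x * h x ^ 2)
      (fun x => h x ^ 4)
    exact (avg_congr hpt).trans e
  have h0 : ρ ^ 4 * avg (fun x => L x ^ 4) ≤ ρ ^ 4 * (3 * σ ^ 4) :=
    mul_le_mul_of_nonneg_left hL4 (by positivity)
  have h1 := hncs_scale (by positivity : (0 : ℝ) ≤ 4 * ρ ^ 3) hB1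
  have h2 := hncs_scale (by positivity : (0 : ℝ) ≤ 6 * ρ ^ 2) hB2
  have h3 := hncs_scale (by positivity : (0 : ℝ) ≤ 4 * ρ) hB3
  rw [hexp]
  rw [abs_le] at h1 h2 h3
  linarith [h1.2, h2.2, h3.2]

end Vale.Agent.Lib.P322
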