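import Mathlib

namespace Vale.Agent.Lib.P322

/-- a quartic form in `(σ, K)` with suitable nonnegative coefficients, divided by
`K ^ 2 * (σ ^ 2 + K ^ 2)`, is monotone in the ratio `σ / K` -/
lemma hn2f_quartic_mono {a b c d e σ K R : ℝ} (ha : 0 ≤ a) (hb : 0 ≤ b) (hd : 0 ≤ d)
    (hce : e ≤ c) (hdb : d ≤ 2 * b) (hσ : 0 ≤ σ) (hK : 0 ≤ K) (hR : 0 ≤ R)
    (hσK : σ ≤ R * K) :
    (a * σ ^ 4 + b * σ ^ 3 * K + c * σ ^ 2 * K ^ 2 + d * σ * K ^ 3 + e * K ^ 4) * (1 + R ^ 2)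
      ≤ (a * R ^ 4 + b * R ^ 3 + c * R ^ 2 + d * R + e) * (K ^ 2 * (σ ^ 2 + K ^ 2)) := by
  have hD : 0 ≤ R * K - σ := by linarith
  have hRK : 0 ≤ R * K := mul_nonneg hR hK
  have hce' : 0 ≤ c - e := by linarith
  have hbd : 0 ≤ b - d / 2 := by linarith
  have hd2 : 0 ≤ d / 2 := by linarith
  have h5 : 0 ≤ b * R ^ 2 * σ ^ 2 - d * R * σ * K + d * K ^ 2 := by
    have e5 : b * R ^ 2 * σ ^ 2 - d * R * σ * K + d * K ^ 2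
        = (b - d / 2) * (R * σ) ^ 2 + d / 2 * K ^ 2 + d / 2 * (R * σ - K) ^ 2 := by ring
    rw [e5]
    positivity
  have h1 : 0 ≤ a * (R * K + σ) * (R ^ 2 * K ^ 2 + σ ^ 2) := by positivity
  have h2 : 0 ≤ b * K * (R ^ 2 * K ^ 2 + R * K * σ + σ ^ 2) := by positivity
  have h3 : 0 ≤ (c - e) * K ^ 2 * (R * K + σ) := by positivity
  have h4 : 0 ≤ a * R ^ 2 * σ ^ 2 * (R * K + σ) := by positivity
  have h6 : 0 ≤ K * (b * R ^ 2 * σ ^ 2 - d * R * σ * K + d * K ^ 2) := mul_nonneg hK h5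
  have key : (a * R ^ 4 + b * R ^ 3 + c * R ^ 2 + d * R + e) * (K ^ 2 * (σ ^ 2 + K ^ 2))
      - (a * σ ^ 4 + b * σ ^ 3 * K + c * σ ^ 2 * K ^ 2 + d * σ * K ^ 3 + e * K ^ 4)
        * (1 + R ^ 2)
      = (R * K - σ) * (a * (R * K + σ) * (R ^ 2 * K ^ 2 + σ ^ 2)
          + b * K * (R ^ 2 * K ^ 2 + R * K * σ + σ ^ 2) + (c - e) * K ^ 2 * (R * K + σ)
          + a * R ^ 2 * σ ^ 2 * (R * K + σ)
          + K * (b * R ^ 2 * σ ^ 2 - d * R * σ * K + d * K ^ 2)) := by ring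
  have hprod : 0 ≤ (R * K - σ) * (a * (R * K + σ) * (R ^ 2 * K ^ 2 + σ ^ 2)
          + b * K * (R ^ 2 * K ^ 2 + R * K * σ + σ ^ 2) + (c - e) * K ^ 2 * (R * K + σ)
          + a * R ^ 2 * σ ^ 2 * (R * K + σ)
          + K * (b * R ^ 2 * σ ^ 2 - d * R * σ * K + d * K ^ 2)) :=
    mul_nonneg hD (by linarith)
  linarith

/-- `t ↦ t (1 - t)` is monotone on `t ≤ 1 / 2` -/
lemma hn2f_v_mono {a b : ℝ} (hab : a ≤ b) (hb : b ≤ 1 / 2) : a * (1 - a) ≤ b * (1 - b) := by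
  have h : 0 ≤ (b - a) * (1 - a - b) := mul_nonneg (by linarith) (by linarith)
  have e : b * (1 - b) - a * (1 - a) = (b - a) * (1 - a - b) := by ring
  linarith

/-- `q ↦ 4 (1 - q) ^ 3 + q ^ 3` is antitone on `0 ≤ q ≤ 1 / 2` -/
lemma hn2f_c_anti {q p0 : ℝ} (hp0 : 0 ≤ p0) (hq0 : p0 ≤ q) (hqh : q ≤ 1 / 2) :
    4 * (1 - q) ^ 3 + q ^ 3 ≤ 4 * (1 - p0) ^ 3 + p0 ^ 3 := by
  have hq : 0 ≤ q := le_trans hp0 hq0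
  have e : 4 * (1 - p0) ^ 3 + p0 ^ 3 - (4 * (1 - q) ^ 3 + q ^ 3)
      = (q - p0) * (4 * ((1 - p0) ^ 2 + (1 - p0) * (1 - q) + (1 - q) ^ 2)
        - (q ^ 2 + q * p0 + p0 ^ 2)) := by ring
  have h1 : q ^ 2 ≤ (1 - q) ^ 2 := pow_le_pow_left₀ hq (by linarith) 2
  have h2 : q * p0 ≤ (1 - p0) * (1 - q) :=
    mul_le_mul (by linarith) (by linarith) hp0 (by linarith)
  have h3 : p0 ^ 2 ≤ (1 - p0) ^ 2 := pow_le_pow_left₀ hp0 (by linarith) 2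
  have h5 : 0 ≤ (1 - p0) * (1 - q) := mul_nonneg (by linarith) (by linarith)
  have h4 : 0 ≤ (q - p0) * (4 * ((1 - p0) ^ 2 + (1 - p0) * (1 - q) + (1 - q) ^ 2)
        - (q ^ 2 + q * p0 + p0 ^ 2)) := by
    apply mul_nonneg (by linarith)
    linarith [sq_nonneg (1 - p0), sq_nonneg (1 - q)]
  linarith

/-- the quartic part of a range -/
lemma hn2f_A4_le {σ K v R C4 : ℝ} (hσ0 : 0 ≤ σ) (hK0 : 0 ≤ K) (hv0 : 0 ≤ v)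
    (hσK : σ ^ 2 + K ^ 2 = v) (hR0 : 0 ≤ R) (hσRK : σ ≤ R * K)
    (n3 : 3 * R ^ 4 + 4 / 5 * (3873 / 1000) * R ^ 3 + 54 / 25 * (17321 / 10000) * R ^ 2
        + 108 / 125 * (13161 / 10000) * R + 81 / 625 ≤ C4 * (1 + R ^ 2)) :
    3 * σ ^ 4 + 4 / 5 * (3873 / 1000) * σ ^ 3 * K + 54 / 25 * (17321 / 10000) * σ ^ 2 * K ^ 2
      + 108 / 125 * (13161 / 10000) * σ * K ^ 3 + 81 / 625 * K ^ 4 ≤ C4 * (K ^ 2 * v) := by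
  have hR1 : 0 < 1 + R ^ 2 := by positivity
  have hK2v : 0 ≤ K ^ 2 * v := mul_nonneg (sq_nonneg K) hv0
  have hm := hn2f_quartic_mono (a := 3) (b := 4 / 5 * (3873 / 1000))
    (c := 54 / 25 * (17321 / 10000)) (d := 108 / 125 * (13161 / 10000)) (e := 81 / 625)
    (by norm_num) (by norm_num) (by norm_num) (by norm_num) (by norm_num) hσ0 hK0 hR0 hσRK
  rw [hσK] at hm
  have h1 : (3 * R ^ 4 + 4 / 5 * (3873 / 1000) * R ^ 3 + 54 / 25 * (17321 / 10000) * R ^ 2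
      + 108 / 125 * (13161 / 10000) * R + 81 / 625) * (K ^ 2 * v)
      ≤ C4 * (1 + R ^ 2) * (K ^ 2 * v) := mul_le_mul_of_nonneg_right n3 hK2v
  have e : C4 * (1 + R ^ 2) * (K ^ 2 * v) = C4 * (K ^ 2 * v) * (1 + R ^ 2) := by ring
  rw [e] at h1
  exact le_of_mul_le_mul_right (le_trans hm h1) hR1

/-- the cubic part of a range -/
lemma hn2f_B3_le {σ K v R C3 Q : ℝ} (hσ0 : 0 ≤ σ) (hK0 : 0 ≤ K)
    (hσK : σ ^ 2 + K ^ 2 = v) (hR0 : 0 ≤ R) (hσRK : σ ≤ R * K) (hC3 : 0 ≤ C3) (hQ : 0 ≤ Q)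
    (hvQ : v ≤ Q ^ 2)
    (n4 : (3 * (17321 / 10000) * R ^ 2 + 27 / 5 * R + 9 / 25) ^ 2 ≤ C3 ^ 2 * (1 + R ^ 2)) :
    3 * (17321 / 10000) * σ ^ 2 + 27 / 5 * σ * K + 9 / 25 * K ^ 2 ≤ C3 * K * Q := by
  have hR1 : 0 < 1 + R ^ 2 := by positivity
  have hK2 : 0 ≤ K ^ 2 := sq_nonneg K
  have hv0 : 0 ≤ v := by rw [← hσK]; positivity
  have hK2v : 0 ≤ K ^ 2 * v := mul_nonneg hK2 hv0
  have hB30 : 0 ≤ 3 * (17321 / 10000) * σ ^ 2 + 27 / 5 * σ * K + 9 / 25 * K ^ 2 := by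
    positivity
  have hCKQ : 0 ≤ C3 * K * Q := by positivity
  have hm := hn2f_quartic_mono (a := (3 * (17321 / 10000)) ^ 2)
    (b := 2 * (3 * (17321 / 10000)) * (27 / 5))
    (c := (27 / 5) ^ 2 + 2 * (3 * (17321 / 10000)) * (9 / 25))
    (d := 2 * (27 / 5) * (9 / 25)) (e := (9 / 25) ^ 2)
    (by norm_num) (by norm_num) (by norm_num) (by norm_num) (by norm_num) hσ0 hK0 hR0 hσRK
  rw [hσK] at hm
  have e1 : (3 * (17321 / 10000)) ^ 2 * σ ^ 4 + 2 * (3 * (17321 / 10000)) * (27 / 5) * σ ^ 3 * K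
      + ((27 / 5) ^ 2 + 2 * (3 * (17321 / 10000)) * (9 / 25)) * σ ^ 2 * K ^ 2
      + 2 * (27 / 5) * (9 / 25) * σ * K ^ 3 + (9 / 25) ^ 2 * K ^ 4
      = (3 * (17321 / 10000) * σ ^ 2 + 27 / 5 * σ * K + 9 / 25 * K ^ 2) ^ 2 := by ring
  have e2 : (3 * (17321 / 10000)) ^ 2 * R ^ 4 + 2 * (3 * (17321 / 10000)) * (27 / 5) * R ^ 3
      + ((27 / 5) ^ 2 + 2 * (3 * (17321 / 10000)) * (9 / 25)) * R ^ 2
      + 2 * (27 / 5) * (9 / 25) * R + (9 / 25) ^ 2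
      = (3 * (17321 / 10000) * R ^ 2 + 27 / 5 * R + 9 / 25) ^ 2 := by ring
  rw [e1, e2] at hm
  have h1 : (3 * (17321 / 10000) * R ^ 2 + 27 / 5 * R + 9 / 25) ^ 2 * (K ^ 2 * v)
      ≤ C3 ^ 2 * (1 + R ^ 2) * (K ^ 2 * v) := mul_le_mul_of_nonneg_right n4 hK2v
  have h2 : C3 ^ 2 * (1 + R ^ 2) * (K ^ 2 * v) ≤ C3 ^ 2 * (1 + R ^ 2) * (K ^ 2 * Q ^ 2) :=
    mul_le_mul_of_nonneg_left (mul_le_mul_of_nonneg_left hvQ hK2) (by positivity)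
  have e3 : C3 ^ 2 * (1 + R ^ 2) * (K ^ 2 * Q ^ 2) = (C3 * K * Q) ^ 2 * (1 + R ^ 2) := by ring
  rw [e3] at h2
  have h4 : (3 * (17321 / 10000) * σ ^ 2 + 27 / 5 * σ * K + 9 / 25 * K ^ 2) ^ 2
      ≤ (C3 * K * Q) ^ 2 := le_of_mul_le_mul_right (le_trans hm (le_trans h1 h2)) hR1
  exact (sq_le_sq₀ hB30 hCKQ).mp h4

/-- one range `p0 ≤ q ≤ p1` of the polynomial core, with numerical certificates -/
lemma hn2f_box {q σ K p0 p1 R C3 C4 Q : ℝ} (hp0 : 0 ≤ p0) (hq0 : p0 ≤ q) (hq1 : q ≤ p1)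
    (hp1 : p1 ≤ 1 / 2) (hσ0 : 0 ≤ σ) (hK0 : 0 ≤ K) (hσK : σ ^ 2 + K ^ 2 = q * (1 - q))
    (hR0 : 0 ≤ R) (hR : σ ^ 2 ≤ R ^ 2 * K ^ 2) (hC3 : 0 ≤ C3) (hQ : 0 ≤ Q)
    (n3 : 3 * R ^ 4 + 4 / 5 * (3873 / 1000) * R ^ 3 + 54 / 25 * (17321 / 10000) * R ^ 2
        + 108 / 125 * (13161 / 10000) * R + 81 / 625 ≤ C4 * (1 + R ^ 2))
    (n4 : (3 * (17321 / 10000) * R ^ 2 + 27 / 5 * R + 9 / 25) ^ 2 ≤ C3 ^ 2 * (1 + R ^ 2))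
    (n5 : p1 * (1 - p1) ≤ Q ^ 2)
    (n6 : 2 * (1 - 2 * p0) * C3 * Q + (4 * (1 - p0) ^ 3 + p0 ^ 3) * C4
        ≤ 144 * (p0 * (1 - p0))) :
    2 * (1 - 2 * q) * (q * (1 - q))
        * (3 * (17321 / 10000) * σ ^ 2 * K + 27 / 5 * σ * K ^ 2 + 9 / 25 * K ^ 3)
      + (4 * (1 - q) ^ 3 + q ^ 3)
        * (3 * σ ^ 4 + 4 / 5 * (3873 / 1000) * σ ^ 3 * K
          + 54 / 25 * (17321 / 10000) * σ ^ 2 * K ^ 2
          + 108 / 125 * (13161 / 10000) * σ * K ^ 3 + 81 / 625 * K ^ 4)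
      ≤ 144 * K ^ 2 * (q * (1 - q)) ^ 2 := by
  have hq : 0 ≤ q := le_trans hp0 hq0
  have hqh : q ≤ 1 / 2 := le_trans hq1 hp1
  have hvlo : p0 * (1 - p0) ≤ q * (1 - q) := hn2f_v_mono hq0 hqh
  have hvhi : q * (1 - q) ≤ Q ^ 2 := le_trans (hn2f_v_mono hq1 hp1) n5
  have hc1 := hn2f_c_anti hp0 hq0 hqh
  obtain ⟨v, hv⟩ : ∃ v : ℝ, v = q * (1 - q) := ⟨_, rfl⟩
  rw [← hv] at hσK hvlo hvhi ⊢
  have hv0 : 0 ≤ v := by rw [← hσK]; positivity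
  have hRK0 : 0 ≤ R * K := mul_nonneg hR0 hK0
  have hσRK : σ ≤ R * K := by
    rw [← sq_le_sq₀ hσ0 hRK0, mul_pow]
    exact hR
  have hK2 : 0 ≤ K ^ 2 := sq_nonneg K
  have hK2v : 0 ≤ K ^ 2 * v := mul_nonneg hK2 hv0
  have hA4le := hn2f_A4_le hσ0 hK0 hv0 hσK hR0 hσRK n3
  have hB3le := hn2f_B3_le hσ0 hK0 hσK hR0 hσRK hC3 hQ hvhi n4
  obtain ⟨A4, hA4⟩ : ∃ A4 : ℝ, A4 = 3 * σ ^ 4 + 4 / 5 * (3873 / 1000) * σ ^ 3 * K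
          + 54 / 25 * (17321 / 10000) * σ ^ 2 * K ^ 2
          + 108 / 125 * (13161 / 10000) * σ * K ^ 3 + 81 / 625 * K ^ 4 := ⟨_, rfl⟩
  have hA40 : 0 ≤ A4 := by rw [hA4]; positivity
  obtain ⟨B3, hB3⟩ : ∃ B3 : ℝ, B3 = 3 * (17321 / 10000) * σ ^ 2 + 27 / 5 * σ * K
      + 9 / 25 * K ^ 2 := ⟨_, rfl⟩
  have hB30 : 0 ≤ B3 := by rw [hB3]; positivity
  have hA3 : 3 * (17321 / 10000) * σ ^ 2 * K + 27 / 5 * σ * K ^ 2 + 9 / 25 * K ^ 3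
      = K * B3 := by rw [hB3]; ring
  rw [hA3, ← hA4]
  rw [← hA4] at hA4le
  rw [← hB3] at hB3le
  have ht0 : 0 ≤ 1 - 2 * p0 := by linarith
  have hc0 : 0 ≤ 4 * (1 - p0) ^ 3 + p0 ^ 3 := by
    have : 0 ≤ 1 - p0 := by linarith
    positivity
  have s1 : 2 * (1 - 2 * q) * v * (K * B3) ≤ 2 * (1 - 2 * p0) * v * (K * (C3 * K * Q)) := by
    have h1 : K * B3 ≤ K * (C3 * K * Q) := mul_le_mul_of_nonneg_left hB3le hK0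
    have h2 : 0 ≤ K * B3 := mul_nonneg hK0 hB30
    have h3 : 2 * (1 - 2 * q) * v ≤ 2 * (1 - 2 * p0) * v :=
      mul_le_mul_of_nonneg_right (by linarith) hv0
    have h4 : 0 ≤ 2 * (1 - 2 * p0) * v := by positivity
    exact mul_le_mul h3 h1 h2 h4
  have s2 : (4 * (1 - q) ^ 3 + q ^ 3) * A4
      ≤ (4 * (1 - p0) ^ 3 + p0 ^ 3) * (C4 * (K ^ 2 * v)) :=
    mul_le_mul hc1 hA4le hA40 hc0
  have s3 : K ^ 2 * v * (2 * (1 - 2 * p0) * C3 * Q + (4 * (1 - p0) ^ 3 + p0 ^ 3) * C4)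
      ≤ K ^ 2 * v * (144 * (p0 * (1 - p0))) := mul_le_mul_of_nonneg_left n6 hK2v
  have s4 : K ^ 2 * v * (144 * (p0 * (1 - p0))) ≤ K ^ 2 * v * (144 * v) :=
    mul_le_mul_of_nonneg_left (by linarith) hK2v
  have e5 : 2 * (1 - 2 * p0) * v * (K * (C3 * K * Q))
      + (4 * (1 - p0) ^ 3 + p0 ^ 3) * (C4 * (K ^ 2 * v))
      = K ^ 2 * v * (2 * (1 - 2 * p0) * C3 * Q + (4 * (1 - p0) ^ 3 + p0 ^ 3) * C4) := by ring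
  have e6 : K ^ 2 * v * (144 * v) = 144 * K ^ 2 * v ^ 2 := by ring
  linarith

/-- the ratio bound from `σ ^ 2 ≤ q / 2` -/
lemma hn2f_ratio_half {q σ K p1 R : ℝ} (hq : 0 ≤ q) (hq1 : q ≤ p1)
    (hσK : σ ^ 2 + K ^ 2 = q * (1 - q)) (hW : σ ^ 2 ≤ q / 2)
    (hR : 1 ≤ R ^ 2 * (1 - 2 * p1)) : σ ^ 2 ≤ R ^ 2 * K ^ 2 := by
  have h0 : q / 2 * (1 - 2 * p1) ≤ q / 2 * (1 - 2 * q) :=
    mul_le_mul_of_nonneg_left (by linarith) (by linarith)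
  have h1 : q / 2 * (1 - 2 * p1) ≤ K ^ 2 := by
    have e : q / 2 * (1 - 2 * q) = q * (1 - q) - q / 2 := by ring
    linarith
  have h2 : R ^ 2 * (q / 2 * (1 - 2 * p1)) ≤ R ^ 2 * K ^ 2 :=
    mul_le_mul_of_nonneg_left h1 (sq_nonneg R)
  have h3 : q / 2 * 1 ≤ q / 2 * (R ^ 2 * (1 - 2 * p1)) :=
    mul_le_mul_of_nonneg_left hR (by linarith)
  have e2 : q / 2 * (R ^ 2 * (1 - 2 * p1)) = R ^ 2 * (q / 2 * (1 - 2 * p1)) := by ring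
  linarith

/-- the ratio bound from `σ ^ 2 ≤ Y` -/
lemma hn2f_ratio_const {q σ K p0 R Y : ℝ} (hq0 : p0 ≤ q) (hqh : q ≤ 1 / 2)
    (hσK : σ ^ 2 + K ^ 2 = q * (1 - q)) (hW : σ ^ 2 ≤ Y)
    (hR : Y ≤ R ^ 2 * (p0 * (1 - p0) - Y)) : σ ^ 2 ≤ R ^ 2 * K ^ 2 := by
  have hvlo : p0 * (1 - p0) ≤ q * (1 - q) := hn2f_v_mono hq0 hqh
  have h1 : p0 * (1 - p0) - Y ≤ K ^ 2 := by linarith
  have h2 : R ^ 2 * (p0 * (1 - p0) - Y) ≤ R ^ 2 * K ^ 2 :=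
    mul_le_mul_of_nonneg_left h1 (sq_nonneg R)
  linarith

/-- the polynomial core of `hn_final2`, for `q ≤ 1 / 2` -/
lemma hn2f_core {q σ K : ℝ} (hq0 : 11 / 50 ≤ q) (hq1 : q ≤ 1 / 2) (hσ0 : 0 ≤ σ) (hK0 : 0 ≤ K)
    (hσK : σ ^ 2 + K ^ 2 = q * (1 - q)) (hW1 : σ ^ 2 ≤ 41 / 200) (hW2 : σ ^ 2 ≤ q / 2) :
    2 * (1 - 2 * q) * (q * (1 - q))
        * (3 * (17321 / 10000) * σ ^ 2 * K + 27 / 5 * σ * K ^ 2 + 9 / 25 * K ^ 3)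
      + (4 * (1 - q) ^ 3 + q ^ 3)
        * (3 * σ ^ 4 + 4 / 5 * (3873 / 1000) * σ ^ 3 * K
          + 54 / 25 * (17321 / 10000) * σ ^ 2 * K ^ 2
          + 108 / 125 * (13161 / 10000) * σ * K ^ 3 + 81 / 625 * K ^ 4)
      ≤ 144 * K ^ 2 * (q * (1 - q)) ^ 2 := by
  have hq : 0 ≤ q := by linarith
  rcases le_total q (1 / 4) with h1 | h1
  · exact hn2f_box (p0 := 11 / 50) (p1 := 1 / 4) (R := 283 / 200) (C3 := 85 / 8)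
      (C4 := 2001 / 200) (Q := 87 / 200) (by norm_num) hq0 h1 (by norm_num) hσ0 hK0 hσK
      (by norm_num) (hn2f_ratio_half hq h1 hσK hW2 (by norm_num)) (by norm_num) (by norm_num)
      (by norm_num) (by norm_num) (by norm_num) (by norm_num)
  rcases le_total q (3 / 10) with h2 | h2
  · exact hn2f_box (p0 := 1 / 4) (p1 := 3 / 10) (R := 159 / 100) (C3 := 294 / 25)
      (C4 := 61 / 5) (Q := 23 / 50) (by norm_num) h1 h2 (by norm_num) hσ0 hK0 hσK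
      (by norm_num) (hn2f_ratio_half hq h2 hσK hW2 (by norm_num)) (by norm_num) (by norm_num)
      (by norm_num) (by norm_num) (by norm_num) (by norm_num)
  rcases le_total q (9 / 25) with h3 | h3
  · exact hn2f_box (p0 := 3 / 10) (p1 := 9 / 25) (R := 189 / 100) (C3 := 1363 / 100)
      (C4 := 1637 / 100) (Q := 12 / 25) (by norm_num) h2 h3 (by norm_num) hσ0 hK0 hσK
      (by norm_num) (hn2f_ratio_half hq h3 hσK hW2 (by norm_num)) (by norm_num) (by norm_num)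
      (by norm_num) (by norm_num) (by norm_num) (by norm_num)
  rcases le_total q (41 / 100) with h4 | h4
  · exact hn2f_box (p0 := 9 / 25) (p1 := 41 / 100) (R := 59 / 25) (C3 := 1641 / 100)
      (C4 := 2397 / 100) (Q := 1 / 2) (by norm_num) h3 h4 (by norm_num) hσ0 hK0 hσK
      (by norm_num) (hn2f_ratio_half hq h4 hσK hW2 (by norm_num)) (by norm_num) (by norm_num)
      (by norm_num) (by norm_num) (by norm_num) (by norm_num)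
  · exact hn2f_box (p0 := 41 / 100) (p1 := 1 / 2) (R := 59 / 25) (C3 := 1641 / 100)
      (C4 := 2397 / 100) (Q := 1 / 2) (by norm_num) h4 hq1 (by norm_num) hσ0 hK0 hσK
      (by norm_num) (hn2f_ratio_const h4 hq1 hσK hW1 (by norm_num)) (by norm_num)
      (by norm_num) (by norm_num) (by norm_num) (by norm_num) (by norm_num)

/-- the core in divided form, for a pair `a + b = 1` with `a ≤ 1 / 2` -/
lemma hn2f_mid {a b σ K : ℝ} (hab : a + b = 1) (ha0 : 11 / 50 ≤ a) (ha1 : a ≤ 1 / 2)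
    (hσ0 : 0 ≤ σ) (hK0 : 0 ≤ K) (hσK : σ ^ 2 + K ^ 2 = a * b) (hW1 : σ ^ 2 ≤ 41 / 200)
    (hW2 : σ ^ 2 ≤ a / 2) :
    (3 * (17321 / 10000) * σ ^ 2 * K + 27 / 5 * σ * K ^ 2 + 9 / 25 * K ^ 3) * (b - a)
        / (6 * (a * b) ^ 2)
      + (3 * σ ^ 4 + 4 / 5 * (3873 / 1000) * σ ^ 3 * K
          + 54 / 25 * (17321 / 10000) * σ ^ 2 * K ^ 2
          + 108 / 125 * (13161 / 10000) * σ * K ^ 3 + 81 / 625 * K ^ 4)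
        * ((1 / a ^ 3 + 1 / b ^ 3) / 12 + 1 / a ^ 3 / 4)
      ≤ 12 * K ^ 2 / (a * b) := by
  have hb : b = 1 - a := by linarith
  subst hb
  have core := hn2f_core ha0 ha1 hσ0 hK0 hσK hW1 hW2
  obtain ⟨A3, hA3⟩ : ∃ A3 : ℝ, A3 = 3 * (17321 / 10000) * σ ^ 2 * K + 27 / 5 * σ * K ^ 2
      + 9 / 25 * K ^ 3 := ⟨_, rfl⟩
  obtain ⟨A4, hA4⟩ : ∃ A4 : ℝ, A4 = 3 * σ ^ 4 + 4 / 5 * (3873 / 1000) * σ ^ 3 * K
          + 54 / 25 * (17321 / 10000) * σ ^ 2 * K ^ 2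
          + 108 / 125 * (13161 / 10000) * σ * K ^ 3 + 81 / 625 * K ^ 4 := ⟨_, rfl⟩
  rw [← hA3, ← hA4] at core ⊢
  clear hA3 hA4 hσK hW1 hW2 hab
  have ha : 0 < a := by linarith
  have hb : 0 < 1 - a := by linarith
  have hane : a ≠ 0 := ha.ne'
  have hbne : 1 - a ≠ 0 := hb.ne'
  have e1 : A3 * (1 - a - a) / (6 * (a * (1 - a)) ^ 2)
      + A4 * ((1 / a ^ 3 + 1 / (1 - a) ^ 3) / 12 + 1 / a ^ 3 / 4)
      = (2 * (1 - 2 * a) * (a * (1 - a)) * A3 + (4 * (1 - a) ^ 3 + a ^ 3) * A4)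
        / (12 * (a * (1 - a)) ^ 3) := by
    field_simp
    ring
  have e2 : 12 * K ^ 2 / (a * (1 - a))
      = 144 * K ^ 2 * (a * (1 - a)) ^ 2 / (12 * (a * (1 - a)) ^ 3) := by
    field_simp
    ring
  rw [e1, e2]
  exact div_le_div_of_nonneg_right core (by positivity)

/-- removing `ρ` from the second moment bound -/
lemma hn2f_M2 {ρ σ K M2 : ℝ} (hρ0 : 0 ≤ ρ) (hρ1 : ρ ≤ 1 / 5)
    (h2 : M2 ≤ ρ ^ 2 * σ ^ 2 + ρ ^ 4 * K ^ 2) : M2 ≤ ρ ^ 2 * (σ ^ 2 + K ^ 2 / 25) := by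
  have hρ2 : ρ ^ 2 ≤ (1 / 5) ^ 2 := pow_le_pow_left₀ hρ0 hρ1 2
  have e : ρ ^ 4 * K ^ 2 = ρ ^ 2 * (ρ ^ 2 * K ^ 2) := by ring
  have h5 : ρ ^ 2 * K ^ 2 ≤ (1 / 5) ^ 2 * K ^ 2 := mul_le_mul_of_nonneg_right hρ2 (sq_nonneg K)
  have h6 : ρ ^ 2 * (ρ ^ 2 * K ^ 2) ≤ ρ ^ 2 * ((1 / 5) ^ 2 * K ^ 2) :=
    mul_le_mul_of_nonneg_left h5 (sq_nonneg ρ)
  rw [e] at h2
  have e2 : ρ ^ 2 * (σ ^ 2 + K ^ 2 / 25) = ρ ^ 2 * σ ^ 2 + ρ ^ 2 * ((1 / 5) ^ 2 * K ^ 2) := by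
    ring
  rw [e2]
  linarith

/-- removing `ρ` from the third moment bound -/
lemma hn2f_M3 {ρ σ K M3 : ℝ} (hρ0 : 0 ≤ ρ) (hρ1 : ρ ≤ 1 / 5) (hσ0 : 0 ≤ σ) (hK0 : 0 ≤ K)
    (h3 : |M3| ≤ ρ ^ 4 * (3 * (17321 / 10000) * σ ^ 2 * K + 27 * ρ * σ * K ^ 2
        + 9 * ρ ^ 2 * K ^ 3)) :
    |M3| ≤ ρ ^ 2 * ((3 * (17321 / 10000) * σ ^ 2 * K + 27 / 5 * σ * K ^ 2
      + 9 / 25 * K ^ 3) / 25) := by
  have hρ2 : ρ ^ 2 ≤ (1 / 5) ^ 2 := pow_le_pow_left₀ hρ0 hρ1 2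
  have hsK : 0 ≤ σ * K ^ 2 := by positivity
  have hK3 : 0 ≤ K ^ 3 := by positivity
  have h5 : ρ * (σ * K ^ 2) ≤ 1 / 5 * (σ * K ^ 2) := mul_le_mul_of_nonneg_right hρ1 hsK
  have h6 : ρ ^ 2 * K ^ 3 ≤ (1 / 5) ^ 2 * K ^ 3 := mul_le_mul_of_nonneg_right hρ2 hK3
  have h7 : 3 * (17321 / 10000) * σ ^ 2 * K + 27 * ρ * σ * K ^ 2 + 9 * ρ ^ 2 * K ^ 3
      ≤ 3 * (17321 / 10000) * σ ^ 2 * K + 27 / 5 * σ * K ^ 2 + 9 / 25 * K ^ 3 := by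
    linarith
  have h8 : 0 ≤ 3 * (17321 / 10000) * σ ^ 2 * K + 27 * ρ * σ * K ^ 2 + 9 * ρ ^ 2 * K ^ 3 := by
    positivity
  have e : ρ ^ 4 * (3 * (17321 / 10000) * σ ^ 2 * K + 27 * ρ * σ * K ^ 2 + 9 * ρ ^ 2 * K ^ 3)
      = ρ ^ 2 * (ρ ^ 2 * (3 * (17321 / 10000) * σ ^ 2 * K + 27 * ρ * σ * K ^ 2
        + 9 * ρ ^ 2 * K ^ 3)) := by ring
  have h9 : ρ ^ 2 * (3 * (17321 / 10000) * σ ^ 2 * K + 27 * ρ * σ * K ^ 2 + 9 * ρ ^ 2 * K ^ 3)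
      ≤ (1 / 5) ^ 2 * (3 * (17321 / 10000) * σ ^ 2 * K + 27 / 5 * σ * K ^ 2 + 9 / 25 * K ^ 3) :=
    mul_le_mul hρ2 h7 h8 (by norm_num)
  have h10 := mul_le_mul_of_nonneg_left h9 (sq_nonneg ρ)
  rw [e] at h3
  have e2 : ρ ^ 2 * ((3 * (17321 / 10000) * σ ^ 2 * K + 27 / 5 * σ * K ^ 2
      + 9 / 25 * K ^ 3) / 25)
      = ρ ^ 2 * ((1 / 5) ^ 2 * (3 * (17321 / 10000) * σ ^ 2 * K + 27 / 5 * σ * K ^ 2
        + 9 / 25 * K ^ 3)) := by ring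
  rw [e2]
  exact le_trans h3 h10

/-- removing `ρ` from the fourth moment bound -/
lemma hn2f_M4 {ρ σ K M4 : ℝ} (hρ0 : 0 ≤ ρ) (hρ1 : ρ ≤ 1 / 5) (hσ0 : 0 ≤ σ) (hK0 : 0 ≤ K)
    (h4 : M4 ≤ ρ ^ 4 * (3 * σ ^ 4 + 4 * (3873 / 1000) * ρ * σ ^ 3 * K
        + 54 * (17321 / 10000) * ρ ^ 2 * σ ^ 2 * K ^ 2
        + 108 * (13161 / 10000) * ρ ^ 3 * σ * K ^ 3 + 81 * ρ ^ 4 * K ^ 4)) :
    M4 ≤ ρ ^ 2 * ((3 * σ ^ 4 + 4 / 5 * (3873 / 1000) * σ ^ 3 * K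
          + 54 / 25 * (17321 / 10000) * σ ^ 2 * K ^ 2
          + 108 / 125 * (13161 / 10000) * σ * K ^ 3 + 81 / 625 * K ^ 4) / 25) := by
  have hρ2 : ρ ^ 2 ≤ (1 / 5) ^ 2 := pow_le_pow_left₀ hρ0 hρ1 2
  have hρ3 : ρ ^ 3 ≤ (1 / 5) ^ 3 := pow_le_pow_left₀ hρ0 hρ1 3
  have hρ4 : ρ ^ 4 ≤ (1 / 5) ^ 4 := pow_le_pow_left₀ hρ0 hρ1 4
  have hs3K : 0 ≤ σ ^ 3 * K := by positivity
  have hs2K2 : 0 ≤ σ ^ 2 * K ^ 2 := by positivity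
  have hsK3 : 0 ≤ σ * K ^ 3 := by positivity
  have hK4 : 0 ≤ K ^ 4 := by positivity
  have h5 : ρ * (σ ^ 3 * K) ≤ 1 / 5 * (σ ^ 3 * K) := mul_le_mul_of_nonneg_right hρ1 hs3K
  have h6 : ρ ^ 2 * (σ ^ 2 * K ^ 2) ≤ (1 / 5) ^ 2 * (σ ^ 2 * K ^ 2) :=
    mul_le_mul_of_nonneg_right hρ2 hs2K2
  have h7 : ρ ^ 3 * (σ * K ^ 3) ≤ (1 / 5) ^ 3 * (σ * K ^ 3) :=
    mul_le_mul_of_nonneg_right hρ3 hsK3
  have h8 : ρ ^ 4 * K ^ 4 ≤ (1 / 5) ^ 4 * K ^ 4 := mul_le_mul_of_nonneg_right hρ4 hK4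
  have h9 : 3 * σ ^ 4 + 4 * (3873 / 1000) * ρ * σ ^ 3 * K
      + 54 * (17321 / 10000) * ρ ^ 2 * σ ^ 2 * K ^ 2
      + 108 * (13161 / 10000) * ρ ^ 3 * σ * K ^ 3 + 81 * ρ ^ 4 * K ^ 4
      ≤ 3 * σ ^ 4 + 4 / 5 * (3873 / 1000) * σ ^ 3 * K
          + 54 / 25 * (17321 / 10000) * σ ^ 2 * K ^ 2
          + 108 / 125 * (13161 / 10000) * σ * K ^ 3 + 81 / 625 * K ^ 4 := by
    linarith
  have h10 : 0 ≤ 3 * σ ^ 4 + 4 * (3873 / 1000) * ρ * σ ^ 3 * K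
      + 54 * (17321 / 10000) * ρ ^ 2 * σ ^ 2 * K ^ 2
      + 108 * (13161 / 10000) * ρ ^ 3 * σ * K ^ 3 + 81 * ρ ^ 4 * K ^ 4 := by positivity
  have e : ρ ^ 4 * (3 * σ ^ 4 + 4 * (3873 / 1000) * ρ * σ ^ 3 * K
      + 54 * (17321 / 10000) * ρ ^ 2 * σ ^ 2 * K ^ 2
      + 108 * (13161 / 10000) * ρ ^ 3 * σ * K ^ 3 + 81 * ρ ^ 4 * K ^ 4)
      = ρ ^ 2 * (ρ ^ 2 * (3 * σ ^ 4 + 4 * (3873 / 1000) * ρ * σ ^ 3 * K
      + 54 * (17321 / 10000) * ρ ^ 2 * σ ^ 2 * K ^ 2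
      + 108 * (13161 / 10000) * ρ ^ 3 * σ * K ^ 3 + 81 * ρ ^ 4 * K ^ 4)) := by ring
  have h11 : ρ ^ 2 * (3 * σ ^ 4 + 4 * (3873 / 1000) * ρ * σ ^ 3 * K
      + 54 * (17321 / 10000) * ρ ^ 2 * σ ^ 2 * K ^ 2
      + 108 * (13161 / 10000) * ρ ^ 3 * σ * K ^ 3 + 81 * ρ ^ 4 * K ^ 4)
      ≤ (1 / 5) ^ 2 * (3 * σ ^ 4 + 4 / 5 * (3873 / 1000) * σ ^ 3 * K
          + 54 / 25 * (17321 / 10000) * σ ^ 2 * K ^ 2
          + 108 / 125 * (13161 / 10000) * σ * K ^ 3 + 81 / 625 * K ^ 4) :=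
    mul_le_mul hρ2 h9 h10 (by norm_num)
  have h12 := mul_le_mul_of_nonneg_left h11 (sq_nonneg ρ)
  rw [e] at h4
  have e2 : ρ ^ 2 * ((3 * σ ^ 4 + 4 / 5 * (3873 / 1000) * σ ^ 3 * K
          + 54 / 25 * (17321 / 10000) * σ ^ 2 * K ^ 2
          + 108 / 125 * (13161 / 10000) * σ * K ^ 3 + 81 / 625 * K ^ 4) / 25)
      = ρ ^ 2 * ((1 / 5) ^ 2 * (3 * σ ^ 4 + 4 / 5 * (3873 / 1000) * σ ^ 3 * K
          + 54 / 25 * (17321 / 10000) * σ ^ 2 * K ^ 2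
          + 108 / 125 * (13161 / 10000) * σ * K ^ 3 + 81 / 625 * K ^ 4)) := by ring
  rw [e2]
  exact le_trans h4 h12

/-- the final assembly in abstract form -/
lemma hn2f_assemble {ρ v x y A3 A4 c4 T D M2 M3 M4 : ℝ} (hv0 : 0 < v) (hxy : y + x = v)
    (hM2 : M2 ≤ ρ ^ 2 * (y + x / 25)) (hM3 : |M3| ≤ ρ ^ 2 * (A3 / 25))
    (hM4 : M4 ≤ ρ ^ 2 * (A4 / 25)) (hc40 : 0 ≤ c4) (hD : |D| = T / v ^ 2)
    (key : A3 * T / (6 * v ^ 2) + A4 * c4 ≤ 12 * x / v) :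
    M2 / (2 * v) + M3 / 6 * D + M4 * c4 ≤ ρ ^ 2 / 2 := by
  have hvne : v ≠ 0 := hv0.ne'
  have T1 : M2 / (2 * v) ≤ ρ ^ 2 * (y + x / 25) / (2 * v) :=
    div_le_div_of_nonneg_right hM2 (by positivity)
  have T2 : M3 / 6 * D ≤ ρ ^ 2 * (A3 / 25) / 6 * (T / v ^ 2) := by
    have h1 : M3 / 6 * D ≤ |M3 / 6 * D| := le_abs_self _
    have h2 : |M3 / 6 * D| = |M3| / 6 * (T / v ^ 2) := by
      rw [abs_mul, abs_div, hD]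
      norm_num
    have h3 : |M3| / 6 * (T / v ^ 2) ≤ ρ ^ 2 * (A3 / 25) / 6 * (T / v ^ 2) := by
      apply mul_le_mul_of_nonneg_right _ (by rw [← hD]; exact abs_nonneg D)
      exact div_le_div_of_nonneg_right hM3 (by norm_num)
    linarith
  have T3 : M4 * c4 ≤ ρ ^ 2 * (A4 / 25) * c4 := mul_le_mul_of_nonneg_right hM4 hc40
  have hsum : ρ ^ 2 * (y + x / 25) / (2 * v)
      + ρ ^ 2 * (A3 / 25) / 6 * (T / v ^ 2) + ρ ^ 2 * (A4 / 25) * c4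
      = ρ ^ 2 / 2 - ρ ^ 2 / 25 * (12 * x / v - (A3 * T / (6 * v ^ 2) + A4 * c4)) := by
    have hy : y = v - x := by linarith
    rw [hy]
    field_simp
    ring
  have hfin : 0 ≤ ρ ^ 2 / 25 * (12 * x / v - (A3 * T / (6 * v ^ 2) + A4 * c4)) :=
    mul_nonneg (by positivity) (by linarith)
  linarith

/-- the key inequality in symmetric form -/
lemma hn2f_key {p σ K : ℝ} (hp0 : 11 / 50 ≤ p) (hp1 : p ≤ 39 / 50) (hσ0 : 0 ≤ σ) (hK0 : 0 ≤ K)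
    (hσK : σ ^ 2 + K ^ 2 = p * (1 - p))
    (hW1 : σ ^ 2 ≤ 41 / 200) (hW2 : σ ^ 2 ≤ p / 2) (hW3 : σ ^ 2 ≤ (1 - p) / 2) :
    (3 * (17321 / 10000) * σ ^ 2 * K + 27 / 5 * σ * K ^ 2 + 9 / 25 * K ^ 3) * |2 * p - 1|
        / (6 * (p * (1 - p)) ^ 2)
      + (3 * σ ^ 4 + 4 / 5 * (3873 / 1000) * σ ^ 3 * K
          + 54 / 25 * (17321 / 10000) * σ ^ 2 * K ^ 2
          + 108 / 125 * (13161 / 10000) * σ * K ^ 3 + 81 / 625 * K ^ 4)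
        * ((1 / p ^ 3 + 1 / (1 - p) ^ 3) / 12 + max (1 / p ^ 3) (1 / (1 - p) ^ 3) / 4)
      ≤ 12 * K ^ 2 / (p * (1 - p)) := by
  have hp : 0 < p := by linarith
  have hq : 0 < 1 - p := by linarith
  rcases le_total p (1 / 2) with hle | hle
  · have hm := hn2f_mid (a := p) (b := 1 - p) (by ring) hp0 hle hσ0 hK0 hσK hW1 hW2
    have habs : |2 * p - 1| = 1 - p - p := by
      rw [abs_of_nonpos (by linarith)]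
      ring
    have hmax : max (1 / p ^ 3) (1 / (1 - p) ^ 3) = 1 / p ^ 3 := by
      apply max_eq_left
      apply one_div_le_one_div_of_le (by positivity)
      exact pow_le_pow_left₀ hp.le (by linarith) 3
    rw [habs, hmax]
    exact hm
  · have hm := hn2f_mid (a := 1 - p) (b := p) (by ring) (by linarith) (by linarith) hσ0 hK0
      (by rw [hσK]; ring) hW1 hW3
    have habs : |2 * p - 1| = p - (1 - p) := by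
      rw [abs_of_nonneg (by linarith)]
      ring
    have hmax : max (1 / p ^ 3) (1 / (1 - p) ^ 3) = 1 / (1 - p) ^ 3 := by
      apply max_eq_right
      apply one_div_le_one_div_of_le (by positivity)
      exact pow_le_pow_left₀ hq.le (by linarith) 3
    rw [habs, hmax]
    have e1 : p * (1 - p) = (1 - p) * p := by ring
    have e3 : 1 / p ^ 3 + 1 / (1 - p) ^ 3 = 1 / (1 - p) ^ 3 + 1 / p ^ 3 := by ring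
    rw [e1, e3]
    exact hm

/-- the elementary inequality behind the high-noise theorem on `2/5 ≤ ε ≤ 1/2` -/
theorem hn_final2 {p ρ σ K M2 M3 M4 : ℝ} (hp0 : 11 / 50 ≤ p) (hp1 : p ≤ 39 / 50)
    (hρ0 : 0 ≤ ρ) (hρ1 : ρ ≤ 1 / 5) (hσ0 : 0 ≤ σ) (hK0 : 0 ≤ K)
    (hσK : σ ^ 2 + K ^ 2 = p * (1 - p))
    (hW1 : σ ^ 2 ≤ 41 / 200) (hW2 : σ ^ 2 ≤ p / 2) (hW3 : σ ^ 2 ≤ (1 - p) / 2)
    (h2 : M2 ≤ ρ ^ 2 * σ ^ 2 + ρ ^ 4 * K ^ 2)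
    (h3 : |M3| ≤ ρ ^ 4 * (3 * (17321 / 10000) * σ ^ 2 * K + 27 * ρ * σ * K ^ 2
        + 9 * ρ ^ 2 * K ^ 3))
    (h4 : M4 ≤ ρ ^ 4 * (3 * σ ^ 4 + 4 * (3873 / 1000) * ρ * σ ^ 3 * K
        + 54 * (17321 / 10000) * ρ ^ 2 * σ ^ 2 * K ^ 2
        + 108 * (13161 / 10000) * ρ ^ 3 * σ * K ^ 3 + 81 * ρ ^ 4 * K ^ 4)) :
    M2 / (2 * p * (1 - p)) + M3 / 6 * (1 / (1 - p) ^ 2 - 1 / p ^ 2)
      + M4 * ((1 / p ^ 3 + 1 / (1 - p) ^ 3) / 12 + max (1 / p ^ 3) (1 / (1 - p) ^ 3) / 4)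
      ≤ ρ ^ 2 / 2 := by
  have hp : 0 < p := by linarith
  have hq : 0 < 1 - p := by linarith
  have hpne : p ≠ 0 := hp.ne'
  have hqne : 1 - p ≠ 0 := hq.ne'
  have hv0 : 0 < p * (1 - p) := mul_pos hp hq
  have hc40 : 0 ≤ (1 / p ^ 3 + 1 / (1 - p) ^ 3) / 12
      + max (1 / p ^ 3) (1 / (1 - p) ^ 3) / 4 := by
    have : 0 ≤ max (1 / p ^ 3) (1 / (1 - p) ^ 3) := le_max_of_le_left (by positivity)
    positivity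
  have hD : |1 / (1 - p) ^ 2 - 1 / p ^ 2| = |2 * p - 1| / (p * (1 - p)) ^ 2 := by
    have ec : 1 / (1 - p) ^ 2 - 1 / p ^ 2 = (2 * p - 1) / (p * (1 - p)) ^ 2 := by
      field_simp
      ring
    rw [ec, abs_div, abs_of_pos (by positivity : (0 : ℝ) < (p * (1 - p)) ^ 2)]
  have e : 2 * p * (1 - p) = 2 * (p * (1 - p)) := by ring
  rw [e]
  exact hn2f_assemble hv0 hσK (hn2f_M2 hρ0 hρ1 h2) (hn2f_M3 hρ0 hρ1 hσ0 hK0 h3)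
    (hn2f_M4 hρ0 hρ1 hσ0 hK0 h4) hc40 hD (hn2f_key hp0 hp1 hσ0 hK0 hσK hW1 hW2 hW3)

end Vale.Agent.Lib.P322
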