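import Vale.Agent.Lib.P322.HNBool

namespace Vale.Agent.Lib.P322
open Finset

/-- a cubic upper bound for the square root, doubly tangent near `u = 0.56` and `u = 5.6` -/
theorem sqrt_poly2 (u : ℝ) (hu : 0 ≤ u) :
    Real.sqrt u ≤ 64 / 3993 * (u ^ 3 - 85 / 8 * u ^ 2 + 13465 / 256 * u + 1305 / 64) := by
  obtain ⟨t, ht0, rfl⟩ : ∃ t : ℝ, 0 ≤ t ∧ u = t ^ 2 :=
    ⟨Real.sqrt u, Real.sqrt_nonneg u, (Real.sq_sqrt hu).symm⟩
  rw [Real.sqrt_sq ht0]
  have key : 64 / 3993 * ((t ^ 2) ^ 3 - 85 / 8 * (t ^ 2) ^ 2 + 13465 / 256 * t ^ 2 + 1305 / 64)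
      - t = 64 / 3993 * ((t ^ 2 - 11 / 4 * t + 3 / 2) ^ 2 * (t ^ 2 + 11 / 2 * t + 145 / 16)) := by
    ring
  have h2 : 0 ≤ 64 / 3993 * ((t ^ 2 - 11 / 4 * t + 3 / 2) ^ 2
      * (t ^ 2 + 11 / 2 * t + 145 / 16)) := by positivity
  linarith

/-- a Rademacher sum whose coefficients all satisfy `a_i² ≤ (35/64) ∑ a_j²` has
`E|ℓ| ≤ (9/10) (E ℓ²)^{1/2}` -/
theorem linf_abs_le2 {n : ℕ} (a : Fin n → ℝ) (hV : 0 < ∑ i, a i ^ 2)
    (hmax : ∀ i, a i ^ 2 ≤ 35 / 64 * ∑ j, a j ^ 2) :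
    avg (fun x => |linf a x|) ≤ 9 / 10 * Real.sqrt (∑ i, a i ^ 2) := by
  have e2 := linf_sq a
  have e4 := linf_fourth a
  have e6 := linf_sixth a
  obtain ⟨V, hVdef⟩ : ∃ V : ℝ, V = ∑ i, a i ^ 2 := ⟨_, rfl⟩
  obtain ⟨S4, hS4def⟩ : ∃ S4 : ℝ, S4 = ∑ i, a i ^ 4 := ⟨_, rfl⟩
  obtain ⟨S6, hS6def⟩ : ∃ S6 : ℝ, S6 = ∑ i, a i ^ 6 := ⟨_, rfl⟩
  have hS6 : S6 ≤ 35 / 64 * V * S4 := by
    rw [hS6def, hS4def, Finset.mul_sum]
    apply Finset.sum_le_sum
    intro i _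
    have h4 : 0 ≤ a i ^ 4 := by positivity
    have h5 := mul_le_mul_of_nonneg_right (hmax i) h4
    rw [← hVdef] at h5
    calc a i ^ 6 = a i ^ 2 * a i ^ 4 := by ring
      _ ≤ 35 / 64 * V * a i ^ 4 := h5
  rw [← hVdef] at hV e2 e4 e6 ⊢
  rw [← hS4def] at e4 e6
  rw [← hS6def] at e6
  obtain ⟨r, hr⟩ : ∃ r : ℝ, r = Real.sqrt V := ⟨_, rfl⟩
  rw [← hr]
  have hr0 : 0 < r := by rw [hr]; exact Real.sqrt_pos.2 hV
  have hVne : V ≠ 0 := hV.ne'
  have hpt : ∀ x : Fin n → ℤˣ, |linf a x| ≤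
      r * (1305 / 3993) + (r * (13465 / 15972) / V) * linf a x ^ 2
        + (-(r * (680 / 3993) / V ^ 2)) * linf a x ^ 4
        + (r * (64 / 3993) / V ^ 3) * linf a x ^ 6 := by
    intro x
    have hw : 0 ≤ linf a x ^ 2 / V := div_nonneg (sq_nonneg _) hV.le
    have h1 := sqrt_poly2 _ hw
    have h0 : V * (linf a x ^ 2 / V) = linf a x ^ 2 := by field_simp
    have h2 : |linf a x| = r * Real.sqrt (linf a x ^ 2 / V) := by
      rw [hr, ← Real.sqrt_mul hV.le, h0, Real.sqrt_sq_eq_abs]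
    rw [h2]
    have h3 : r * (64 / 3993 * ((linf a x ^ 2 / V) ^ 3 - 85 / 8 * (linf a x ^ 2 / V) ^ 2
        + 13465 / 256 * (linf a x ^ 2 / V) + 1305 / 64)) =
        r * (1305 / 3993) + (r * (13465 / 15972) / V) * linf a x ^ 2
          + (-(r * (680 / 3993) / V ^ 2)) * linf a x ^ 4
          + (r * (64 / 3993) / V ^ 3) * linf a x ^ 6 := by
      field_simp
      ring
    rw [← h3]
    exact mul_le_mul_of_nonneg_left h1 hr0.le
  have havg := avg_mono hpt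
  have hR : avg (fun x => r * (1305 / 3993) + (r * (13465 / 15972) / V) * linf a x ^ 2
        + (-(r * (680 / 3993) / V ^ 2)) * linf a x ^ 4
        + (r * (64 / 3993) / V ^ 3) * linf a x ^ 6)
      = r * (1305 / 3993) + (r * (13465 / 15972) / V) * V
        + (-(r * (680 / 3993) / V ^ 2)) * (3 * V ^ 2 - 2 * S4)
        + (r * (64 / 3993) / V ^ 3) * (15 * V ^ 3 - 30 * V * S4 + 16 * S6) := by
    rw [avg_add, avg_add, avg_add, avg_const, avg_const_mul, avg_const_mul, avg_const_mul,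
      e2, e4, e6]
  rw [hR] at havg
  have hfin : r * (1305 / 3993) + (r * (13465 / 15972) / V) * V
        + (-(r * (680 / 3993) / V ^ 2)) * (3 * V ^ 2 - 2 * S4)
        + (r * (64 / 3993) / V ^ 3) * (15 * V ^ 3 - 30 * V * S4 + 16 * S6)
      = 14365 / 15972 * r + r * (1024 * S6 - 560 * V * S4) / (3993 * V ^ 3) := by
    field_simp
    ring
  rw [hfin] at havg
  have hneg : r * (1024 * S6 - 560 * V * S4) / (3993 * V ^ 3) ≤ 0 := by
    apply div_nonpos_of_nonpos_of_nonneg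
    · exact mul_nonpos_of_nonneg_of_nonpos hr0.le (by linarith)
    · positivity
  linarith

/-- an explicit FKN-type gap: a Boolean function has level-one weight at most `41/50`, or one of
its level-one coefficients has absolute value at least `2/3`. -/
theorem fkn_gap2 {n : ℕ} (f : (Fin n → ℤˣ) → ℤˣ) :
    wt1 (fR f) ≤ 41 / 50 ∨ ∃ i, 2 / 3 ≤ |coef (fR f) i| := by
  by_cases hV : wt1 (fR f) ≤ 41 / 50
  · exact Or.inl hV
  · right
    by_contra hcon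
    push Not at hcon
    have hVdef : wt1 (fR f) = ∑ i, coef (fR f) i ^ 2 := rfl
    have hV' : 41 / 50 < ∑ i, coef (fR f) i ^ 2 := by
      rw [← hVdef]
      exact not_le.1 hV
    have hV0 : 0 < ∑ i, coef (fR f) i ^ 2 := by linarith
    have hmax : ∀ i, coef (fR f) i ^ 2 ≤ 35 / 64 * ∑ j, coef (fR f) j ^ 2 := by
      intro i
      have h := hcon i
      have h0 := abs_nonneg (coef (fR f) i)
      have e : coef (fR f) i ^ 2 = |coef (fR f) i| ^ 2 := (sq_abs _).symm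
      rw [e]
      nlinarith
    have h1 : ∑ i, coef (fR f) i ^ 2
        ≤ 9 / 10 * Real.sqrt (∑ i, coef (fR f) i ^ 2) := by
      have h2 := wt1_le_abs f
      rw [hVdef] at h2
      exact h2.trans (linf_abs_le2 _ hV0 hmax)
    have hs : Real.sqrt (∑ i, coef (fR f) i ^ 2) * Real.sqrt (∑ i, coef (fR f) i ^ 2)
        = ∑ i, coef (fR f) i ^ 2 := Real.mul_self_sqrt hV0.le
    have hs0 : 0 < Real.sqrt (∑ i, coef (fR f) i ^ 2) := Real.sqrt_pos.2 hV0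
    nlinarith

end Vale.Agent.Lib.P322
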