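import Vale.Agent.Lib.P322.HNInfo

namespace Vale.Agent.Lib.P322
open Finset

/-- the auxiliary function whose sign gives the quartic bound for `x log x` -/
private noncomputable def hn2klG (t : ℝ) : ℝ :=
  (t - 1) + (t - 1) ^ 2 / 2 - (t - 1) ^ 3 / 6 + (t - 1) ^ 4 / 12 - t * Real.log t

private theorem hn2klG_hasDerivAt {t : ℝ} (ht : 0 < t) :
    HasDerivAt hn2klG ((t - 1) - (t - 1) ^ 2 / 2 + (t - 1) ^ 3 / 3 - Real.log t) t := by
  have h0 : HasDerivAt (fun s : ℝ => s - 1) 1 t := (hasDerivAt_id t).sub_const 1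
  have h2 : HasDerivAt (fun s : ℝ => (s - 1) ^ 2) (2 * (t - 1) ^ 1 * 1) t := by
    simpa using h0.fun_pow 2
  have h3 : HasDerivAt (fun s : ℝ => (s - 1) ^ 3) (3 * (t - 1) ^ 2 * 1) t := by
    simpa using h0.fun_pow 3
  have h4 : HasDerivAt (fun s : ℝ => (s - 1) ^ 4) (4 * (t - 1) ^ 3 * 1) t := by
    simpa using h0.fun_pow 4
  have hl : HasDerivAt (fun s : ℝ => s * Real.log s) (1 * Real.log t + t * t⁻¹) t :=
    (hasDerivAt_id t).mul (Real.hasDerivAt_log ht.ne')
  have hsum := (((h0.add (h2.div_const 2)).sub (h3.div_const 6)).add (h4.div_const 12)).sub hl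
  have heq : (1 + 2 * (t - 1) ^ 1 * 1 / 2 - 3 * (t - 1) ^ 2 * 1 / 6 + 4 * (t - 1) ^ 3 * 1 / 12
      - (1 * Real.log t + t * t⁻¹)) = (t - 1) - (t - 1) ^ 2 / 2 + (t - 1) ^ 3 / 3 - Real.log t := by
    rw [mul_inv_cancel₀ ht.ne']
    ring
  rw [← heq]
  exact hsum

/-- a fourth-order bound for `x log x` to the right of `1` -/
theorem xlogx_le_quartic {x : ℝ} (hx : 1 ≤ x) :
    x * Real.log x ≤ (x - 1) + (x - 1) ^ 2 / 2 - (x - 1) ^ 3 / 6 + (x - 1) ^ 4 / 12 := by
  have hmono : MonotoneOn hn2klG (Set.Ici (1 : ℝ)) := by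
    apply monotoneOn_of_deriv_nonneg (convex_Ici 1)
    · intro t ht
      exact (hn2klG_hasDerivAt (lt_of_lt_of_le one_pos ht)).continuousAt.continuousWithinAt
    · intro t ht
      rw [interior_Ici] at ht
      exact (hn2klG_hasDerivAt (lt_trans one_pos ht)).differentiableAt.differentiableWithinAt
    · intro t ht
      rw [interior_Ici] at ht
      have ht0 : 0 < t := lt_trans one_pos ht
      rw [(hn2klG_hasDerivAt ht0).deriv]
      have h := log_le_cubic ht0
      linarith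
  have h := hmono (Set.mem_Ici.mpr le_rfl) (Set.mem_Ici.mpr hx) hx
  have h1 : hn2klG 1 = 0 := by
    simp [hn2klG]
  rw [h1] at h
  unfold hn2klG at h
  linarith

/-- a fourth-order bound for `x log x` on the positive half line -/
private theorem hn2kl_xlogx_le {x : ℝ} (hx : 0 < x) :
    x * Real.log x ≤ (x - 1) + (x - 1) ^ 2 / 2 - (x - 1) ^ 3 / 6 + (x - 1) ^ 4 / 3 := by
  have h := mul_le_mul_of_nonneg_left (log_le_cubic hx) hx.le
  have e : x * ((x - 1) - (x - 1) ^ 2 / 2 + (x - 1) ^ 3 / 3)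
      = (x - 1) + (x - 1) ^ 2 / 2 - (x - 1) ^ 3 / 6 + (x - 1) ^ 4 / 3 := by
    ring
  linarith

/-- one half of the relative entropy, with the coefficient `1 / 3` in general and `1 / 12`
when `p ≤ q` -/
private theorem hn2kl_part {p q c : ℝ} (hp0 : 0 < p) (hq0 : 0 ≤ q)
    (hc : c = 1 / 3 ∨ (c = 1 / 12 ∧ p ≤ q)) :
    q * (Real.log q - Real.log p)
      ≤ p * ((q / p - 1) + (q / p - 1) ^ 2 / 2 - (q / p - 1) ^ 3 / 6
          + c * (q / p - 1) ^ 4) := by
  rcases hq0.eq_or_lt with h | h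
  · rcases hc with hc | ⟨hc, hpq⟩
    · rw [← h, hc]
      simp
      norm_num
    · exact absurd (lt_of_lt_of_le hp0 hpq) (by rw [← h]; exact lt_irrefl 0)
  · have hx : 0 < q / p := div_pos h hp0
    have e : q * (Real.log q - Real.log p) = p * (q / p * Real.log (q / p)) := by
      rw [Real.log_div h.ne' hp0.ne']
      field_simp
    rw [e]
    apply mul_le_mul_of_nonneg_left _ hp0.le
    rcases hc with hc | ⟨hc, hpq⟩
    · rw [hc]
      have h2 := hn2kl_xlogx_le hx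
      linarith
    · rw [hc]
      have h1 : 1 ≤ q / p := by
        rw [le_div_iff₀ hp0]
        linarith
      have h2 := xlogx_le_quartic h1
      linarith

/-- a fourth-order upper bound for the binary relative entropy `D(q‖p)` with a smaller
fourth-order coefficient -/
theorem binEntropy_sub_le2 {p q : ℝ} (hp0 : 0 < p) (hp1 : p < 1) (hq0 : 0 ≤ q) (hq1 : q ≤ 1) :
    Real.binEntropy p - Real.binEntropy q
      ≤ (q - p) * (Real.log p - Real.log (1 - p))
        + (q - p) ^ 2 / (2 * p * (1 - p))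
        + (q - p) ^ 3 / 6 * (1 / (1 - p) ^ 2 - 1 / p ^ 2)
        + (q - p) ^ 4 * ((1 / p ^ 3 + 1 / (1 - p) ^ 3) / 12
            + max (1 / p ^ 3) (1 / (1 - p) ^ 3) / 4) := by
  have hp1' : 0 < 1 - p := by linarith
  have hq1' : 0 ≤ 1 - q := by linarith
  have hent : Real.binEntropy p - Real.binEntropy q
      = (q - p) * (Real.log p - Real.log (1 - p))
        + q * (Real.log q - Real.log p)
        + (1 - q) * (Real.log (1 - q) - Real.log (1 - p)) := by
    rw [Real.binEntropy_eq_negMulLog_add_negMulLog_one_sub,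
      Real.binEntropy_eq_negMulLog_add_negMulLog_one_sub]
    simp only [Real.negMulLog]
    ring
  have hpoly : ∀ c1 c2 : ℝ,
      p * ((q / p - 1) + (q / p - 1) ^ 2 / 2 - (q / p - 1) ^ 3 / 6 + c1 * (q / p - 1) ^ 4)
      + (1 - p) * (((1 - q) / (1 - p) - 1) + ((1 - q) / (1 - p) - 1) ^ 2 / 2
          - ((1 - q) / (1 - p) - 1) ^ 3 / 6 + c2 * ((1 - q) / (1 - p) - 1) ^ 4)
      = (q - p) ^ 2 / (2 * p * (1 - p))
        + (q - p) ^ 3 / 6 * (1 / (1 - p) ^ 2 - 1 / p ^ 2)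
        + (q - p) ^ 4 * (c1 / p ^ 3 + c2 / (1 - p) ^ 3) := by
    intro c1 c2
    have hpne : p ≠ 0 := hp0.ne'
    have hpne' : 1 - p ≠ 0 := hp1'.ne'
    field_simp
    ring
  have hd4 : 0 ≤ (q - p) ^ 4 := by positivity
  rw [hent]
  rcases le_total p q with hpq | hpq
  · have hA := hn2kl_part (c := 1 / 12) hp0 hq0 (Or.inr ⟨rfl, hpq⟩)
    have hB := hn2kl_part (p := 1 - p) (q := 1 - q) (c := 1 / 3) hp1' hq1' (Or.inl rfl)
    have hP := hpoly (1 / 12) (1 / 3)
    have hC : (1 / 12 : ℝ) / p ^ 3 + (1 / 3) / (1 - p) ^ 3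
        ≤ (1 / p ^ 3 + 1 / (1 - p) ^ 3) / 12 + max (1 / p ^ 3) (1 / (1 - p) ^ 3) / 4 := by
      have hm := le_max_right (1 / p ^ 3) (1 / (1 - p) ^ 3)
      have e : (1 / 12 : ℝ) / p ^ 3 + (1 / 3) / (1 - p) ^ 3
          = (1 / p ^ 3 + 1 / (1 - p) ^ 3) / 12 + (1 / (1 - p) ^ 3) / 4 := by
        ring
      linarith
    have hM := mul_le_mul_of_nonneg_left hC hd4
    linarith
  · have hA := hn2kl_part (c := 1 / 3) hp0 hq0 (Or.inl rfl)
    have hB := hn2kl_part (p := 1 - p) (q := 1 - q) (c := 1 / 12) hp1' hq1'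
      (Or.inr ⟨rfl, by linarith⟩)
    have hP := hpoly (1 / 3) (1 / 12)
    have hC : (1 / 3 : ℝ) / p ^ 3 + (1 / 12) / (1 - p) ^ 3
        ≤ (1 / p ^ 3 + 1 / (1 - p) ^ 3) / 12 + max (1 / p ^ 3) (1 / (1 - p) ^ 3) / 4 := by
      have hm := le_max_left (1 / p ^ 3) (1 / (1 - p) ^ 3)
      have e : (1 / 3 : ℝ) / p ^ 3 + (1 / 12) / (1 - p) ^ 3
          = (1 / p ^ 3 + 1 / (1 - p) ^ 3) / 12 + (1 / p ^ 3) / 4 := by
        ring
      linarith
    have hM := mul_le_mul_of_nonneg_left hC hd4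
    linarith

/-- the mutual information is bounded by the second, third and fourth central moments of the
posterior `P(f(X) = 1 | Y)`, with a smaller fourth-order coefficient. -/
theorem info_le_moments2 {n : ℕ} {ε : ℝ} (h0 : 0 ≤ ε) (h1 : ε ≤ 1) (f : (Fin n → ℤˣ) → ℤˣ)
    (hp0 : 0 < probOne f) (hp1 : probOne f < 1) :
    infoFY ε f * Real.log 2
      ≤ avg (fun y => (post ε f 1 y - probOne f) ^ 2) / (2 * probOne f * (1 - probOne f))
        + avg (fun y => (post ε f 1 y - probOne f) ^ 3) / 6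
            * (1 / (1 - probOne f) ^ 2 - 1 / probOne f ^ 2)
        + avg (fun y => (post ε f 1 y - probOne f) ^ 4)
            * ((1 / probOne f ^ 3 + 1 / (1 - probOne f) ^ 3) / 12
              + max (1 / probOne f ^ 3) (1 / (1 - probOne f) ^ 3) / 4) := by
  have hN : (0 : ℝ) < 2 ^ n := by positivity
  have hL : 0 < Real.log 2 := Real.log_pos (by norm_num)
  obtain ⟨p, hp⟩ : ∃ p : ℝ, p = probOne f := ⟨_, rfl⟩
  rw [← hp] at hp0 hp1 ⊢
  have hq0 : ∀ y, 0 ≤ post ε f 1 y := fun y => post_nonneg h0 h1 f 1 y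
  have hq1 : ∀ y, post ε f 1 y ≤ 1 := by
    intro y
    have h2 := post_nonneg h0 h1 f (-1) y
    have h3 := post_add ε f y
    linarith
  have hsum : ∑ y, (post ε f 1 y - p) = 0 := by
    rw [Finset.sum_sub_distrib, sum_post, Finset.sum_const, Finset.card_univ, nsmul_eq_mul, hp,
      probOne_eq]
    have hcard : ((Fintype.card (Fin n → ℤˣ) : ℕ) : ℝ) = 2 ^ n := by
      simp
    rw [hcard]
    field_simp
    ring
  have hinfo : infoFY ε f * Real.log 2 =
      (∑ y, (Real.binEntropy p - Real.binEntropy (post ε f 1 y))) / 2 ^ n := by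
    rw [infoFY_eq, ← hp, Finset.sum_sub_distrib, Finset.sum_const, Finset.card_univ, nsmul_eq_mul]
    have hcard : ((Fintype.card (Fin n → ℤˣ) : ℕ) : ℝ) = 2 ^ n := by
      simp
    rw [hcard]
    unfold h2
    rw [← Finset.sum_div]
    field_simp
  have hkey : ∀ y, Real.binEntropy p - Real.binEntropy (post ε f 1 y) ≤
      (post ε f 1 y - p) * (Real.log p - Real.log (1 - p))
        + (post ε f 1 y - p) ^ 2 / (2 * p * (1 - p))
        + (post ε f 1 y - p) ^ 3 / 6 * (1 / (1 - p) ^ 2 - 1 / p ^ 2)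
        + (post ε f 1 y - p) ^ 4 * ((1 / p ^ 3 + 1 / (1 - p) ^ 3) / 12
            + max (1 / p ^ 3) (1 / (1 - p) ^ 3) / 4) :=
    fun y => binEntropy_sub_le2 hp0 hp1 (hq0 y) (hq1 y)
  have hsumle := Finset.sum_le_sum (fun y (_ : y ∈ (Finset.univ : Finset (Fin n → ℤˣ))) => hkey y)
  rw [Finset.sum_add_distrib, Finset.sum_add_distrib, Finset.sum_add_distrib, ← Finset.sum_mul,
    ← Finset.sum_mul, ← Finset.sum_mul, ← Finset.sum_div, ← Finset.sum_div,
    hsum, zero_mul, zero_add] at hsumle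
  rw [hinfo]
  unfold avg
  have h5 := div_le_div_of_nonneg_right hsumle hN.le
  calc (∑ y, (Real.binEntropy p - Real.binEntropy (post ε f 1 y))) / 2 ^ n
      ≤ ((∑ y, (post ε f 1 y - p) ^ 2) / (2 * p * (1 - p))
        + (∑ y, (post ε f 1 y - p) ^ 3) / 6 * (1 / (1 - p) ^ 2 - 1 / p ^ 2)
        + (∑ y, (post ε f 1 y - p) ^ 4) * ((1 / p ^ 3 + 1 / (1 - p) ^ 3) / 12
            + max (1 / p ^ 3) (1 / (1 - p) ^ 3) / 4)) / 2 ^ n := h5
    _ = _ := by
      ring

end Vale.Agent.Lib.P322
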