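import Vale.Agent.Lib.P322.HNSlice

namespace Vale.Agent.Lib.P322
open Finset

/-- average of a combination of three functions and a constant -/
lemma hnMom_avg_comb4 {n : ℕ} (c0 c1 c2 c3 : ℝ) (u v w : (Fin n → ℤˣ) → ℝ) :
    avg (fun x => c0 + c1 * u x + c2 * v x + c3 * w x)
      = c0 + c1 * avg u + c2 * avg v + c3 * avg w := by
  have h1 := avg_add (fun x => c0 + c1 * u x + c2 * v x) (fun x => c3 * w x)
  have h2 := avg_add (fun x => c0 + c1 * u x) (fun x => c2 * v x)
  have h3 := avg_add (fun _ : Fin n → ℤˣ => c0) (fun x => c1 * u x)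
  rw [h1, h2, h3, avg_const, avg_const_mul, avg_const_mul, avg_const_mul]

/-- the distribution of a linear form is symmetric -/
theorem linf_symm {n : ℕ} (a : Fin n → ℝ) (F : ℝ → ℝ) :
    avg (fun x => F (- linf a x)) = avg (fun x => F (linf a x)) := by
  induction n generalizing F with
  | zero => simp only [linf_zero, neg_zero]
  | succ n ih =>
    have h1 := avg_linf_cons a (fun t => F (-t))
    have h2 := avg_linf_cons a F
    rw [h1, h2]
    have h3 := ih (fun j => a (Fin.succ j)) (fun t => (F (-a 0 + t) + F (a 0 + t)) / 2)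
    have e1 : (fun x' : Fin n → ℤˣ => (F (-(a 0 + linf (fun j => a (Fin.succ j)) x'))
          + F (-(-a 0 + linf (fun j => a (Fin.succ j)) x'))) / 2)
        = fun x' => (F (-a 0 + -linf (fun j => a (Fin.succ j)) x')
          + F (a 0 + -linf (fun j => a (Fin.succ j)) x')) / 2 := by
      funext x'
      rw [neg_add, neg_add, neg_neg]
    have e2 : (fun x' : Fin n → ℤˣ => (F (a 0 + linf (fun j => a (Fin.succ j)) x')
          + F (-a 0 + linf (fun j => a (Fin.succ j)) x')) / 2)
        = fun x' => (F (-a 0 + linf (fun j => a (Fin.succ j)) x')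
          + F (a 0 + linf (fun j => a (Fin.succ j)) x')) / 2 := by
      funext x'
      rw [add_comm (F (a 0 + linf (fun j => a (Fin.succ j)) x'))]
    rw [e1, e2]
    exact h3

theorem linf_avg {n : ℕ} (a : Fin n → ℝ) : avg (linf a) = 0 := by
  have h := linf_symm a (fun t => t)
  have h2 := avg_const_mul (-1) (linf a)
  have e : (fun x => -1 * linf a x) = fun x => - linf a x := by
    funext x
    ring
  rw [e] at h2
  have h3 : avg (fun x => linf a x) = avg (linf a) := rfl
  linarith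

theorem linf_sq {n : ℕ} (a : Fin n → ℝ) : avg (fun x => linf a x ^ 2) = ∑ i, a i ^ 2 := by
  induction n with
  | zero => simp [linf_zero, avg_const]
  | succ n ih =>
    have h1 := avg_linf_cons a (fun t => t ^ 2)
    rw [h1, Fin.sum_univ_succ, ← ih (fun j => a (Fin.succ j))]
    have e : (fun x' : Fin n → ℤˣ => ((a 0 + linf (fun j => a (Fin.succ j)) x') ^ 2
          + (-a 0 + linf (fun j => a (Fin.succ j)) x') ^ 2) / 2)
        = fun x' => a 0 ^ 2 + 1 * linf (fun j => a (Fin.succ j)) x' ^ 2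
          + 0 * (0 : ℝ) + 0 * (0 : ℝ) := by
      funext x'
      ring
    rw [e, hnMom_avg_comb4 (a 0 ^ 2) 1 0 0 (fun x' => linf (fun j => a (Fin.succ j)) x' ^ 2)
      (fun _ => 0) (fun _ => 0)]
    ring

theorem linf_fourth {n : ℕ} (a : Fin n → ℝ) :
    avg (fun x => linf a x ^ 4) = 3 * (∑ i, a i ^ 2) ^ 2 - 2 * ∑ i, a i ^ 4 := by
  induction n with
  | zero => simp [linf_zero, avg_const]
  | succ n ih =>
    have h1 := avg_linf_cons a (fun t => t ^ 4)
    rw [h1, Fin.sum_univ_succ, Fin.sum_univ_succ]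
    have e : (fun x' : Fin n → ℤˣ => ((a 0 + linf (fun j => a (Fin.succ j)) x') ^ 4
          + (-a 0 + linf (fun j => a (Fin.succ j)) x') ^ 4) / 2)
        = fun x' => a 0 ^ 4 + (6 * a 0 ^ 2) * linf (fun j => a (Fin.succ j)) x' ^ 2
          + 1 * linf (fun j => a (Fin.succ j)) x' ^ 4 + 0 * (0 : ℝ) := by
      funext x'
      ring
    rw [e, hnMom_avg_comb4 (a 0 ^ 4) (6 * a 0 ^ 2) 1 0
      (fun x' => linf (fun j => a (Fin.succ j)) x' ^ 2)
      (fun x' => linf (fun j => a (Fin.succ j)) x' ^ 4) (fun _ => 0),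
      linf_sq (fun j => a (Fin.succ j)), ih (fun j => a (Fin.succ j))]
    ring

theorem linf_sixth {n : ℕ} (a : Fin n → ℝ) :
    avg (fun x => linf a x ^ 6)
      = 15 * (∑ i, a i ^ 2) ^ 3 - 30 * (∑ i, a i ^ 2) * (∑ i, a i ^ 4) + 16 * ∑ i, a i ^ 6 := by
  induction n with
  | zero => simp [linf_zero, avg_const]
  | succ n ih =>
    have h1 := avg_linf_cons a (fun t => t ^ 6)
    rw [h1, Fin.sum_univ_succ, Fin.sum_univ_succ, Fin.sum_univ_succ]
    have e : (fun x' : Fin n → ℤˣ => ((a 0 + linf (fun j => a (Fin.succ j)) x') ^ 6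
          + (-a 0 + linf (fun j => a (Fin.succ j)) x') ^ 6) / 2)
        = fun x' => a 0 ^ 6 + (15 * a 0 ^ 4) * linf (fun j => a (Fin.succ j)) x' ^ 2
          + (15 * a 0 ^ 2) * linf (fun j => a (Fin.succ j)) x' ^ 4
          + 1 * linf (fun j => a (Fin.succ j)) x' ^ 6 := by
      funext x'
      ring
    rw [e, hnMom_avg_comb4 (a 0 ^ 6) (15 * a 0 ^ 4) (15 * a 0 ^ 2) 1
      (fun x' => linf (fun j => a (Fin.succ j)) x' ^ 2)
      (fun x' => linf (fun j => a (Fin.succ j)) x' ^ 4)
      (fun x' => linf (fun j => a (Fin.succ j)) x' ^ 6),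
      linf_sq (fun j => a (Fin.succ j)), linf_fourth (fun j => a (Fin.succ j)),
      ih (fun j => a (Fin.succ j))]
    ring

end Vale.Agent.Lib.P322
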