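import Vale.Agent.Lib.P322.HNLevelOne
import Vale.Agent.Lib.P322.HNMoments

namespace Vale.Agent.Lib.P322
open Finset

/-- the noise operator fixes the constant function `1` -/
theorem hn2lvl_noise_one {n : ℕ} (ε : ℝ) (y : Fin n → ℤˣ) :
    noise ε (fun _ : Fin n → ℤˣ => (1 : ℝ)) y = 1 := by
  unfold noise
  simp only [one_mul]
  exact sum_W_left ε y

/-- the noise operator multiplies a linear form by `1 - 2ε` -/
theorem noise_linf {n : ℕ} (ε : ℝ) (a : Fin n → ℝ) (y : Fin n → ℤˣ) :
    noise ε (linf a) y = (1 - 2 * ε) * linf a y := by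
  induction n with
  | zero => rw [noise_zero, linf_zero, mul_zero]
  | succ n ih =>
    have hy : y = Fin.cons (y 0) (Fin.tail y) := (Fin.cons_self_tail y).symm
    have hnsl : ∀ (s : ℤˣ) (y' : Fin n → ℤˣ), noise ε (sl (linf a) s) y'
        = a 0 * sgn s + (1 - 2 * ε) * linf (fun j => a (Fin.succ j)) y' := by
      intro s y'
      have hsl : sl (linf a) s = fun x' => (a 0 * sgn s) * (fun _ : Fin n → ℤˣ => (1 : ℝ)) x'
          + 1 * linf (fun j => a (Fin.succ j)) x' := by
        funext x'
        unfold sl
        rw [linf_cons]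
        ring
      have h1 := noise_lin ε (a 0 * sgn s) 1 (fun _ : Fin n → ℤˣ => (1 : ℝ))
        (linf (fun j => a (Fin.succ j))) y'
      rw [hsl, h1, hn2lvl_noise_one, ih, mul_one, one_mul]
    have hmain : noise ε (linf a) (Fin.cons (y 0) (Fin.tail y))
        = w1 ε 1 (y 0) * noise ε (sl (linf a) 1) (Fin.tail y)
          + w1 ε (-1) (y 0) * noise ε (sl (linf a) (-1)) (Fin.tail y) := by
      have h1 := congrFun (noise_cons ε (linf a) (y 0)) (Fin.tail y)
      rw [noise_lin] at h1
      exact h1
    rw [hy, hmain, hnsl, hnsl, linf_cons, sgn_one, sgn_neg_one]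
    rcases Int.units_eq_one_or (y 0) with h | h
    · rw [h, w1_one_one, w1_neg_one, sgn_one]
      ring
    · rw [h, w1_one_neg, w1_neg_neg, sgn_neg_one]
      ring

/-- the level-one coefficients of a linear form -/
theorem coef_linf {n : ℕ} (a : Fin n → ℝ) (i : Fin n) : coef (linf a) i = a i := by
  induction n with
  | zero => exact Fin.elim0 i
  | succ n ih =>
    have hA : slA (linf a) = linf (fun j => a (Fin.succ j)) := by
      funext x'
      unfold slA sl
      rw [linf_cons, linf_cons, sgn_one, sgn_neg_one]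
      ring
    have hB : slB (linf a) = fun _ => a 0 := by
      funext x'
      unfold slB sl
      rw [linf_cons, linf_cons, sgn_one, sgn_neg_one]
      ring
    rcases Fin.eq_zero_or_eq_succ i with rfl | ⟨j, rfl⟩
    · rw [coef_zero, hB, avg_const]
    · rw [coef_succ, hA, ih]

/-- removing the level-one part does not change the mean -/
theorem lvl2_avg {n : ℕ} (u : (Fin n → ℤˣ) → ℝ) :
    avg (fun x => u x - linf (coef u) x) = avg u := by
  rw [avg_sub u (linf (coef u)), linf_avg, sub_zero]

/-- after removing the level-one part, the level-one coefficients vanish -/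
theorem lvl2_coef {n : ℕ} (u : (Fin n → ℤˣ) → ℝ) (i : Fin n) :
    coef (fun x => u x - linf (coef u) x) i = 0 := by
  have e : (fun x => (u x - linf (coef u) x) * sgn (x i))
      = fun x => u x * sgn (x i) - linf (coef u) x * sgn (x i) := by
    funext x
    ring
  have h1 : avg (fun x => linf (coef u) x * sgn (x i)) = coef u i := coef_linf (coef u) i
  have h2 : avg (fun x => u x * sgn (x i)) = coef u i := rfl
  show avg (fun x => (u x - linf (coef u) x) * sgn (x i)) = 0
  rw [e, avg_sub (fun x => u x * sgn (x i)) (fun x => linf (coef u) x * sgn (x i)), h1, h2,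
    sub_self]

/-- the mean of the product with a linear form -/
theorem hn2lvl_cross {n : ℕ} (u : (Fin n → ℤˣ) → ℝ) (a : Fin n → ℝ) :
    avg (fun x => u x * linf a x) = ∑ i, a i * coef u i := by
  unfold coef avg linf
  have h1 : ∀ i, a i * ((∑ x, u x * sgn (x i)) / 2 ^ n)
      = (∑ x, u x * (a i * sgn (x i))) / 2 ^ n := by
    intro i
    rw [← mul_div_assoc, Finset.mul_sum]
    congr 1
    apply Finset.sum_congr rfl
    intro x _
    ring
  rw [Finset.sum_congr rfl (fun i _ => h1 i), ← Finset.sum_div, Finset.sum_comm]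
  congr 1
  apply Finset.sum_congr rfl
  intro x _
  exact Finset.mul_sum _ _ _

/-- Pythagoras for the level-one part -/
theorem lvl2_sq {n : ℕ} (u : (Fin n → ℤˣ) → ℝ) :
    avg (fun x => (u x - linf (coef u) x) ^ 2) = avg (fun x => u x ^ 2) - wt1 u := by
  have e : (fun x => (u x - linf (coef u) x) ^ 2)
      = fun x => (1 * u x ^ 2 + (-2) * (u x * linf (coef u) x)) + linf (coef u) x ^ 2 := by
    funext x
    ring
  have h1 := avg_add (fun x => 1 * u x ^ 2 + (-2) * (u x * linf (coef u) x))
    (fun x => linf (coef u) x ^ 2)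
  have h2 := avg_lin 1 (-2) (fun x => u x ^ 2) (fun x => u x * linf (coef u) x)
  have h3 : ∑ i, coef u i * coef u i = ∑ i, coef u i ^ 2 := by
    apply Finset.sum_congr rfl
    intro i _
    ring
  rw [e, h1, h2, hn2lvl_cross, linf_sq, h3]
  unfold wt1
  ring

/-- decomposition of the noisy function into its level-one part and the rest -/
theorem noise_decomp {n : ℕ} (ε : ℝ) (u : (Fin n → ℤˣ) → ℝ) (y : Fin n → ℤˣ) :
    noise ε u y
      = (1 - 2 * ε) * linf (coef u) y + noise ε (fun x => u x - linf (coef u) x) y := by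
  have h := noise_lin ε 1 1 (linf (coef u)) (fun x => u x - linf (coef u) x) y
  rw [noise_linf, one_mul, one_mul] at h
  rw [← h]
  congr 1
  funext x
  ring

end Vale.Agent.Lib.P322
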