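import Vale.Agent.Lib.P322.HNLevelOne
import Vale.Agent.Lib.P322.HNMoments

namespace Vale.Agent.Lib.P322
open Finset

/-- second moment of the noise operator on functions without level-zero and level-one parts -/
theorem noise_lvl2_sq {n : ℕ} (ε : ℝ) (hσ : (1 - 2 * ε) ^ 2 ≤ 1) (w : (Fin n → ℤˣ) → ℝ)
    (hw : avg w = 0) (hc : ∀ i, coef w i = 0) :
    avg (fun y => noise ε w y ^ 2) ≤ (1 - 2 * ε) ^ 4 * avg (fun x => w x ^ 2) := by
  have h := noise_sq_le_wt1 ε hσ w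
  have hwt : wt1 w = 0 := by
    unfold wt1
    apply Finset.sum_eq_zero
    intro i _
    rw [hc i]
    ring
  rw [hw, hwt] at h
  have e : (0 : ℝ) ^ 2 + (1 - 2 * ε) ^ 2 * 0
      + (1 - 2 * ε) ^ 4 * (avg (fun x => w x ^ 2) - 0 ^ 2 - 0)
      = (1 - 2 * ε) ^ 4 * avg (fun x => w x ^ 2) := by ring
  rw [e] at h
  exact h

/-- fourth moment of the noise operator on functions without level-zero and level-one parts -/
theorem noise_lvl2_fourth {n : ℕ} (ε : ℝ) (h3 : 3 * (1 - 2 * ε) ^ 2 ≤ 1)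
    (w : (Fin n → ℤˣ) → ℝ) (hw : avg w = 0) (hc : ∀ i, coef w i = 0) :
    avg (fun y => noise ε w y ^ 4) ≤ 81 * (1 - 2 * ε) ^ 8 * avg (fun x => w x ^ 2) ^ 2 := by
  obtain ⟨ε', hε'⟩ : ∃ ε' : ℝ, ε' = (1 - Real.sqrt 3 * (1 - 2 * ε)) / 2 := ⟨_, rfl⟩
  have h : (1 - 2 * ε') ^ 2 = 3 * (1 - 2 * ε) ^ 2 := by
    have e1 : 1 - 2 * ε' = Real.sqrt 3 * (1 - 2 * ε) := by
      rw [hε']
      ring
    rw [e1, mul_pow, Real.sq_sqrt (by norm_num : (0 : ℝ) ≤ 3)]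
  have hb := bonami ε ε' h w
  have hs := noise_lvl2_sq ε' (by rw [h]; exact h3) w hw hc
  have h4 : (1 - 2 * ε') ^ 4 = 9 * (1 - 2 * ε) ^ 4 := by
    have e2 : (1 - 2 * ε') ^ 4 = ((1 - 2 * ε') ^ 2) ^ 2 := by ring
    rw [e2, h]
    ring
  rw [h4] at hs
  have h0 : 0 ≤ avg (fun y => noise ε' w y ^ 2) := avg_nonneg (fun x => sq_nonneg _)
  have h5 := pow_le_pow_left₀ h0 hs 2
  have e3 : (9 * (1 - 2 * ε) ^ 4 * avg (fun x => w x ^ 2)) ^ 2
      = 81 * (1 - 2 * ε) ^ 8 * avg (fun x => w x ^ 2) ^ 2 := by ring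
  rw [e3] at h5
  exact le_trans hb h5

/-- odd moments of a linear form vanish -/
theorem linf_cube_avg {n : ℕ} (a : Fin n → ℝ) : avg (fun x => linf a x ^ 3) = 0 := by
  have h := linf_symm a (fun t => t ^ 3)
  have h2 := avg_const_mul (-1) (fun x => linf a x ^ 3)
  have e : (fun x => (-1 : ℝ) * linf a x ^ 3) = fun x => (- linf a x) ^ 3 := by
    funext x
    ring
  rw [e] at h2
  have h' : avg (fun x => (- linf a x) ^ 3) = avg (fun x => linf a x ^ 3) := h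
  linarith

theorem linf_fourth_le {n : ℕ} (a : Fin n → ℝ) :
    avg (fun x => linf a x ^ 4) ≤ 3 * (∑ i, a i ^ 2) ^ 2 := by
  have h4 : 0 ≤ ∑ i, a i ^ 4 := Finset.sum_nonneg (fun i _ => by positivity)
  rw [linf_fourth]
  linarith

theorem linf_sixth_le {n : ℕ} (a : Fin n → ℝ) :
    avg (fun x => linf a x ^ 6) ≤ 15 * (∑ i, a i ^ 2) ^ 3 := by
  have hV : ∀ i, a i ^ 2 ≤ ∑ j, a j ^ 2 := fun i =>
    Finset.single_le_sum (fun j _ => sq_nonneg (a j)) (Finset.mem_univ i)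
  have hS6 : ∑ i, a i ^ 6 ≤ (∑ j, a j ^ 2) * ∑ i, a i ^ 4 := by
    rw [Finset.mul_sum]
    apply Finset.sum_le_sum
    intro i _
    have e : a i ^ 6 = a i ^ 2 * a i ^ 4 := by ring
    rw [e]
    exact mul_le_mul_of_nonneg_right (hV i) (by positivity)
  have hV0 : 0 ≤ ∑ j, a j ^ 2 := Finset.sum_nonneg (fun j _ => sq_nonneg _)
  have hS4 : 0 ≤ ∑ i, a i ^ 4 := Finset.sum_nonneg (fun i _ => by positivity)
  have hVS : 0 ≤ (∑ j, a j ^ 2) * ∑ i, a i ^ 4 := mul_nonneg hV0 hS4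
  rw [linf_sixth]
  linarith

end Vale.Agent.Lib.P322
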