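import Vale.Agent.Lib.P322.HNAbs

namespace Vale.Agent.Lib.P322
open Finset

theorem wt1_eq_avg_mul {n : ℕ} (u : (Fin n → ℤˣ) → ℝ) :
    wt1 u = avg (fun x => u x * linf (coef u) x) := by
  unfold wt1
  calc ∑ i, coef u i ^ 2
      = ∑ i, coef u i * ((∑ x, u x * sgn (x i)) / 2 ^ n) :=
        Finset.sum_congr rfl (fun i _ => by rw [sq]; rfl)
    _ = (∑ i, ∑ x, coef u i * (u x * sgn (x i))) / 2 ^ n := by
        rw [Finset.sum_div]
        refine Finset.sum_congr rfl (fun i _ => ?_)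
        rw [← mul_div_assoc, Finset.mul_sum]
    _ = (∑ x, ∑ i, coef u i * (u x * sgn (x i))) / 2 ^ n := by
        rw [Finset.sum_comm]
    _ = avg (fun x => u x * linf (coef u) x) := by
        unfold avg linf
        congr 1
        refine Finset.sum_congr rfl (fun x _ => ?_)
        show ∑ i, coef u i * (u x * sgn (x i)) = u x * ∑ i, coef u i * sgn (x i)
        rw [Finset.mul_sum]
        refine Finset.sum_congr rfl (fun i _ => ?_)
        ring

theorem wt1_le_abs {n : ℕ} (f : (Fin n → ℤˣ) → ℤˣ) :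
    wt1 (fR f) ≤ avg (fun x => |linf (coef (fR f)) x|) := by
  rw [wt1_eq_avg_mul]
  apply avg_mono
  intro x
  show sgn (f x) * linf (coef (fR f)) x ≤ |linf (coef (fR f)) x|
  rcases Int.units_eq_one_or (f x) with h | h
  · rw [h, sgn_one, one_mul]
    exact le_abs_self _
  · rw [h, sgn_neg_one, neg_one_mul]
    exact neg_le_abs _

/-- the number of points of the cube -/
lemma hnbool_card (n : ℕ) : (∑ _x : Fin n → ℤˣ, (1 : ℝ)) = 2 ^ n := by
  simp

theorem coef_dist {n : ℕ} (f : (Fin n → ℤˣ) → ℤˣ) (i : Fin n) :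
    ((Finset.univ.filter (fun x => f x ≠ x i)).card : ℝ) / 2 ^ n = (1 - coef (fR f) i) / 2 := by
  have hpt : ∀ x : Fin n → ℤˣ,
      fR f x * sgn (x i) = 1 - 2 * (if f x ≠ x i then (1 : ℝ) else 0) := by
    intro x
    show sgn (f x) * sgn (x i) = 1 - 2 * (if f x ≠ x i then (1 : ℝ) else 0)
    rcases Int.units_eq_one_or (f x) with h | h <;>
      rcases Int.units_eq_one_or (x i) with h' | h' <;>
      rw [h, h'] <;> simp [sgn_one, sgn_neg_one] <;> norm_num
  have hsum : ∑ x : Fin n → ℤˣ, (if f x ≠ x i then (1 : ℝ) else 0)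
      = ((Finset.univ.filter (fun x => f x ≠ x i)).card : ℝ) := by
    rw [Finset.sum_boole]
  have h2 : (2 : ℝ) ^ n ≠ 0 := by positivity
  unfold coef avg
  simp only [hpt]
  rw [Finset.sum_sub_distrib, ← Finset.mul_sum, hsum, hnbool_card]
  field_simp
  ring

theorem coef_dist_neg {n : ℕ} (f : (Fin n → ℤˣ) → ℤˣ) (i : Fin n) :
    ((Finset.univ.filter (fun x => f x ≠ - x i)).card : ℝ) / 2 ^ n
      = (1 + coef (fR f) i) / 2 := by
  have hpt : ∀ x : Fin n → ℤˣ,
      fR f x * sgn (x i) = 2 * (if f x ≠ - x i then (1 : ℝ) else 0) - 1 := by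
    intro x
    show sgn (f x) * sgn (x i) = 2 * (if f x ≠ - x i then (1 : ℝ) else 0) - 1
    rcases Int.units_eq_one_or (f x) with h | h <;>
      rcases Int.units_eq_one_or (x i) with h' | h' <;>
      rw [h, h'] <;> simp [sgn_one, sgn_neg_one] <;> norm_num
  have hsum : ∑ x : Fin n → ℤˣ, (if f x ≠ - x i then (1 : ℝ) else 0)
      = ((Finset.univ.filter (fun x => f x ≠ - x i)).card : ℝ) := by
    rw [Finset.sum_boole]
  have h2 : (2 : ℝ) ^ n ≠ 0 := by positivity
  unfold coef avg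
  simp only [hpt]
  rw [Finset.sum_sub_distrib, ← Finset.mul_sum, hsum, hnbool_card]
  field_simp
  ring

/-- an explicit FKN-type gap: a Boolean function has level-one weight at most `576/625`, or one
of its level-one coefficients has absolute value at least `0.8979`. -/
theorem fkn_gap {n : ℕ} (f : (Fin n → ℤˣ) → ℤˣ) :
    wt1 (fR f) ≤ 576 / 625 ∨ ∃ i, 8979 / 10000 ≤ |coef (fR f) i| := by
  by_cases hV : wt1 (fR f) ≤ 576 / 625
  · exact Or.inl hV
  · right
    by_contra hcon
    push Not at hcon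
    have hVdef : wt1 (fR f) = ∑ i, coef (fR f) i ^ 2 := rfl
    have hV' : 576 / 625 < ∑ i, coef (fR f) i ^ 2 := by
      rw [← hVdef]
      exact not_le.1 hV
    have hV0 : 0 < ∑ i, coef (fR f) i ^ 2 := by linarith
    have hmax : ∀ i, coef (fR f) i ^ 2 ≤ 7 / 8 * ∑ j, coef (fR f) j ^ 2 := by
      intro i
      have h := hcon i
      have h0 := abs_nonneg (coef (fR f) i)
      have e : coef (fR f) i ^ 2 = |coef (fR f) i| ^ 2 := (sq_abs _).symm
      rw [e]
      nlinarith
    have h1 : ∑ i, coef (fR f) i ^ 2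
        ≤ 24 / 25 * Real.sqrt (∑ i, coef (fR f) i ^ 2) := by
      have h2 := wt1_le_abs f
      rw [hVdef] at h2
      exact h2.trans (linf_abs_le _ hV0 hmax)
    have hs : Real.sqrt (∑ i, coef (fR f) i ^ 2) * Real.sqrt (∑ i, coef (fR f) i ^ 2)
        = ∑ i, coef (fR f) i ^ 2 := Real.mul_self_sqrt hV0.le
    have hs0 : 0 < Real.sqrt (∑ i, coef (fR f) i ^ 2) := Real.sqrt_pos.2 hV0
    nlinarith

end Vale.Agent.Lib.P322
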