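import Vale.Agent.Lib.P322.Local
import Vale.Agent.Lib.P322.HNBool

namespace Vale.Agent.Lib.P322
open Finset

/-- `exp (-3/2) ≤ 6/25`. -/
theorem hn2Mid_exp_bound : Real.exp (-(3 / 2)) ≤ 6 / 25 := by
  have h1 : (13 / 8 : ℝ) ≤ Real.exp (1 / 2) := by
    have := Real.quadratic_le_exp_of_nonneg (x := (1 / 2 : ℝ)) (by norm_num)
    norm_num at this
    linarith
  have h2 : Real.exp (3 / 2) = Real.exp (1 / 2) ^ 3 := by
    rw [← Real.exp_nat_mul]
    norm_num
  have h3 : (25 / 6 : ℝ) ≤ Real.exp (3 / 2) := by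
    rw [h2]
    have h4 : (13 / 8 : ℝ) ^ 3 ≤ Real.exp (1 / 2) ^ 3 := pow_le_pow_left₀ (by norm_num) h1 3
    norm_num at h4
    linarith
  rw [Real.exp_neg]
  have hpos : (0 : ℝ) < Real.exp (3 / 2) := Real.exp_pos _
  rw [inv_le_comm₀ hpos (by norm_num)]
  norm_num
  linarith

/-- The function `(1 - e) log (1 - e) - e log e - (1 - 2 e) / 4` is nonnegative on
`[2/5, 1/2]`. -/
theorem hn2Mid_log_bound {e : ℝ} (h0 : 2 / 5 ≤ e) (h1 : e ≤ 1 / 2) :
    (1 - 2 * e) * (1 / 4) ≤ (1 - e) * Real.log (1 - e) - e * Real.log e := by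
  have hd : ∀ t : ℝ, 0 < t → t < 1 →
      HasDerivAt (fun t : ℝ => (1 - t) * Real.log (1 - t) - t * Real.log t - (1 - 2 * t) * (1 / 4))
        (((-1) * Real.log (1 - t) + (1 - t) * ((-1) / (1 - t)))
          - (1 * Real.log t + t * t⁻¹) - (-(2 * 1)) * (1 / 4)) t := by
    intro t ht0 ht1
    have i1 : HasDerivAt (fun t : ℝ => 1 - t) (-1) t := (hasDerivAt_id t).const_sub 1
    have l1 : HasDerivAt (fun t : ℝ => Real.log (1 - t)) ((-1) / (1 - t)) t :=
      i1.log (by linarith)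
    have m1 := i1.mul l1
    have m2 := (hasDerivAt_id t).mul (Real.hasDerivAt_log ht0.ne')
    have i2 : HasDerivAt (fun t : ℝ => 1 - 2 * t) (-(2 * 1)) t :=
      ((hasDerivAt_id t).const_mul 2).const_sub 1
    exact (m1.sub m2).sub (i2.mul_const (1 / 4))
  have hanti : AntitoneOn
      (fun t : ℝ => (1 - t) * Real.log (1 - t) - t * Real.log t - (1 - 2 * t) * (1 / 4))
      (Set.Icc (2 / 5) (1 / 2)) := by
    apply antitoneOn_of_deriv_nonpos (convex_Icc _ _)
    · intro t ht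
      exact (hd t (by linarith [ht.1]) (by linarith [ht.2])).continuousAt.continuousWithinAt
    · intro t ht
      rw [interior_Icc] at ht
      exact (hd t (by linarith [ht.1]) (by linarith [ht.2])).differentiableAt.differentiableWithinAt
    · intro t ht
      rw [interior_Icc] at ht
      obtain ⟨ht0, ht1⟩ := ht
      have ht0' : 0 < t := by linarith
      have ht1' : 0 < 1 - t := by linarith
      rw [(hd t ht0' (by linarith)).deriv]
      have e1 : (1 - t) * ((-1) / (1 - t)) = -1 := by field_simp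
      have e2 : t * t⁻¹ = 1 := mul_inv_cancel₀ ht0'.ne'
      rw [e1, e2]
      have hprod : (6 / 25 : ℝ) ≤ t * (1 - t) := by nlinarith
      have hlog : -(3 / 2) ≤ Real.log (t * (1 - t)) := by
        rw [Real.le_log_iff_exp_le (mul_pos ht0' ht1')]
        exact le_trans hn2Mid_exp_bound hprod
      rw [Real.log_mul ht0'.ne' ht1'.ne'] at hlog
      linarith
  have h2 := hanti (Set.mem_Icc.mpr ⟨h0, h1⟩) (Set.mem_Icc.mpr ⟨by norm_num, le_refl _⟩) h1
  norm_num at h2
  linarith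

/-- The inequality for functions at normalised Hamming distance at most `1/6` from a
coordinate, for `2/5 ≤ ε ≤ 1/2`. -/
theorem hn2Mid_core {n : ℕ} {ε : ℝ} (h0 : 2 / 5 ≤ ε) (h1 : ε ≤ 1 / 2)
    (f : (Fin n → ℤˣ) → ℤˣ) (i : Fin n)
    (hδ : ((Finset.univ.filter (fun x => f x ≠ x i)).card : ℝ) / 2 ^ n ≤ 1 / 6) :
    infoFY ε f ≤ 1 - h2 ε := by
  have hN : (0:ℝ) < 2 ^ n := by positivity
  have ha0 : 0 ≤ cellP f i 1 1 := cellP_nonneg f i 1 1
  have hb0 : 0 ≤ cellP f i 1 (-1) := cellP_nonneg f i 1 (-1)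
  have hc0 : 0 ≤ cellP f i (-1) 1 := cellP_nonneg f i (-1) 1
  have hd0 : 0 ≤ cellP f i (-1) (-1) := cellP_nonneg f i (-1) (-1)
  obtain ⟨hac, hbd⟩ := cells_half f i
  rw [card_disagree] at hδ
  apply ck_of_local (by linarith) h1 f i (1 / 4) (by norm_num) (by norm_num)
  · intro u
    obtain ⟨k1, k2⟩ := card_cond f i u
    rw [k1, k2]
    rcases Int.units_eq_one_or u with rfl | rfl
    · have h5 : cellP f i 1 (-1) ≤ 1 / 4 * (cellP f i 1 1 + cellP f i 1 (-1)) := by linarith
      calc 2 ^ n * cellP f i 1 (-1)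
          ≤ 2 ^ n * (1 / 4 * (cellP f i 1 1 + cellP f i 1 (-1))) :=
            mul_le_mul_of_nonneg_left h5 hN.le
        _ = 1 / 4 * (2 ^ n * (cellP f i 1 1 + cellP f i 1 (-1))) := by ring
    · rw [neg_neg]
      have h5 : cellP f i (-1) 1 ≤ 1 / 4 * (cellP f i (-1) 1 + cellP f i (-1) (-1)) := by
        linarith
      calc 2 ^ n * cellP f i (-1) 1
          ≤ 2 ^ n * (1 / 4 * (cellP f i (-1) 1 + cellP f i (-1) (-1))) :=
            mul_le_mul_of_nonneg_left h5 hN.le
        _ = 1 / 4 * (2 ^ n * (cellP f i (-1) 1 + cellP f i (-1) (-1))) := by ring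
  · exact local_condition_log_bits (by linarith) h1 (by norm_num) (by norm_num)
      (hn2Mid_log_bound h0 h1)

/-- The Courtade-Kumar inequality for every Boolean function one of whose level-one coefficients
has absolute value at least `2/3`, when `2/5 ≤ ε ≤ 1/2`. -/
theorem ck_of_mid_coordinate {n : ℕ} {ε : ℝ} (h0 : 2 / 5 ≤ ε) (h1 : ε ≤ 1 / 2)
    (f : (Fin n → ℤˣ) → ℤˣ) (i : Fin n) (hi : 2 / 3 ≤ |coef (fR f) i|) :
    infoFY ε f ≤ 1 - h2 ε := by
  rcases le_abs.mp hi with hpos | hneg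
  · apply hn2Mid_core h0 h1 f i
    rw [coef_dist]
    linarith
  · rw [← infoFY_neg]
    apply hn2Mid_core h0 h1 _ i
    have e : (Finset.univ.filter (fun x : Fin n → ℤˣ => - f x ≠ x i))
        = Finset.univ.filter (fun x => f x ≠ - x i) := by
      apply Finset.filter_congr
      intro x _
      rcases Int.units_eq_one_or (f x) with h | h <;> rcases Int.units_eq_one_or (x i) with h' | h' <;>
        simp [h, h']
    rw [e, coef_dist_neg]
    linarith

end Vale.Agent.Lib.P322
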