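import Vale.Agent.Lib.P322.HNBool

namespace Vale.Agent.Lib.P322
open Finset

/-- the squares of the two one-sided parts add up to the square -/
lemma hnLevel_pos_sq (t : ℝ) : (max (-t) 0) ^ 2 + (max t 0) ^ 2 = t ^ 2 := by
  rcases le_total 0 t with h | h
  · rw [max_eq_right (by linarith : -t ≤ 0), max_eq_left h]
    ring
  · rw [max_eq_left (by linarith : 0 ≤ -t), max_eq_right h]
    ring

/-- the positive part of a linear form carries half of the second moment -/
lemma hnLevel_avg_pos_sq {n : ℕ} (a : Fin n → ℝ) :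
    2 * avg (fun x => (max (linf a x) 0) ^ 2) = ∑ i, a i ^ 2 := by
  have h1 : avg (fun x => (max (-linf a x) 0) ^ 2) = avg (fun x => (max (linf a x) 0) ^ 2) :=
    linf_symm a (fun t => (max t 0) ^ 2)
  have h2 : avg (fun x => (max (-linf a x) 0) ^ 2) + avg (fun x => (max (linf a x) 0) ^ 2) =
      avg (fun x => linf a x ^ 2) := by
    rw [← avg_add]
    exact avg_congr (fun x => hnLevel_pos_sq (linf a x))
  rw [linf_sq] at h2
  linarith

/-- the same for the part of the sign `s` -/
lemma hnLevel_avg_part_sq {n : ℕ} (a : Fin n → ℝ) (s : ℝ) (hs : s = 1 ∨ s = -1) :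
    2 * avg (fun x => (max (s * linf a x) 0) ^ 2) = ∑ i, a i ^ 2 := by
  rcases hs with rfl | rfl
  · simp only [one_mul]
    exact hnLevel_avg_pos_sq a
  · have h1 : avg (fun x => (max (-linf a x) 0) ^ 2) =
        avg (fun x => (max (linf a x) 0) ^ 2) :=
      linf_symm a (fun t => (max t 0) ^ 2)
    simp only [neg_one_mul]
    rw [h1]
    exact hnLevel_avg_pos_sq a

/-- the core estimate: if the second moment `V` of a linear form `L` is twice the average of
`d * (s * L)` for an indicator `d` and a sign `s`, then `V ≤ 2 E d` -/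
lemma hnLevel_core {n : ℕ} (a : Fin n → ℝ) (d : (Fin n → ℤˣ) → ℝ) (s : ℝ)
    (hs : s = 1 ∨ s = -1) (hd : ∀ x, d x = 0 ∨ d x = 1)
    (hV : ∑ i, a i ^ 2 = 2 * avg (fun x => d x * (s * linf a x))) :
    ∑ i, a i ^ 2 ≤ 2 * avg d := by
  have hd0 : ∀ x, 0 ≤ d x := fun x => by
    rcases hd x with h | h
    · rw [h]
    · rw [h]
      exact zero_le_one
  have hdsq : ∀ x, d x ^ 2 = d x := fun x => by
    rcases hd x with h | h <;> rw [h] <;> norm_num
  have hV0 : 0 ≤ ∑ i, a i ^ 2 := Finset.sum_nonneg (fun i _ => sq_nonneg _)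
  have hA0 : 0 ≤ avg d := avg_nonneg hd0
  have h1 : avg (fun x => d x * (s * linf a x)) ≤ avg (fun x => d x * max (s * linf a x) 0) :=
    avg_mono (fun x => mul_le_mul_of_nonneg_left (le_max_left _ _) (hd0 x))
  have h2 := avg_mul_sq_le d (fun x => max (s * linf a x) 0)
  have h3 : avg (fun x => d x ^ 2) = avg d := avg_congr hdsq
  have h4 := hnLevel_avg_part_sq a s hs
  rw [h3] at h2
  rcases hV0.eq_or_lt with h0 | hpos
  · rw [← h0]
    linarith
  · have hT : (∑ i, a i ^ 2) / 2 ≤ avg (fun x => d x * max (s * linf a x) 0) := by linarith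
    have hB : avg (fun x => max (s * linf a x) 0 ^ 2) = (∑ i, a i ^ 2) / 2 := by linarith
    rw [hB] at h2
    have h5 : ((∑ i, a i ^ 2) / 2) ^ 2 ≤ avg (fun x => d x * max (s * linf a x) 0) ^ 2 :=
      pow_le_pow_left₀ (by linarith) hT 2
    have h6 : ((∑ i, a i ^ 2) / 2) ^ 2 ≤ avg d * ((∑ i, a i ^ 2) / 2) := le_trans h5 h2
    have h7 : (∑ i, a i ^ 2) / 2 ≤ avg d := by
      have hpos2 : 0 < (∑ i, a i ^ 2) / 2 := by linarith
      rw [sq] at h6
      exact le_of_mul_le_mul_right h6 hpos2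
    linarith

/-- the average of the indicator of `f = 1` -/
lemma hnLevel_avg_ind {n : ℕ} (f : (Fin n → ℤˣ) → ℤˣ) :
    avg (fun x => if f x = 1 then (1 : ℝ) else 0) = probOne f := by
  unfold avg probOne
  rw [Finset.sum_boole]

/-- level-one inequality `W₁(f) ≤ 2 P(f = 1)` -/
theorem wt1_le_two_probOne {n : ℕ} (f : (Fin n → ℤˣ) → ℤˣ) : wt1 (fR f) ≤ 2 * probOne f := by
  have hfR : ∀ x, fR f x = 2 * (if f x = 1 then (1 : ℝ) else 0) - 1 := by
    intro x
    unfold fR
    rcases Int.units_eq_one_or (f x) with h | h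
    · rw [h, sgn_one]
      norm_num
    · rw [h, sgn_neg_one]
      norm_num
  have hV : wt1 (fR f) = 2 * avg (fun x => (if f x = 1 then (1 : ℝ) else 0) *
      (1 * linf (coef (fR f)) x)) := by
    rw [wt1_eq_avg_mul]
    have hx : ∀ x, fR f x * linf (coef (fR f)) x =
        2 * ((if f x = 1 then (1 : ℝ) else 0) * (1 * linf (coef (fR f)) x)) -
          linf (coef (fR f)) x := by
      intro x
      rw [hfR x]
      ring
    rw [avg_congr hx, avg_sub, avg_const_mul, linf_avg, sub_zero]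
  rw [← hnLevel_avg_ind f]
  exact hnLevel_core (coef (fR f)) _ 1 (Or.inl rfl) (fun x => by split_ifs <;> simp) hV

/-- level-one inequality `W₁(f) ≤ 2 P(f = -1)` -/
theorem wt1_le_two_probNeg {n : ℕ} (f : (Fin n → ℤˣ) → ℤˣ) :
    wt1 (fR f) ≤ 2 * (1 - probOne f) := by
  have hc : avg (fun x => if f x = 1 then (0 : ℝ) else 1) = 1 - probOne f := by
    have hx : ∀ x, (if f x = 1 then (0 : ℝ) else 1) =
        1 - (if f x = 1 then (1 : ℝ) else 0) := by
      intro x
      split_ifs <;> norm_num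
    rw [avg_congr hx, avg_sub, avg_const, hnLevel_avg_ind]
  have hfR : ∀ x, fR f x = 1 - 2 * (if f x = 1 then (0 : ℝ) else 1) := by
    intro x
    unfold fR
    rcases Int.units_eq_one_or (f x) with h | h
    · rw [h, sgn_one]
      norm_num
    · rw [h, sgn_neg_one]
      norm_num
  have hV : wt1 (fR f) = 2 * avg (fun x => (if f x = 1 then (0 : ℝ) else 1) *
      (-1 * linf (coef (fR f)) x)) := by
    rw [wt1_eq_avg_mul]
    have hx : ∀ x, fR f x * linf (coef (fR f)) x =
        2 * ((if f x = 1 then (0 : ℝ) else 1) * (-1 * linf (coef (fR f)) x)) +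
          linf (coef (fR f)) x := by
      intro x
      rw [hfR x]
      ring
    rw [avg_congr hx, avg_add, avg_const_mul, linf_avg, add_zero]
  rw [← hc]
  exact hnLevel_core (coef (fR f)) _ (-1) (Or.inr rfl) (fun x => by split_ifs <;> simp) hV

end Vale.Agent.Lib.P322
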