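import Vale.Agent.Lib.P322.HNLevelOne

namespace Vale.Agent.Lib.P322
open Finset

lemma mb_avg_ind {n : ℕ} (f : (Fin n → ℤˣ) → ℤˣ) :
    avg (fun x => if f x = 1 then (1 : ℝ) else 0) = probOne f := by
  unfold avg probOne
  rw [Finset.sum_boole]

lemma mb_coef_const : ∀ (n : ℕ) (c : ℝ) (i : Fin n),
    coef (fun _ : Fin n → ℤˣ => c) i = 0 := by
  intro n
  induction n with
  | zero => intro c i; exact i.elim0
  | succ n ih =>
    intro c i
    refine Fin.cases ?_ ?_ i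
    · rw [coef_zero]
      have e : slB (fun _ : Fin (n + 1) → ℤˣ => c) = fun _ => 0 := by
        funext x'
        simp [slB, sl]
      rw [e, avg_const]
    · intro j
      rw [coef_succ]
      have e : slA (fun _ : Fin (n + 1) → ℤˣ => c) = fun _ => c := by
        funext x'
        simp [slA, sl]
      rw [e]
      exact ih c j

lemma mb_avg_h {n : ℕ} (f : (Fin n → ℤˣ) → ℤˣ) :
    avg (fun x => (if f x = 1 then (1 : ℝ) else 0) - probOne f) = 0 := by
  rw [avg_sub (fun x => if f x = 1 then (1 : ℝ) else 0) (fun _ => probOne f), mb_avg_ind,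
    avg_const, sub_self]

lemma mb_avg_h_sq {n : ℕ} (f : (Fin n → ℤˣ) → ℤˣ) :
    avg (fun x => ((if f x = 1 then (1 : ℝ) else 0) - probOne f) ^ 2)
      = probOne f * (1 - probOne f) := by
  have e : ∀ x, ((if f x = 1 then (1 : ℝ) else 0) - probOne f) ^ 2
      = (1 - 2 * probOne f) * (if f x = 1 then (1 : ℝ) else 0) + probOne f ^ 2 := by
    intro x
    split_ifs <;> ring
  rw [avg_congr e, avg_add (fun x => (1 - 2 * probOne f) * (if f x = 1 then (1 : ℝ) else 0))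
    (fun _ => probOne f ^ 2), avg_const_mul, mb_avg_ind, avg_const]
  ring

lemma mb_fR {n : ℕ} (f : (Fin n → ℤˣ) → ℤˣ) (x : Fin n → ℤˣ) :
    (if f x = 1 then (1 : ℝ) else 0) - probOne f
      = 1 / 2 * fR f x + (1 / 2 - probOne f) * 1 := by
  unfold fR
  rcases Int.units_eq_one_or (f x) with h | h
  · rw [h, sgn_one, if_pos rfl]
    ring
  · have hne : ¬ ((-1 : ℤˣ) = 1) := by decide
    rw [h, sgn_neg_one, if_neg hne]
    ring

lemma mb_coef_h {n : ℕ} (f : (Fin n → ℤˣ) → ℤˣ) (i : Fin n) :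
    coef (fun x => (if f x = 1 then (1 : ℝ) else 0) - probOne f) i = coef (fR f) i / 2 := by
  have hc := mb_coef_const n 1 i
  unfold coef at hc ⊢
  have e : ∀ x : Fin n → ℤˣ, ((if f x = 1 then (1 : ℝ) else 0) - probOne f) * sgn (x i)
      = 1 / 2 * (fR f x * sgn (x i)) + (1 / 2 - probOne f) * (1 * sgn (x i)) := by
    intro x
    rw [mb_fR]
    ring
  rw [avg_congr e, avg_lin, hc]
  ring

lemma mb_wt1_h {n : ℕ} (f : (Fin n → ℤˣ) → ℤˣ) :
    wt1 (fun x => (if f x = 1 then (1 : ℝ) else 0) - probOne f) = wt1 (fR f) / 4 := by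
  unfold wt1
  rw [Finset.sum_div]
  apply Finset.sum_congr rfl
  intro i _
  rw [mb_coef_h]
  ring

theorem post_centered {n : ℕ} (ε : ℝ) (f : (Fin n → ℤˣ) → ℤˣ) (y : Fin n → ℤˣ) :
    post ε f 1 y - probOne f
      = noise ε (fun x => (if f x = 1 then (1 : ℝ) else 0) - probOne f) y := by
  unfold post noise
  have h1 : ∀ x, ((if f x = 1 then (1 : ℝ) else 0) - probOne f) * W ε x y
      = (if f x = 1 then W ε x y else 0) - probOne f * W ε x y := by
    intro x
    split_ifs <;> ring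
  simp_rw [h1]
  rw [Finset.sum_sub_distrib, ← Finset.mul_sum, sum_W_left, mul_one]

theorem second_moment_le {n : ℕ} {ε : ℝ} (hσ : (1 - 2 * ε) ^ 2 ≤ 1) (f : (Fin n → ℤˣ) → ℤˣ) :
    avg (fun y => (post ε f 1 y - probOne f) ^ 2)
      ≤ (1 - 2 * ε) ^ 2 * (wt1 (fR f) / 4)
        + (1 - 2 * ε) ^ 4 * (probOne f * (1 - probOne f) - wt1 (fR f) / 4) := by
  have hc : ∀ y, (post ε f 1 y - probOne f) ^ 2
      = noise ε (fun x => (if f x = 1 then (1 : ℝ) else 0) - probOne f) y ^ 2 := by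
    intro y
    rw [post_centered]
  rw [avg_congr hc]
  have h := noise_sq_le_wt1 ε hσ (fun x => (if f x = 1 then (1 : ℝ) else 0) - probOne f)
  rw [mb_avg_h, mb_avg_h_sq, mb_wt1_h] at h
  linarith

theorem fourth_moment_le {n : ℕ} {ε : ℝ} (h3 : 3 * (1 - 2 * ε) ^ 2 ≤ 1)
    (f : (Fin n → ℤˣ) → ℤˣ) :
    avg (fun y => (post ε f 1 y - probOne f) ^ 4)
      ≤ 9 * (1 - 2 * ε) ^ 4 * (probOne f * (1 - probOne f)) ^ 2 := by
  have hc : ∀ y, (post ε f 1 y - probOne f) ^ 4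
      = noise ε (fun x => (if f x = 1 then (1 : ℝ) else 0) - probOne f) y ^ 4 := by
    intro y
    rw [post_centered]
  rw [avg_congr hc]
  have h := noise_fourth_le ε h3 (fun x => (if f x = 1 then (1 : ℝ) else 0) - probOne f)
    (mb_avg_h f)
  rw [mb_avg_h_sq] at h
  exact h

lemma mb_second_le {n : ℕ} {ε : ℝ} (hσ : (1 - 2 * ε) ^ 2 ≤ 1) (f : (Fin n → ℤˣ) → ℤˣ) :
    avg (fun y => (post ε f 1 y - probOne f) ^ 2)
      ≤ (1 - 2 * ε) ^ 2 * (probOne f * (1 - probOne f)) := by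
  have hc : ∀ y, (post ε f 1 y - probOne f) ^ 2
      = noise ε (fun x => (if f x = 1 then (1 : ℝ) else 0) - probOne f) y ^ 2 := by
    intro y
    rw [post_centered]
  rw [avg_congr hc]
  have h := noise_sq_le ε hσ (fun x => (if f x = 1 then (1 : ℝ) else 0) - probOne f)
  rw [mb_avg_h, mb_avg_h_sq] at h
  linarith

lemma mb_cube_le (lam d : ℝ) (hlam : 0 < lam) :
    |d ^ 3| ≤ lam / 2 * d ^ 2 + 1 / (2 * lam) * d ^ 4 := by
  have h1 : |d ^ 3| = |d| * d ^ 2 := by
    rw [abs_pow, ← sq_abs d]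
    ring
  have h2 : 0 ≤ (lam * |d| - d ^ 2) ^ 2 := sq_nonneg _
  have h3 : |d| ^ 2 = d ^ 2 := sq_abs d
  have h4 : lam / 2 * d ^ 2 + 1 / (2 * lam) * d ^ 4 - |d| * d ^ 2
      = (lam * |d| - d ^ 2) ^ 2 / (2 * lam) := by
    field_simp
    nlinarith [h3]
  have h5 : 0 ≤ (lam * |d| - d ^ 2) ^ 2 / (2 * lam) := by positivity
  rw [h1]
  linarith

theorem third_moment_abs_le {n : ℕ} {ε : ℝ} (h3 : 3 * (1 - 2 * ε) ^ 2 ≤ 1)
    (f : (Fin n → ℤˣ) → ℤˣ) :
    |avg (fun y => (post ε f 1 y - probOne f) ^ 3)|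
      ≤ |1 - 2 * ε| ^ 3 * (probOne f * (1 - probOne f))
          * (3 / 4 + 3 * (probOne f * (1 - probOne f))) := by
  have hσ : (1 - 2 * ε) ^ 2 ≤ 1 := by nlinarith [sq_nonneg (1 - 2 * ε)]
  have h2 := mb_second_le hσ f
  have h4 := fourth_moment_le h3 f
  by_cases h0 : 1 - 2 * ε = 0
  · rw [h0] at h2 ⊢
    have hz : avg (fun y => (post ε f 1 y - probOne f) ^ 2) = 0 := by
      have hnn : 0 ≤ avg (fun y => (post ε f 1 y - probOne f) ^ 2) :=
        avg_nonneg (fun y => sq_nonneg _)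
      nlinarith
    have hd : ∀ y, (post ε f 1 y - probOne f) ^ 3 = 0 := by
      intro y
      have := avg_eq_zero (g := fun y => (post ε f 1 y - probOne f) ^ 2)
        (fun y => sq_nonneg _) hz y
      have hd0 : post ε f 1 y - probOne f = 0 := by
        exact pow_eq_zero_iff (two_ne_zero) |>.mp this
      rw [hd0]
      ring
    rw [avg_congr hd, avg_const]
    simp
  · have hs : 0 < |1 - 2 * ε| := abs_pos.mpr h0
    have hlam : 0 < 3 * |1 - 2 * ε| / 2 := by positivity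
    have hpt : ∀ y, |(post ε f 1 y - probOne f) ^ 3|
        ≤ 3 * |1 - 2 * ε| / 2 / 2 * (post ε f 1 y - probOne f) ^ 2
          + 1 / (2 * (3 * |1 - 2 * ε| / 2)) * (post ε f 1 y - probOne f) ^ 4 :=
      fun y => mb_cube_le _ _ hlam
    have hup : avg (fun y => (post ε f 1 y - probOne f) ^ 3)
        ≤ avg (fun y => 3 * |1 - 2 * ε| / 2 / 2 * (post ε f 1 y - probOne f) ^ 2
          + 1 / (2 * (3 * |1 - 2 * ε| / 2)) * (post ε f 1 y - probOne f) ^ 4) :=
      avg_mono (fun y => (abs_le.mp (hpt y)).2)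
    have hlo : avg (fun y => -(3 * |1 - 2 * ε| / 2 / 2 * (post ε f 1 y - probOne f) ^ 2
          + 1 / (2 * (3 * |1 - 2 * ε| / 2)) * (post ε f 1 y - probOne f) ^ 4))
        ≤ avg (fun y => (post ε f 1 y - probOne f) ^ 3) :=
      avg_mono (fun y => (abs_le.mp (hpt y)).1)
    have hneg : avg (fun y => -(3 * |1 - 2 * ε| / 2 / 2 * (post ε f 1 y - probOne f) ^ 2
          + 1 / (2 * (3 * |1 - 2 * ε| / 2)) * (post ε f 1 y - probOne f) ^ 4))
        = -avg (fun y => 3 * |1 - 2 * ε| / 2 / 2 * (post ε f 1 y - probOne f) ^ 2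
          + 1 / (2 * (3 * |1 - 2 * ε| / 2)) * (post ε f 1 y - probOne f) ^ 4) := by
      have := avg_const_mul (-1) (fun y => 3 * |1 - 2 * ε| / 2 / 2 * (post ε f 1 y - probOne f) ^ 2
          + 1 / (2 * (3 * |1 - 2 * ε| / 2)) * (post ε f 1 y - probOne f) ^ 4)
      simp only [neg_mul, one_mul] at this
      exact this
    rw [hneg] at hlo
    have hsplit : avg (fun y => 3 * |1 - 2 * ε| / 2 / 2 * (post ε f 1 y - probOne f) ^ 2
          + 1 / (2 * (3 * |1 - 2 * ε| / 2)) * (post ε f 1 y - probOne f) ^ 4)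
        = 3 * |1 - 2 * ε| / 2 / 2 * avg (fun y => (post ε f 1 y - probOne f) ^ 2)
          + 1 / (2 * (3 * |1 - 2 * ε| / 2)) * avg (fun y => (post ε f 1 y - probOne f) ^ 4) :=
      avg_lin _ _ _ _
    rw [hsplit] at hup hlo
    have hsq : (1 - 2 * ε) ^ 2 = |1 - 2 * ε| ^ 2 := (sq_abs _).symm
    have hfo : (1 - 2 * ε) ^ 4 = |1 - 2 * ε| ^ 4 := by
      have : (1 - 2 * ε) ^ 4 = ((1 - 2 * ε) ^ 2) ^ 2 := by ring
      rw [this, hsq]
      ring
    rw [hsq] at h2
    rw [hfo] at h4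
    generalize |1 - 2 * ε| = s at hs hlam hup hlo h2 h4 ⊢
    generalize probOne f * (1 - probOne f) = v at h2 h4 ⊢
    generalize avg (fun y => (post ε f 1 y - probOne f) ^ 2) = A at hup hlo h2
    generalize avg (fun y => (post ε f 1 y - probOne f) ^ 4) = B at hup hlo h4
    generalize avg (fun y => (post ε f 1 y - probOne f) ^ 3) = T at hup hlo ⊢
    have hbound : 3 * s / 2 / 2 * A + 1 / (2 * (3 * s / 2)) * B
        ≤ s ^ 3 * v * (3 / 4 + 3 * v) := by
      have hA : 3 * s / 2 / 2 * A ≤ 3 * s / 2 / 2 * (s ^ 2 * v) :=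
        mul_le_mul_of_nonneg_left h2 (by positivity)
      have hB : 1 / (2 * (3 * s / 2)) * B ≤ 1 / (2 * (3 * s / 2)) * (9 * s ^ 4 * v ^ 2) :=
        mul_le_mul_of_nonneg_left h4 (by positivity)
      have heq : 3 * s / 2 / 2 * (s ^ 2 * v) + 1 / (2 * (3 * s / 2)) * (9 * s ^ 4 * v ^ 2)
          = s ^ 3 * v * (3 / 4 + 3 * v) := by
        field_simp
        ring
      linarith
    rw [abs_le]
    constructor <;> linarith

end Vale.Agent.Lib.P322
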