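import Vale.Agent.Lib.P322.Local
import Vale.Agent.Lib.P322.HNMomBounds
import Vale.Agent.Lib.P322.HNLevelIneq

namespace Vale.Agent.Lib.P322
open Finset

/-- pointwise bound `x log x ≤ x log m + x (x - m) / m` -/
lemma hn2mix_kap_le {x m : ℝ} (hx : 0 ≤ x) (hm : 0 < m) :
    kap x ≤ x * Real.log m + x * (x - m) / m := by
  unfold kap
  rcases hx.eq_or_lt with rfl | hpos
  · simp
  · have h1 : Real.log (x / m) ≤ x / m - 1 := Real.log_le_sub_one_of_pos (div_pos hpos hm)
    rw [Real.log_div hpos.ne' hm.ne'] at h1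
    have h2 : x * (Real.log x - Real.log m) ≤ x * (x / m - 1) :=
      mul_le_mul_of_nonneg_left h1 hx
    have h3 : x * (x / m - 1) = x * (x - m) / m := by field_simp
    linarith

/-- the information, in nats, as the sum of two entropy drops -/
lemma hn2mix_info_eq {n : ℕ} (ε : ℝ) (f : (Fin n → ℤˣ) → ℤˣ) :
    infoFY ε f * Real.log 2
      = (avg (fun y => kap (post ε f 1 y)) - kap (probOne f))
        + (avg (fun y => kap (1 - post ε f 1 y)) - kap (1 - probOne f)) := by
  have hL : 0 < Real.log 2 := Real.log_pos (by norm_num)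
  have hN : (0:ℝ) < 2 ^ n := by positivity
  rw [infoFY_eq]
  unfold h2 avg
  simp_rw [binEntropy_kap]
  rw [← Finset.sum_div, Finset.sum_sub_distrib, Finset.sum_neg_distrib]
  field_simp
  ring

/-- the first entropy drop, by the strong data processing inequality -/
lemma hn2mix_partA {n : ℕ} {ε : ℝ} (h0 : 0 ≤ ε) (h1 : ε ≤ 1) (f : (Fin n → ℤˣ) → ℤˣ) :
    avg (fun y => kap (post ε f 1 y)) - kap (probOne f)
      ≤ (1 - 2 * ε) ^ 2 * (- kap (probOne f)) := by
  set b : (Fin n → ℤˣ) → ℝ := fun x => if f x = 1 then 1 else 0 with hb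
  have hbn : ∀ x, 0 ≤ b x := by intro x; rw [hb]; dsimp only; split_ifs <;> norm_num
  have hpost : ∀ y, noise ε b y = post ε f 1 y := by
    intro y
    unfold noise post
    apply Finset.sum_congr rfl
    intro x _
    rw [hb]; dsimp only
    split_ifs <;> simp
  have havg : avg b = probOne f := mb_avg_ind f
  have hkb : (fun x => kap (b x)) = fun _ => 0 := by
    funext x; rw [hb]; dsimp only; split_ifs <;> simp [kap]
  have hent : ent b = - kap (probOne f) := by
    unfold ent; rw [hkb, havg]; simp [avg]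
  have s1 := sdpi n ε h0 h1 b hbn
  have hn1 : ent (noise ε b) = avg (fun y => kap (post ε f 1 y)) - kap (probOne f) := by
    unfold ent
    rw [avg_noise, havg]
    simp_rw [hpost]
  rw [hn1, hent] at s1
  exact s1

/-- the centred posterior has average zero -/
lemma hn2mix_avg_centered {n : ℕ} (ε : ℝ) (f : (Fin n → ℤˣ) → ℤˣ) :
    avg (fun y => post ε f 1 y - probOne f) = 0 := by
  have e : (fun y => post ε f 1 y - probOne f)
      = noise ε (fun x => (if f x = 1 then (1 : ℝ) else 0) - probOne f) := by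
    funext y
    exact post_centered ε f y
  rw [e, avg_noise, mb_avg_h]

/-- the second entropy drop, by the chi-square bound -/
lemma hn2mix_partB {n : ℕ} {ε : ℝ} (h0 : 0 ≤ ε) (h1 : ε ≤ 1) (f : (Fin n → ℤˣ) → ℤˣ)
    (hp : probOne f < 1) :
    avg (fun y => kap (1 - post ε f 1 y)) - kap (1 - probOne f)
      ≤ avg (fun y => (post ε f 1 y - probOne f) ^ 2) / (1 - probOne f) := by
  have hm : 0 < 1 - probOne f := by linarith
  have hpost1 : ∀ y, 0 ≤ 1 - post ε f 1 y := by
    intro y
    have h3 := post_add ε f y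
    have h4 := post_nonneg h0 h1 f (-1) y
    linarith
  have hpt : ∀ y, kap (1 - post ε f 1 y)
      ≤ (1 - probOne f) * Real.log (1 - probOne f)
        + (- Real.log (1 - probOne f) - 1) * (post ε f 1 y - probOne f)
        + (1 / (1 - probOne f)) * (post ε f 1 y - probOne f) ^ 2 := by
    intro y
    have h := hn2mix_kap_le (hpost1 y) hm
    have e : (1 - post ε f 1 y) * Real.log (1 - probOne f)
          + (1 - post ε f 1 y) * (1 - post ε f 1 y - (1 - probOne f)) / (1 - probOne f)
        = (1 - probOne f) * Real.log (1 - probOne f)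
          + (- Real.log (1 - probOne f) - 1) * (post ε f 1 y - probOne f)
          + (1 / (1 - probOne f)) * (post ε f 1 y - probOne f) ^ 2 := by
      field_simp
      ring
    linarith
  have hmono := avg_mono hpt
  have hsplit : avg (fun y => (1 - probOne f) * Real.log (1 - probOne f)
        + (- Real.log (1 - probOne f) - 1) * (post ε f 1 y - probOne f)
        + (1 / (1 - probOne f)) * (post ε f 1 y - probOne f) ^ 2)
      = (1 - probOne f) * Real.log (1 - probOne f)
        + (- Real.log (1 - probOne f) - 1) * avg (fun y => post ε f 1 y - probOne f)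
        + (1 / (1 - probOne f)) * avg (fun y => (post ε f 1 y - probOne f) ^ 2) := by
    have h5 := avg_add (fun y => (1 - probOne f) * Real.log (1 - probOne f)
        + (- Real.log (1 - probOne f) - 1) * (post ε f 1 y - probOne f))
      (fun y => (1 / (1 - probOne f)) * (post ε f 1 y - probOne f) ^ 2)
    have h6 := avg_add (fun _ : Fin n → ℤˣ => (1 - probOne f) * Real.log (1 - probOne f))
      (fun y => (- Real.log (1 - probOne f) - 1) * (post ε f 1 y - probOne f))
    rw [h5, h6, avg_const, avg_const_mul, avg_const_mul]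
  rw [hsplit, hn2mix_avg_centered] at hmono
  have e2 : kap (1 - probOne f) = (1 - probOne f) * Real.log (1 - probOne f) := rfl
  have e3 : 1 / (1 - probOne f) * avg (fun y => (post ε f 1 y - probOne f) ^ 2)
      = avg (fun y => (post ε f 1 y - probOne f) ^ 2) / (1 - probOne f) := by ring
  rw [e2]
  linarith

/-- `log 5 ≤ 1.6099` -/
lemma hn2mix_log_five : Real.log 5 ≤ 16099 / 10000 := by
  have hL2 := Real.log_two_lt_d9
  have h5 : 31 * Real.log 5 ≤ 72 * Real.log 2 := by
    have := Real.log_le_log (by norm_num : (0:ℝ) < 5 ^ 31) (by norm_num : (5:ℝ) ^ 31 ≤ 2 ^ 72)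
    rw [Real.log_pow, Real.log_pow] at this
    exact_mod_cast this
  linarith

/-- `log (16/3) ≤ 1.6775` -/
lemma hn2mix_log_sixteen_thirds : Real.log (16 / 3) ≤ 16775 / 10000 := by
  have hL2 := Real.log_two_lt_d9
  have h3 : 79 * Real.log 2 ≤ 50 * Real.log 3 := by
    have := Real.log_le_log (by norm_num : (0:ℝ) < 2 ^ 79) (by norm_num : (2:ℝ) ^ 79 ≤ 3 ^ 50)
    rw [Real.log_pow, Real.log_pow] at this
    exact_mod_cast this
  have e1 : Real.log (16 / 3) = 4 * Real.log 2 - Real.log 3 := by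
    rw [Real.log_div (by norm_num) (by norm_num)]
    have : (16:ℝ) = 2 ^ 4 := by norm_num
    rw [this, Real.log_pow]; norm_num
  rw [e1]
  linarith

/-- the scalar inequality on `3/16 ≤ p ≤ 11/50` -/
lemma hn2mix_scalar {p : ℝ} (hp0 : 3 / 16 ≤ p) (hp1 : p ≤ 11 / 50) :
    - (p * Real.log p) + p * (13 - p) / (25 * (1 - p)) ≤ 1 / 2 := by
  have hpos : 0 < p := by linarith
  have h1p : 0 < 1 - p := by linarith
  rcases le_total p (1 / 5) with h | h
  · have hlog : Real.log (3 / 16) ≤ Real.log p := Real.log_le_log (by norm_num) hp0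
    have hinv : Real.log (3 / 16) = - Real.log (16 / 3) := by
      rw [← Real.log_inv]
      norm_num
    have hL := hn2mix_log_sixteen_thirds
    have ha : - (p * Real.log p) ≤ p * (16775 / 10000) := by
      have : - Real.log p ≤ 16775 / 10000 := by linarith
      nlinarith
    have hb : p * (13 - p) / (25 * (1 - p)) ≤ 128 / 1000 := by
      rw [div_le_iff₀ (by linarith)]
      nlinarith
    nlinarith
  · have hlog : Real.log (1 / 5) ≤ Real.log p := Real.log_le_log (by norm_num) h
    have hinv : Real.log (1 / 5) = - Real.log 5 := by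
      rw [← Real.log_inv]
      norm_num
    have hL := hn2mix_log_five
    have ha : - (p * Real.log p) ≤ p * (16099 / 10000) := by
      have : - Real.log p ≤ 16099 / 10000 := by linarith
      nlinarith
    have hb : p * (13 - p) / (25 * (1 - p)) ≤ 1442 / 10000 := by
      rw [div_le_iff₀ (by linarith)]
      nlinarith
    nlinarith

/-- the case `P(f = 1) ≤ 11/50` -/
lemma hn2mix_low {n : ℕ} {ε : ℝ} (h0 : 2 / 5 ≤ ε) (h1 : ε ≤ 1 / 2)
    (f : (Fin n → ℤˣ) → ℤˣ) (hb : probOne f ≤ 11 / 50) :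
    infoFY ε f ≤ 1 - h2 ε := by
  have hε0 : 0 ≤ ε := by linarith
  have hε1 : ε ≤ 1 := by linarith
  by_cases hs : probOne f ≤ 3 / 16
  · exact ck_of_biased hε0 hε1 f (Or.inl hs)
  rw [not_le] at hs
  have hL : 0 < Real.log 2 := Real.log_pos (by norm_num)
  have hid := hn2mix_info_eq ε f
  have hA := hn2mix_partA hε0 hε1 f
  have hB := hn2mix_partB hε0 hε1 f (by linarith)
  have hσ : (1 - 2 * ε) ^ 2 ≤ 1 := by nlinarith
  have hm2 := second_moment_le (ε := ε) hσ f
  have hW := wt1_le_two_probOne f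
  have hsc := hn2mix_scalar hs.le hb
  have hρabs : |1 - 2 * ε| ≤ 1 := by rw [abs_le]; constructor <;> linarith
  have hAf := Afun_ge_sq hρabs
  have hid2 := log_two_sub_binEntropy ε
  have e : 1 - h2 ε = Afun (1 - 2 * ε) / 2 / Real.log 2 := by
    unfold h2
    rw [← hid2]
    field_simp
  rw [e, le_div_iff₀ hL, hid]
  set p := probOne f with hp
  set ρ := 1 - 2 * ε with hρ
  have hρ0 : 0 ≤ ρ := by rw [hρ]; linarith
  have hρ1 : ρ ≤ 1 / 5 := by rw [hρ]; linarith
  have hρ2 : ρ ^ 2 ≤ 1 / 25 := by nlinarith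
  have hρ20 : 0 ≤ ρ ^ 2 := sq_nonneg ρ
  have h1p : 0 < 1 - p := by linarith
  have hp0 : 0 < p := by linarith
  generalize avg (fun y => kap (post ε f 1 y)) - kap p = XA at hA ⊢
  generalize avg (fun y => kap (1 - post ε f 1 y)) - kap (1 - p) = XB at hB ⊢
  have hkp : kap p = p * Real.log p := rfl
  rw [hkp] at hA
  generalize avg (fun y => (post ε f 1 y - p) ^ 2) = M2 at hB hm2
  generalize wt1 (fR f) = Wt at hm2 hW
  generalize Real.log p = Lp at hA hsc
  -- second moment bound with the level-one inequality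
  have hM2 : M2 ≤ ρ ^ 2 * (p * (13 - p) / 25) := by
    have h4 : ρ ^ 4 = ρ ^ 2 * ρ ^ 2 := by ring
    have h5 : ρ ^ 2 * (Wt / 4) + ρ ^ 4 * (p * (1 - p) - Wt / 4)
        = ρ ^ 2 * (1 - ρ ^ 2) * (Wt / 4) + ρ ^ 2 * ρ ^ 2 * (p * (1 - p)) := by
      rw [h4]; ring
    have h6 : ρ ^ 2 * (1 - ρ ^ 2) * (Wt / 4) ≤ ρ ^ 2 * (1 - ρ ^ 2) * (p / 2) := by
      apply mul_le_mul_of_nonneg_left (by linarith)
      exact mul_nonneg hρ20 (by linarith)
    have h7 : ρ ^ 2 * (1 - ρ ^ 2) * (p / 2) + ρ ^ 2 * ρ ^ 2 * (p * (1 - p))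
        = ρ ^ 2 * (p / 2 + ρ ^ 2 * (p * (1 - 2 * p) / 2)) := by ring
    have h8 : ρ ^ 2 * (p * (1 - 2 * p) / 2) ≤ 1 / 25 * (p * (1 - 2 * p) / 2) := by
      apply mul_le_mul_of_nonneg_right hρ2
      have : 0 ≤ p * (1 - 2 * p) := mul_nonneg hp0.le (by linarith)
      linarith
    have h9 : ρ ^ 2 * (p / 2 + ρ ^ 2 * (p * (1 - 2 * p) / 2))
        ≤ ρ ^ 2 * (p / 2 + 1 / 25 * (p * (1 - 2 * p) / 2)) :=
      mul_le_mul_of_nonneg_left (by linarith) hρ20
    have h10 : ρ ^ 2 * (p / 2 + 1 / 25 * (p * (1 - 2 * p) / 2))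
        = ρ ^ 2 * (p * (13 - p) / 25) := by ring
    linarith
  have hB2 : XB ≤ ρ ^ 2 * (p * (13 - p) / (25 * (1 - p))) := by
    have h11 : M2 / (1 - p) ≤ ρ ^ 2 * (p * (13 - p) / 25) / (1 - p) :=
      div_le_div_of_nonneg_right hM2 h1p.le
    have h12 : ρ ^ 2 * (p * (13 - p) / 25) / (1 - p)
        = ρ ^ 2 * (p * (13 - p) / (25 * (1 - p))) := by
      field_simp
    linarith
  have hfin : ρ ^ 2 * (-(p * Lp)) + ρ ^ 2 * (p * (13 - p) / (25 * (1 - p)))
      ≤ ρ ^ 2 * (1 / 2) := by
    have := mul_le_mul_of_nonneg_left hsc hρ20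
    linarith
  linarith

/-- The Courtade-Kumar inequality for biased Boolean functions, `P(f = 1) ≤ 11/50` or
`P(f = 1) ≥ 39/50`, when `2/5 ≤ ε ≤ 1/2`. -/
theorem ck_of_biased2 {n : ℕ} {ε : ℝ} (h0 : 2 / 5 ≤ ε) (h1 : ε ≤ 1 / 2)
    (f : (Fin n → ℤˣ) → ℤˣ) (hb : probOne f ≤ 11 / 50 ∨ 39 / 50 ≤ probOne f) :
    infoFY ε f ≤ 1 - h2 ε := by
  rcases hb with h | h
  · exact hn2mix_low h0 h1 f h
  · rw [← infoFY_neg]
    apply hn2mix_low h0 h1
    have hN : (0:ℝ) < 2 ^ n := by positivity
    have hiff : ∀ x, (- f x = 1) ↔ (f x = -1) := by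
      intro x
      rcases Int.units_eq_one_or (f x) with h' | h' <;> simp [h']
    have hp : probOne (fun x => - f x) = 1 - probOne f := by
      have h4 : probOne (fun x => - f x) = cnt f (-1) / 2 ^ n := by
        unfold probOne cnt
        have hfe : (Finset.univ.filter (fun x : Fin n → ℤˣ => - f x = 1))
            = Finset.univ.filter (fun x => f x = -1) := by
          apply Finset.filter_congr
          intro x _
          exact hiff x
        rw [hfe]
      rw [h4, probOne_eq]
      have := cnt_add f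
      field_simp
      linarith
    rw [hp]
    linarith

end Vale.Agent.Lib.P322
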