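import Vale.Agent.Lib.P322.HN2Lvl
import Vale.Agent.Lib.P322.HN2Lvl2
import Vale.Agent.Lib.P322.HN2CS
import Vale.Agent.Lib.P322.HNMomBounds

namespace Vale.Agent.Lib.P322
open Finset

/-- the decomposition of the centred posterior into its level-one part and the rest, with all
the moment bounds needed by `cs_third` and `cs_fourth` -/
lemma hn2mom_facts {n : ℕ} {ε : ℝ} (h3 : 3 * (1 - 2 * ε) ^ 2 ≤ 1)
    (f : (Fin n → ℤˣ) → ℤˣ) (σ K : ℝ)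
    (hσ2 : σ ^ 2 = wt1 (fR f) / 4)
    (hK2 : K ^ 2 = probOne f * (1 - probOne f) - wt1 (fR f) / 4) :
    ∃ L h : (Fin n → ℤˣ) → ℝ,
      (∀ y, post ε f 1 y - probOne f = (1 - 2 * ε) * L y + h y) ∧
      avg (fun x => L x ^ 2) ≤ σ ^ 2 ∧
      avg (fun x => L x ^ 3) = 0 ∧
      avg (fun x => L x ^ 4) ≤ 3 * σ ^ 4 ∧
      avg (fun x => L x ^ 6) ≤ 15 * σ ^ 6 ∧
      avg (fun x => h x ^ 2) ≤ (1 - 2 * ε) ^ 4 * K ^ 2 ∧
      avg (fun x => h x ^ 4) ≤ 81 * (1 - 2 * ε) ^ 8 * K ^ 4 := by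
  have hσ1 : (1 - 2 * ε) ^ 2 ≤ 1 := by nlinarith [sq_nonneg (1 - 2 * ε)]
  have hsum : ∑ i, coef (fun x => (if f x = 1 then (1 : ℝ) else 0) - probOne f) i ^ 2 = σ ^ 2 := by
    have h := mb_wt1_h f
    unfold wt1 at h
    rw [h, hσ2]
    unfold wt1
    rfl
  have hw : avg (fun x => ((if f x = 1 then (1 : ℝ) else 0) - probOne f)
      - linf (coef (fun x => (if f x = 1 then (1 : ℝ) else 0) - probOne f)) x) = 0 := by
    rw [lvl2_avg]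
    exact mb_avg_h f
  have hc : ∀ i, coef (fun x => ((if f x = 1 then (1 : ℝ) else 0) - probOne f)
      - linf (coef (fun x => (if f x = 1 then (1 : ℝ) else 0) - probOne f)) x) i = 0 :=
    fun i => lvl2_coef _ i
  have hwsq : avg (fun x => (((if f x = 1 then (1 : ℝ) else 0) - probOne f)
      - linf (coef (fun x => (if f x = 1 then (1 : ℝ) else 0) - probOne f)) x) ^ 2) = K ^ 2 := by
    rw [lvl2_sq, mb_avg_h_sq, mb_wt1_h, hK2]
  refine ⟨linf (coef (fun x => (if f x = 1 then (1 : ℝ) else 0) - probOne f)),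
    fun y => noise ε (fun x => ((if f x = 1 then (1 : ℝ) else 0) - probOne f)
      - linf (coef (fun x => (if f x = 1 then (1 : ℝ) else 0) - probOne f)) x) y,
    ?_, ?_, ?_, ?_, ?_, ?_, ?_⟩
  · intro y
    rw [post_centered, noise_decomp]
  · rw [linf_sq, hsum]
  · exact linf_cube_avg _
  · have h := linf_fourth_le (coef (fun x => (if f x = 1 then (1 : ℝ) else 0) - probOne f))
    rw [hsum] at h
    have e : 3 * (σ ^ 2) ^ 2 = 3 * σ ^ 4 := by ring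
    linarith
  · have h := linf_sixth_le (coef (fun x => (if f x = 1 then (1 : ℝ) else 0) - probOne f))
    rw [hsum] at h
    have e : 15 * (σ ^ 2) ^ 3 = 15 * σ ^ 6 := by ring
    linarith
  · have h := noise_lvl2_sq ε hσ1 _ hw hc
    rw [hwsq] at h
    exact h
  · have h := noise_lvl2_fourth ε h3 _ hw hc
    rw [hwsq] at h
    have e : 81 * (1 - 2 * ε) ^ 8 * (K ^ 2) ^ 2 = 81 * (1 - 2 * ε) ^ 8 * K ^ 4 := by ring
    linarith

/-- the third central moment of the posterior is of order `ρ⁴` -/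
theorem third_moment_fine {n : ℕ} {ε : ℝ} (hρ : 0 ≤ 1 - 2 * ε) (h3 : 3 * (1 - 2 * ε) ^ 2 ≤ 1)
    (f : (Fin n → ℤˣ) → ℤˣ) (σ K : ℝ) (hσ : 0 ≤ σ) (hK : 0 ≤ K)
    (hσ2 : σ ^ 2 = wt1 (fR f) / 4)
    (hK2 : K ^ 2 = probOne f * (1 - probOne f) - wt1 (fR f) / 4) :
    |avg (fun y => (post ε f 1 y - probOne f) ^ 3)|
      ≤ (1 - 2 * ε) ^ 4 * (3 * (17321 / 10000) * σ ^ 2 * K + 27 * (1 - 2 * ε) * σ * K ^ 2
          + 9 * (1 - 2 * ε) ^ 2 * K ^ 3) := by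
  obtain ⟨L, h, hdec, hL2, hL3, hL4, _, hh2, hh4⟩ := hn2mom_facts h3 f σ K hσ2 hK2
  have hc : ∀ y, (post ε f 1 y - probOne f) ^ 3 = ((1 - 2 * ε) * L y + h y) ^ 3 := by
    intro y
    rw [hdec]
  rw [avg_congr hc]
  exact cs_third L h (1 - 2 * ε) σ K hρ hσ hK hL2 hL3 hL4 hh2 hh4

/-- the fourth central moment of the posterior, with the sharp leading term `3 ρ⁴ σ⁴` -/
theorem fourth_moment_fine {n : ℕ} {ε : ℝ} (hρ : 0 ≤ 1 - 2 * ε) (h3 : 3 * (1 - 2 * ε) ^ 2 ≤ 1)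
    (f : (Fin n → ℤˣ) → ℤˣ) (σ K : ℝ) (hσ : 0 ≤ σ) (hK : 0 ≤ K)
    (hσ2 : σ ^ 2 = wt1 (fR f) / 4)
    (hK2 : K ^ 2 = probOne f * (1 - probOne f) - wt1 (fR f) / 4) :
    avg (fun y => (post ε f 1 y - probOne f) ^ 4)
      ≤ (1 - 2 * ε) ^ 4 * (3 * σ ^ 4 + 4 * (3873 / 1000) * (1 - 2 * ε) * σ ^ 3 * K
          + 54 * (17321 / 10000) * (1 - 2 * ε) ^ 2 * σ ^ 2 * K ^ 2
          + 108 * (13161 / 10000) * (1 - 2 * ε) ^ 3 * σ * K ^ 3
          + 81 * (1 - 2 * ε) ^ 4 * K ^ 4) := by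
  obtain ⟨L, h, hdec, hL2, _, hL4, hL6, hh2, hh4⟩ := hn2mom_facts h3 f σ K hσ2 hK2
  have hc : ∀ y, (post ε f 1 y - probOne f) ^ 4 = ((1 - 2 * ε) * L y + h y) ^ 4 := by
    intro y
    rw [hdec]
  rw [avg_congr hc]
  exact cs_fourth L h (1 - 2 * ε) σ K hρ hσ hK hL2 hL4 hL6 hh2 hh4

end Vale.Agent.Lib.P322
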