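import Vale.Agent.Lib.P322.HNMoments

namespace Vale.Agent.Lib.P322
open Finset

theorem sqrt_poly (u : ℝ) (hu : 0 ≤ u) :
    Real.sqrt u ≤ (1 + u) / 2 - (u - 1) ^ 2 / 10 + (u - 1) ^ 3 / 50 := by
  obtain ⟨t, ht0, rfl⟩ : ∃ t : ℝ, 0 ≤ t ∧ u = t ^ 2 :=
    ⟨Real.sqrt u, Real.sqrt_nonneg u, (Real.sq_sqrt hu).symm⟩
  rw [Real.sqrt_sq ht0]
  have key : (1 + t ^ 2) / 2 - (t ^ 2 - 1) ^ 2 / 10 + (t ^ 2 - 1) ^ 3 / 50 - t =
      (t - 1) ^ 2 * ((t ^ 2 + t - 4) ^ 2 + 2 * (t - 1) ^ 2 + 1) / 50 := by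
    ring
  have h2 : 0 ≤ (t - 1) ^ 2 * ((t ^ 2 + t - 4) ^ 2 + 2 * (t - 1) ^ 2 + 1) / 50 := by positivity
  linarith

/-- a Rademacher sum without a dominant coefficient has `E|ℓ| ≤ (24/25) (E ℓ²)^{1/2}` -/
theorem linf_abs_le {n : ℕ} (a : Fin n → ℝ) (hV : 0 < ∑ i, a i ^ 2)
    (hmax : ∀ i, a i ^ 2 ≤ 7 / 8 * ∑ j, a j ^ 2) :
    avg (fun x => |linf a x|) ≤ 24 / 25 * Real.sqrt (∑ i, a i ^ 2) := by
  have e2 := linf_sq a
  have e4 := linf_fourth a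
  have e6 := linf_sixth a
  obtain ⟨V, hVdef⟩ : ∃ V : ℝ, V = ∑ i, a i ^ 2 := ⟨_, rfl⟩
  obtain ⟨S4, hS4def⟩ : ∃ S4 : ℝ, S4 = ∑ i, a i ^ 4 := ⟨_, rfl⟩
  obtain ⟨S6, hS6def⟩ : ∃ S6 : ℝ, S6 = ∑ i, a i ^ 6 := ⟨_, rfl⟩
  have hS6 : S6 ≤ 7 / 8 * V * S4 := by
    rw [hS6def, hS4def, Finset.mul_sum]
    apply Finset.sum_le_sum
    intro i _
    have h4 : 0 ≤ a i ^ 4 := by positivity
    have h5 := mul_le_mul_of_nonneg_right (hmax i) h4
    rw [← hVdef] at h5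
    calc a i ^ 6 = a i ^ 2 * a i ^ 4 := by ring
      _ ≤ 7 / 8 * V * a i ^ 4 := h5
  rw [← hVdef] at hV e2 e4 e6 ⊢
  rw [← hS4def] at e4 e6
  rw [← hS6def] at e6
  obtain ⟨r, hr⟩ : ∃ r : ℝ, r = Real.sqrt V := ⟨_, rfl⟩
  rw [← hr]
  have hr0 : 0 < r := by rw [hr]; exact Real.sqrt_pos.2 hV
  have hVne : V ≠ 0 := hV.ne'
  have hpt : ∀ x : Fin n → ℤˣ, |linf a x| ≤
      r * (19 / 50) + (r * (38 / 50) / V) * linf a x ^ 2
        + (-(r * (8 / 50) / V ^ 2)) * linf a x ^ 4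
        + (r * (1 / 50) / V ^ 3) * linf a x ^ 6 := by
    intro x
    have hw : 0 ≤ linf a x ^ 2 / V := div_nonneg (sq_nonneg _) hV.le
    have h1 := sqrt_poly _ hw
    have h0 : V * (linf a x ^ 2 / V) = linf a x ^ 2 := by field_simp
    have h2 : |linf a x| = r * Real.sqrt (linf a x ^ 2 / V) := by
      rw [hr, ← Real.sqrt_mul hV.le, h0, Real.sqrt_sq_eq_abs]
    rw [h2]
    have h3 : r * ((1 + linf a x ^ 2 / V) / 2 - (linf a x ^ 2 / V - 1) ^ 2 / 10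
        + (linf a x ^ 2 / V - 1) ^ 3 / 50) =
        r * (19 / 50) + (r * (38 / 50) / V) * linf a x ^ 2
          + (-(r * (8 / 50) / V ^ 2)) * linf a x ^ 4
          + (r * (1 / 50) / V ^ 3) * linf a x ^ 6 := by
      field_simp
      ring
    rw [← h3]
    exact mul_le_mul_of_nonneg_left h1 hr0.le
  have havg := avg_mono hpt
  have hR : avg (fun x => r * (19 / 50) + (r * (38 / 50) / V) * linf a x ^ 2
        + (-(r * (8 / 50) / V ^ 2)) * linf a x ^ 4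
        + (r * (1 / 50) / V ^ 3) * linf a x ^ 6)
      = r * (19 / 50) + (r * (38 / 50) / V) * V
        + (-(r * (8 / 50) / V ^ 2)) * (3 * V ^ 2 - 2 * S4)
        + (r * (1 / 50) / V ^ 3) * (15 * V ^ 3 - 30 * V * S4 + 16 * S6) := by
    rw [avg_add, avg_add, avg_add, avg_const, avg_const_mul, avg_const_mul, avg_const_mul,
      e2, e4, e6]
  rw [hR] at havg
  have hfin : r * (19 / 50) + (r * (38 / 50) / V) * V
        + (-(r * (8 / 50) / V ^ 2)) * (3 * V ^ 2 - 2 * S4)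
        + (r * (1 / 50) / V ^ 3) * (15 * V ^ 3 - 30 * V * S4 + 16 * S6)
      = 24 / 25 * r + r * (16 * S6 - 14 * V * S4) / (50 * V ^ 3) := by
    field_simp
    ring
  rw [hfin] at havg
  have hneg : r * (16 * S6 - 14 * V * S4) / (50 * V ^ 3) ≤ 0 := by
    apply div_nonpos_of_nonpos_of_nonneg
    · exact mul_nonpos_of_nonneg_of_nonpos hr0.le (by linarith)
    · positivity
  linarith

end Vale.Agent.Lib.P322
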