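import Vale.Agent.Lib.P322.HNSlice

namespace Vale.Agent.Lib.P322
open Finset

private lemma avg_nonneg_of_nonneg {n : ℕ} {v : (Fin n → ℤˣ) → ℝ} (h : ∀ x, 0 ≤ v x) :
    0 ≤ avg v := by
  have h1 := avg_mono (u := fun _ : Fin n → ℤˣ => (0 : ℝ)) (v := v) h
  rwa [avg_const] at h1

/-- second moment of the noise operator: `E (T u)^2 ≤ (E u)^2 + σ² Var u`, `σ = 1 - 2ε`. -/
theorem noise_sq_le {n : ℕ} (ε : ℝ) (hσ : (1 - 2 * ε) ^ 2 ≤ 1) (u : (Fin n → ℤˣ) → ℝ) :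
    avg (fun y => noise ε u y ^ 2)
      ≤ avg u ^ 2 + (1 - 2 * ε) ^ 2 * (avg (fun x => u x ^ 2) - avg u ^ 2) := by
  induction n with
  | zero =>
    have h1 : (fun y => noise ε u y ^ 2) = fun y => u y ^ 2 := by
      funext y
      rw [noise_zero]
    rw [h1, avg_zero, avg_zero]
    simp
  | succ n ih =>
    rw [avg_noise_sq_cons, avg_slA u, avg_sq_cons u]
    have hA := ih (slA u)
    have hB := ih (slB u)
    have hB2 := avg_sq_le (slB u)
    have hσ0 : 0 ≤ (1 - 2 * ε) ^ 2 := sq_nonneg _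
    have hb : avg (fun y' => noise ε (slB u) y' ^ 2) ≤ avg (fun x' => slB u x' ^ 2) := by
      nlinarith [mul_nonneg (sub_nonneg.mpr hσ) (sub_nonneg.mpr hB2)]
    have hb2 := mul_le_mul_of_nonneg_left hb hσ0
    nlinarith

/-- Bonami's (2,4) hypercontractive inequality on the cube, in the form
`E (T_ρ u)^4 ≤ (E (T_{√3 ρ} u)^2)^2`. -/
theorem bonami {n : ℕ} (ε ε' : ℝ) (h : (1 - 2 * ε') ^ 2 = 3 * (1 - 2 * ε) ^ 2)
    (u : (Fin n → ℤˣ) → ℝ) :
    avg (fun y => noise ε u y ^ 4) ≤ avg (fun y => noise ε' u y ^ 2) ^ 2 := by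
  induction n with
  | zero =>
    have h1 : (fun y => noise ε u y ^ 4) = fun y => u y ^ 4 := by
      funext y
      rw [noise_zero]
    have h2 : (fun y => noise ε' u y ^ 2) = fun y => u y ^ 2 := by
      funext y
      rw [noise_zero]
    rw [h1, h2, avg_zero, avg_zero]
    exact le_of_eq (by ring)
  | succ n ih =>
    rw [avg_noise_fourth_cons, avg_noise_sq_cons ε' u, h]
    have hA := ih (slA u)
    have hB := ih (slB u)
    have hCS := avg_mul_sq_le (fun y' => noise ε (slA u) y' ^ 2)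
      (fun y' => noise ε (slB u) y' ^ 2)
    have e1 : (fun x => (noise ε (slA u) x ^ 2) ^ 2) = fun x => noise ε (slA u) x ^ 4 := by
      funext x
      ring
    have e2 : (fun x => (noise ε (slB u) x ^ 2) ^ 2) = fun x => noise ε (slB u) x ^ 4 := by
      funext x
      ring
    rw [e1, e2] at hCS
    have hX : 0 ≤ avg (fun y => noise ε' (slA u) y ^ 2) :=
      avg_nonneg_of_nonneg (fun x => sq_nonneg _)
    have hY : 0 ≤ avg (fun y => noise ε' (slB u) y ^ 2) :=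
      avg_nonneg_of_nonneg (fun x => sq_nonneg _)
    have hP : 0 ≤ avg (fun y => noise ε (slA u) y ^ 4) :=
      avg_nonneg_of_nonneg (fun x => by positivity)
    have hR : 0 ≤ avg (fun y => noise ε (slB u) y ^ 4) :=
      avg_nonneg_of_nonneg (fun x => by positivity)
    have hσ0 : 0 ≤ (1 - 2 * ε) ^ 2 := sq_nonneg _
    have hM2 : avg (fun x => noise ε (slA u) x ^ 2 * noise ε (slB u) x ^ 2) ^ 2
        ≤ (avg (fun y => noise ε' (slA u) y ^ 2)
            * avg (fun y => noise ε' (slB u) y ^ 2)) ^ 2 := by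
      have h3 := mul_le_mul hA hB hR (sq_nonneg _)
      rw [mul_pow]
      exact le_trans hCS h3
    have hM := (abs_le_of_sq_le_sq' hM2 (mul_nonneg hX hY)).2
    have hM' := mul_le_mul_of_nonneg_left hM hσ0
    have hσ4 : (1 - 2 * ε) ^ 4 = (1 - 2 * ε) ^ 2 * (1 - 2 * ε) ^ 2 := by ring
    have hR' := mul_le_mul_of_nonneg_left hB (mul_nonneg hσ0 hσ0)
    have hY2 : 0 ≤ (1 - 2 * ε) ^ 2 * (1 - 2 * ε) ^ 2
        * avg (fun y => noise ε' (slB u) y ^ 2) ^ 2 :=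
      mul_nonneg (mul_nonneg hσ0 hσ0) (sq_nonneg _)
    rw [hσ4]
    nlinarith

/-- fourth moment of the noise operator on mean-zero functions. -/
theorem noise_fourth_le {n : ℕ} (ε : ℝ) (h3 : 3 * (1 - 2 * ε) ^ 2 ≤ 1)
    (u : (Fin n → ℤˣ) → ℝ) (hu : avg u = 0) :
    avg (fun y => noise ε u y ^ 4) ≤ 9 * (1 - 2 * ε) ^ 4 * avg (fun x => u x ^ 2) ^ 2 := by
  obtain ⟨ε', hε'⟩ : ∃ ε' : ℝ, ε' = (1 - Real.sqrt 3 * (1 - 2 * ε)) / 2 := ⟨_, rfl⟩
  have h : (1 - 2 * ε') ^ 2 = 3 * (1 - 2 * ε) ^ 2 := by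
    have e1 : 1 - 2 * ε' = Real.sqrt 3 * (1 - 2 * ε) := by
      rw [hε']
      ring
    rw [e1, mul_pow, Real.sq_sqrt (by norm_num : (0 : ℝ) ≤ 3)]
  have hb := bonami ε ε' h u
  have hs := noise_sq_le ε' (by rw [h]; exact h3) u
  rw [hu, h] at hs
  have h0 : 0 ≤ avg (fun y => noise ε' u y ^ 2) := avg_nonneg_of_nonneg (fun x => sq_nonneg _)
  have hs' : avg (fun y => noise ε' u y ^ 2)
      ≤ 3 * (1 - 2 * ε) ^ 2 * avg (fun x => u x ^ 2) := by
    have e2 : (0 : ℝ) ^ 2 + 3 * (1 - 2 * ε) ^ 2 * (avg (fun x => u x ^ 2) - 0 ^ 2)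
        = 3 * (1 - 2 * ε) ^ 2 * avg (fun x => u x ^ 2) := by ring
    rw [e2] at hs
    exact hs
  have h5 := pow_le_pow_left₀ h0 hs' 2
  have e3 : (3 * (1 - 2 * ε) ^ 2 * avg (fun x => u x ^ 2)) ^ 2
      = 9 * (1 - 2 * ε) ^ 4 * avg (fun x => u x ^ 2) ^ 2 := by ring
  rw [e3] at h5
  exact le_trans hb h5

end Vale.Agent.Lib.P322
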