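import Vale.Agent.Lib.P322.Sdpi

namespace Vale.Agent.Lib.P322
open Finset

/-- a sign as a real number -/
def sgn (s : ℤˣ) : ℝ := ((s : ℤ) : ℝ)

/-- the level-one coefficient `E[u(X) X_i]` of a real function on the cube -/
noncomputable def coef {n : ℕ} (u : (Fin n → ℤˣ) → ℝ) (i : Fin n) : ℝ :=
  avg (fun x => u x * sgn (x i))

/-- the level-one weight `∑_i (E[u(X) X_i])^2` -/
noncomputable def wt1 {n : ℕ} (u : (Fin n → ℤˣ) → ℝ) : ℝ := ∑ i, coef u i ^ 2

/-- the linear form `∑_i a_i x_i` on the cube -/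
noncomputable def linf {n : ℕ} (a : Fin n → ℝ) (x : Fin n → ℤˣ) : ℝ := ∑ i, a i * sgn (x i)

/-- the real-valued version of a Boolean function -/
def fR {n : ℕ} (f : (Fin n → ℤˣ) → ℤˣ) (x : Fin n → ℤˣ) : ℝ := sgn (f x)

lemma sgn_one : sgn 1 = 1 := by simp [sgn]

lemma sgn_neg_one : sgn (-1) = -1 := by simp [sgn]

lemma sgn_sq (s : ℤˣ) : sgn s ^ 2 = 1 := by
  rcases Int.units_eq_one_or s with h | h <;> simp [sgn, h]

lemma sgn_neg (s : ℤˣ) : sgn (-s) = - sgn s := by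
  rcases Int.units_eq_one_or s with h | h <;> simp [sgn, h]

end Vale.Agent.Lib.P322
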