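import Mathlib

namespace Vale.Agent.Lib.P322

/-- the polynomial core of `hn_final` -/
lemma hn_final_core {t ρ W : ℝ} (ht0 : 0 ≤ t) (ht1 : t ≤ 5 / 8) (hρ0 : 0 ≤ ρ) (hρ1 : ρ ≤ 1 / 12)
    (hW0 : 0 ≤ W) (hW1 : W ≤ 576 / 625) (hW2 : W ≤ 1 - t) :
    W * (1 - ρ ^ 2) + ρ * t * (2 - t ^ 2) + ρ ^ 2 * (7 + 17 * t ^ 2) ≤ 1 - t ^ 2 := by
  have hρ2 : ρ ^ 2 ≤ 1 / 144 := by nlinarith
  have hρ2' : 0 ≤ ρ ^ 2 := sq_nonneg ρ
  have ht2 : 0 ≤ t ^ 2 := sq_nonneg t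
  have hρt : ρ * t ≤ t / 12 := by nlinarith
  have hρt0 : 0 ≤ ρ * t := mul_nonneg hρ0 ht0
  have h1 : W * (1 - ρ ^ 2) ≤ W := by nlinarith
  have h2 : ρ * t * (2 - t ^ 2) ≤ 2 * (ρ * t) := by nlinarith
  have h3 : ρ ^ 2 * (7 + 17 * t ^ 2) ≤ 1 / 144 * (7 + 17 * t ^ 2) := by nlinarith
  rcases le_total t (2 / 25) with h | h
  · nlinarith
  · nlinarith

/-- the elementary inequality behind the high-noise theorem -/
theorem hn_final {p ρ W M2 M3 M4 : ℝ} (hp0 : 3 / 16 ≤ p) (hp1 : p ≤ 13 / 16)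
    (hρ0 : 0 ≤ ρ) (hρ1 : ρ ≤ 1 / 12) (hW0 : 0 ≤ W) (hW1 : W ≤ 576 / 625)
    (hW2 : W ≤ 2 * p) (hW3 : W ≤ 2 * (1 - p))
    (h2 : M2 ≤ ρ ^ 2 * (W / 4) + ρ ^ 4 * (p * (1 - p) - W / 4))
    (h3 : |M3| ≤ ρ ^ 3 * (p * (1 - p)) * (3 / 4 + 3 * (p * (1 - p))))
    (h4 : M4 ≤ 9 * ρ ^ 4 * (p * (1 - p)) ^ 2) :
    M2 / (2 * p * (1 - p)) + M3 / 6 * (1 / (1 - p) ^ 2 - 1 / p ^ 2)
      + M4 / 3 * (1 / p ^ 3 + 1 / (1 - p) ^ 3) ≤ ρ ^ 2 / 2 := by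
  have hp : 0 < p := by linarith
  have hq : 0 < 1 - p := by linarith
  set v := p * (1 - p) with hv
  have hv0 : 0 < v := mul_pos hp hq
  have hv1 : v ≤ 1 / 4 := by rw [hv]; nlinarith [sq_nonneg (2 * p - 1)]
  set t := |2 * p - 1| with ht
  have ht0 : 0 ≤ t := abs_nonneg _
  have ht1 : t ≤ 5 / 8 := by rw [ht, abs_le]; constructor <;> linarith
  have ht2 : t ^ 2 = 1 - 4 * v := by rw [ht, sq_abs, hv]; ring
  have hWt : W ≤ 1 - t := by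
    rw [ht]
    rcases abs_cases (2 * p - 1) with ⟨h, _⟩ | ⟨h, _⟩ <;> rw [h] <;> linarith
  -- first term
  have T1 : M2 / (2 * p * (1 - p)) ≤ (ρ ^ 2 * (W / 4) + ρ ^ 4 * (v - W / 4)) / (2 * v) := by
    have e : 2 * p * (1 - p) = 2 * v := by rw [hv]; ring
    rw [e]
    exact div_le_div_of_nonneg_right h2 (by positivity)
  -- second term
  have ec : 1 / (1 - p) ^ 2 - 1 / p ^ 2 = (2 * p - 1) / v ^ 2 := by
    rw [hv]; field_simp; ring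
  have T2 : M3 / 6 * (1 / (1 - p) ^ 2 - 1 / p ^ 2)
      ≤ ρ ^ 3 * v * (3 / 4 + 3 * v) / 6 * (t / v ^ 2) := by
    rw [ec]
    have habs : M3 / 6 * ((2 * p - 1) / v ^ 2) ≤ |M3| / 6 * (t / v ^ 2) := by
      have h1 : M3 / 6 * ((2 * p - 1) / v ^ 2) = (M3 * (2 * p - 1)) / (6 * v ^ 2) := by
        field_simp
      have h2' : |M3| / 6 * (t / v ^ 2) = (|M3| * t) / (6 * v ^ 2) := by
        field_simp
      rw [h1, h2']
      apply div_le_div_of_nonneg_right _ (by positivity)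
      calc M3 * (2 * p - 1) ≤ |M3 * (2 * p - 1)| := le_abs_self _
        _ = |M3| * t := by rw [abs_mul]
    refine habs.trans ?_
    apply mul_le_mul_of_nonneg_right _ (by positivity)
    exact div_le_div_of_nonneg_right h3 (by norm_num)
  -- third term
  have ee : 1 / p ^ 3 + 1 / (1 - p) ^ 3 = (1 - 3 * v) / v ^ 3 := by
    rw [hv]; field_simp; ring
  have he0 : 0 ≤ (1 - 3 * v) / v ^ 3 := by
    apply div_nonneg (by linarith) (by positivity)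
  have T3 : M4 / 3 * (1 / p ^ 3 + 1 / (1 - p) ^ 3)
      ≤ 9 * ρ ^ 4 * v ^ 2 / 3 * ((1 - 3 * v) / v ^ 3) := by
    rw [ee]
    apply mul_le_mul_of_nonneg_right _ he0
    exact div_le_div_of_nonneg_right h4 (by norm_num)
  -- the sum of the three bounds
  have core := hn_final_core ht0 ht1 hρ0 hρ1 hW0 hW1 hWt
  have hsum : (ρ ^ 2 * (W / 4) + ρ ^ 4 * (v - W / 4)) / (2 * v)
      + ρ ^ 3 * v * (3 / 4 + 3 * v) / 6 * (t / v ^ 2)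
      + 9 * ρ ^ 4 * v ^ 2 / 3 * ((1 - 3 * v) / v ^ 3)
      = ρ ^ 2 / (8 * v) * (W * (1 - ρ ^ 2) + ρ * t * (1 + 4 * v) + ρ ^ 2 * (24 - 68 * v)) := by
    field_simp
    ring
  have hbr : W * (1 - ρ ^ 2) + ρ * t * (1 + 4 * v) + ρ ^ 2 * (24 - 68 * v) ≤ 4 * v := by
    have e1 : 1 + 4 * v = 2 - t ^ 2 := by rw [ht2]; ring
    have e2 : 24 - 68 * v = 7 + 17 * t ^ 2 := by rw [ht2]; ring
    rw [e1, e2]
    linarith
  have hfin : ρ ^ 2 / (8 * v) * (W * (1 - ρ ^ 2) + ρ * t * (1 + 4 * v) + ρ ^ 2 * (24 - 68 * v))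
      ≤ ρ ^ 2 / (8 * v) * (4 * v) := by
    apply mul_le_mul_of_nonneg_left hbr (by positivity)
  have hlast : ρ ^ 2 / (8 * v) * (4 * v) = ρ ^ 2 / 2 := by
    field_simp
    ring
  linarith

end Vale.Agent.Lib.P322
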