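import Vale.Agent.Lib.P322.HNKL

namespace Vale.Agent.Lib.P322
open Finset

/-- the mutual information is bounded by the second, third and fourth central moments of the
posterior `P(f(X) = 1 | Y)`. -/
theorem info_le_moments {n : ℕ} {ε : ℝ} (h0 : 0 ≤ ε) (h1 : ε ≤ 1) (f : (Fin n → ℤˣ) → ℤˣ)
    (hp0 : 0 < probOne f) (hp1 : probOne f < 1) :
    infoFY ε f * Real.log 2
      ≤ avg (fun y => (post ε f 1 y - probOne f) ^ 2) / (2 * probOne f * (1 - probOne f))
        + avg (fun y => (post ε f 1 y - probOne f) ^ 3) / 6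
            * (1 / (1 - probOne f) ^ 2 - 1 / probOne f ^ 2)
        + avg (fun y => (post ε f 1 y - probOne f) ^ 4) / 3
            * (1 / probOne f ^ 3 + 1 / (1 - probOne f) ^ 3) := by
  have hN : (0 : ℝ) < 2 ^ n := by positivity
  have hL : 0 < Real.log 2 := Real.log_pos (by norm_num)
  obtain ⟨p, hp⟩ : ∃ p : ℝ, p = probOne f := ⟨_, rfl⟩
  rw [← hp] at hp0 hp1 ⊢
  have hq0 : ∀ y, 0 ≤ post ε f 1 y := fun y => post_nonneg h0 h1 f 1 y
  have hq1 : ∀ y, post ε f 1 y ≤ 1 := by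
    intro y
    have h2 := post_nonneg h0 h1 f (-1) y
    have h3 := post_add ε f y
    linarith
  have hsum : ∑ y, (post ε f 1 y - p) = 0 := by
    rw [Finset.sum_sub_distrib, sum_post, Finset.sum_const, Finset.card_univ, nsmul_eq_mul, hp,
      probOne_eq]
    have hcard : ((Fintype.card (Fin n → ℤˣ) : ℕ) : ℝ) = 2 ^ n := by
      simp
    rw [hcard]
    field_simp
    ring
  have hinfo : infoFY ε f * Real.log 2 =
      (∑ y, (Real.binEntropy p - Real.binEntropy (post ε f 1 y))) / 2 ^ n := by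
    rw [infoFY_eq, ← hp, Finset.sum_sub_distrib, Finset.sum_const, Finset.card_univ, nsmul_eq_mul]
    have hcard : ((Fintype.card (Fin n → ℤˣ) : ℕ) : ℝ) = 2 ^ n := by
      simp
    rw [hcard]
    unfold h2
    rw [← Finset.sum_div]
    field_simp
  have hkey : ∀ y, Real.binEntropy p - Real.binEntropy (post ε f 1 y) ≤
      (post ε f 1 y - p) * (Real.log p - Real.log (1 - p))
        + (post ε f 1 y - p) ^ 2 / (2 * p * (1 - p))
        + (post ε f 1 y - p) ^ 3 / 6 * (1 / (1 - p) ^ 2 - 1 / p ^ 2)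
        + (post ε f 1 y - p) ^ 4 / 3 * (1 / p ^ 3 + 1 / (1 - p) ^ 3) :=
    fun y => binEntropy_sub_le hp0 hp1 (hq0 y) (hq1 y)
  have hsumle := Finset.sum_le_sum (fun y (_ : y ∈ (Finset.univ : Finset (Fin n → ℤˣ))) => hkey y)
  rw [Finset.sum_add_distrib, Finset.sum_add_distrib, Finset.sum_add_distrib, ← Finset.sum_mul,
    ← Finset.sum_mul, ← Finset.sum_mul, ← Finset.sum_div, ← Finset.sum_div, ← Finset.sum_div,
    hsum, zero_mul, zero_add] at hsumle
  rw [hinfo]
  unfold avg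
  have h5 := div_le_div_of_nonneg_right hsumle hN.le
  calc (∑ y, (Real.binEntropy p - Real.binEntropy (post ε f 1 y))) / 2 ^ n
      ≤ ((∑ y, (post ε f 1 y - p) ^ 2) / (2 * p * (1 - p))
        + (∑ y, (post ε f 1 y - p) ^ 3) / 6 * (1 / (1 - p) ^ 2 - 1 / p ^ 2)
        + (∑ y, (post ε f 1 y - p) ^ 4) / 3 * (1 / p ^ 3 + 1 / (1 - p) ^ 3)) / 2 ^ n := h5
    _ = _ := by
      ring

end Vale.Agent.Lib.P322
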