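import Vale.Agent.Lib.P322.HNSlice

namespace Vale.Agent.Lib.P322
open Finset

/-- the auxiliary function whose sign gives the cubic bound for the logarithm -/
private noncomputable def hnklG (t : ℝ) : ℝ :=
  (t - 1) - (t - 1) ^ 2 / 2 + (t - 1) ^ 3 / 3 - Real.log t

private theorem hnklG_hasDerivAt {t : ℝ} (ht : 0 < t) :
    HasDerivAt hnklG ((t - 1) ^ 3 / t) t := by
  have h0 : HasDerivAt (fun s : ℝ => s - 1) 1 t := (hasDerivAt_id t).sub_const 1
  have h2 : HasDerivAt (fun s : ℝ => (s - 1) ^ 2) (2 * (t - 1) ^ 1 * 1) t := by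
    simpa using h0.fun_pow 2
  have h3 : HasDerivAt (fun s : ℝ => (s - 1) ^ 3) (3 * (t - 1) ^ 2 * 1) t := by
    simpa using h0.fun_pow 3
  have hl := Real.hasDerivAt_log ht.ne'
  have hsum := ((h0.sub (h2.div_const 2)).add (h3.div_const 3)).sub hl
  have heq : (1 - 2 * (t - 1) ^ 1 * 1 / 2 + 3 * (t - 1) ^ 2 * 1 / 3 - t⁻¹) = (t - 1) ^ 3 / t := by
    field_simp
    ring
  rw [← heq]
  exact hsum

private theorem hnklG_one : hnklG 1 = 0 := by
  simp [hnklG]

private theorem hnklG_nonneg {x : ℝ} (hx : 0 < x) : 0 ≤ hnklG x := by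
  rcases le_total 1 x with h | h
  · -- monotone on [1, ∞)
    have hmono : MonotoneOn hnklG (Set.Ici (1 : ℝ)) := by
      apply monotoneOn_of_deriv_nonneg (convex_Ici 1)
      · intro t ht
        exact (hnklG_hasDerivAt (lt_of_lt_of_le one_pos ht)).continuousAt.continuousWithinAt
      · intro t ht
        rw [interior_Ici] at ht
        exact (hnklG_hasDerivAt (lt_trans one_pos ht)).differentiableAt.differentiableWithinAt
      · intro t ht
        rw [interior_Ici] at ht
        have ht0 : 0 < t := lt_trans one_pos ht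
        rw [(hnklG_hasDerivAt ht0).deriv]
        have : 0 ≤ t - 1 := by
          have := Set.mem_Ioi.mp ht
          linarith
        positivity
    have := hmono (Set.mem_Ici.mpr le_rfl) (Set.mem_Ici.mpr h) h
    rwa [hnklG_one] at this
  · -- antitone on (0, 1]
    have hanti : AntitoneOn hnklG (Set.Ioc (0 : ℝ) 1) := by
      apply antitoneOn_of_deriv_nonpos (convex_Ioc 0 1)
      · intro t ht
        exact (hnklG_hasDerivAt ht.1).continuousAt.continuousWithinAt
      · intro t ht
        rw [interior_Ioc] at ht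
        exact (hnklG_hasDerivAt ht.1).differentiableAt.differentiableWithinAt
      · intro t ht
        rw [interior_Ioc] at ht
        rw [(hnklG_hasDerivAt ht.1).deriv]
        have h1 : t - 1 ≤ 0 := by linarith [ht.2]
        have h3 : (t - 1) ^ 3 ≤ 0 := by
          have : 0 ≤ (1 - t) ^ 3 := by
            have : 0 ≤ 1 - t := by linarith
            positivity
          nlinarith [this]
        exact div_nonpos_of_nonpos_of_nonneg h3 ht.1.le
    have := hanti (Set.mem_Ioc.mpr ⟨hx, h⟩) (Set.mem_Ioc.mpr ⟨one_pos, le_rfl⟩) h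
    rwa [hnklG_one] at this

theorem log_le_cubic {x : ℝ} (hx : 0 < x) :
    Real.log x ≤ (x - 1) - (x - 1) ^ 2 / 2 + (x - 1) ^ 3 / 3 := by
  have := hnklG_nonneg hx
  unfold hnklG at this
  linarith

/-- a fourth-order upper bound for the binary relative entropy `D(q‖p)` -/
theorem binEntropy_sub_le {p q : ℝ} (hp0 : 0 < p) (hp1 : p < 1) (hq0 : 0 ≤ q) (hq1 : q ≤ 1) :
    Real.binEntropy p - Real.binEntropy q
      ≤ (q - p) * (Real.log p - Real.log (1 - p))
        + (q - p) ^ 2 / (2 * p * (1 - p))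
        + (q - p) ^ 3 / 6 * (1 / (1 - p) ^ 2 - 1 / p ^ 2)
        + (q - p) ^ 4 / 3 * (1 / p ^ 3 + 1 / (1 - p) ^ 3) := by
  have hp1' : 0 < 1 - p := by linarith
  have hq1' : 0 ≤ 1 - q := by linarith
  -- the two pointwise facts
  have hA : q * (Real.log q - Real.log p)
      ≤ q * ((q / p - 1) - (q / p - 1) ^ 2 / 2 + (q / p - 1) ^ 3 / 3) := by
    rcases hq0.eq_or_lt with h | h
    · rw [← h]; simp
    · apply mul_le_mul_of_nonneg_left _ hq0
      rw [← Real.log_div h.ne' hp0.ne']
      exact log_le_cubic (div_pos h hp0)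
  have hB : (1 - q) * (Real.log (1 - q) - Real.log (1 - p))
      ≤ (1 - q) * (((1 - q) / (1 - p) - 1) - ((1 - q) / (1 - p) - 1) ^ 2 / 2
          + ((1 - q) / (1 - p) - 1) ^ 3 / 3) := by
    rcases hq1'.eq_or_lt with h | h
    · rw [← h]; simp
    · apply mul_le_mul_of_nonneg_left _ hq1'
      rw [← Real.log_div h.ne' hp1'.ne']
      exact log_le_cubic (div_pos h hp1')
  have hent : Real.binEntropy p - Real.binEntropy q
      = (q - p) * (Real.log p - Real.log (1 - p))
        + q * (Real.log q - Real.log p)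
        + (1 - q) * (Real.log (1 - q) - Real.log (1 - p)) := by
    rw [Real.binEntropy_eq_negMulLog_add_negMulLog_one_sub,
      Real.binEntropy_eq_negMulLog_add_negMulLog_one_sub]
    simp only [Real.negMulLog]
    ring
  have hpoly : q * ((q / p - 1) - (q / p - 1) ^ 2 / 2 + (q / p - 1) ^ 3 / 3)
      + (1 - q) * (((1 - q) / (1 - p) - 1) - ((1 - q) / (1 - p) - 1) ^ 2 / 2
          + ((1 - q) / (1 - p) - 1) ^ 3 / 3)
      = (q - p) ^ 2 / (2 * p * (1 - p))
        + (q - p) ^ 3 / 6 * (1 / (1 - p) ^ 2 - 1 / p ^ 2)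
        + (q - p) ^ 4 / 3 * (1 / p ^ 3 + 1 / (1 - p) ^ 3) := by
    have hpne : p ≠ 0 := hp0.ne'
    have hpne' : 1 - p ≠ 0 := hp1'.ne'
    field_simp
    ring
  rw [hent]
  linarith

end Vale.Agent.Lib.P322
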