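import Vale.Agent.Lib.P322.HNBonami

namespace Vale.Agent.Lib.P322
open Finset

/-- second moment of the noise operator with the level-one weight:
`E (T u)^2 ≤ (E u)^2 + σ² W₁(u) + σ⁴ (Var u - W₁(u))`, `σ = 1 - 2ε`. -/
theorem noise_sq_le_wt1 {n : ℕ} (ε : ℝ) (hσ : (1 - 2 * ε) ^ 2 ≤ 1) (u : (Fin n → ℤˣ) → ℝ) :
    avg (fun y => noise ε u y ^ 2)
      ≤ avg u ^ 2 + (1 - 2 * ε) ^ 2 * wt1 u
        + (1 - 2 * ε) ^ 4 * (avg (fun x => u x ^ 2) - avg u ^ 2 - wt1 u) := by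
  induction n with
  | zero =>
    have h1 : (fun y => noise ε u y ^ 2) = fun y => u y ^ 2 := by
      funext y
      rw [noise_zero]
    rw [h1, wt1_zero, avg_zero, avg_zero]
    simp
  | succ n ih =>
    have hA := ih (slA u)
    have hB := noise_sq_le ε hσ (slB u)
    have hs : 0 ≤ (1 - 2 * ε) ^ 2 := sq_nonneg _
    have hB' := mul_le_mul_of_nonneg_left hB hs
    rw [avg_noise_sq_cons, avg_slA u, avg_sq_cons, wt1_cons]
    linarith

end Vale.Agent.Lib.P322
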