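import Vale.Agent.Lib.P322.HNDefs

namespace Vale.Agent.Lib.P322
open Finset

/-! Slice decomposition of functions on the `(n+1)`-cube, used for inductions over `n`. -/

lemma avg_add {n : ℕ} (u v : (Fin n → ℤˣ) → ℝ) :
    avg (fun x => u x + v x) = avg u + avg v := by
  unfold avg
  rw [Finset.sum_add_distrib, add_div]

lemma avg_sub {n : ℕ} (u v : (Fin n → ℤˣ) → ℝ) :
    avg (fun x => u x - v x) = avg u - avg v := by
  unfold avg
  rw [Finset.sum_sub_distrib, sub_div]

lemma avg_const_mul {n : ℕ} (c : ℝ) (u : (Fin n → ℤˣ) → ℝ) :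
    avg (fun x => c * u x) = c * avg u := by
  unfold avg
  rw [← Finset.mul_sum, mul_div_assoc]

lemma avg_const {n : ℕ} (c : ℝ) : avg (fun _ : Fin n → ℤˣ => c) = c := by
  unfold avg
  simp

lemma avg_mono {n : ℕ} {u v : (Fin n → ℤˣ) → ℝ} (h : ∀ x, u x ≤ v x) : avg u ≤ avg v := by
  unfold avg
  exact div_le_div_of_nonneg_right (Finset.sum_le_sum (fun x _ => h x)) (by positivity)

lemma avg_congr {n : ℕ} {u v : (Fin n → ℤˣ) → ℝ} (h : ∀ x, u x = v x) : avg u = avg v := by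
  have : u = v := funext h
  rw [this]

/-- Cauchy-Schwarz for averages -/
lemma avg_mul_sq_le {n : ℕ} (u v : (Fin n → ℤˣ) → ℝ) :
    avg (fun x => u x * v x) ^ 2 ≤ avg (fun x => u x ^ 2) * avg (fun x => v x ^ 2) := by
  unfold avg
  have h := Finset.sum_mul_sq_le_sq_mul_sq (Finset.univ : Finset (Fin n → ℤˣ)) u v
  have hN : (0:ℝ) < 2 ^ n := by positivity
  rw [div_pow, div_mul_div_comm, ← sq]
  exact div_le_div_of_nonneg_right h (by positivity)

lemma avg_sq_le {n : ℕ} (u : (Fin n → ℤˣ) → ℝ) : avg u ^ 2 ≤ avg (fun x => u x ^ 2) := by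
  have h := avg_mul_sq_le u (fun _ => 1)
  simp only [mul_one, one_pow] at h
  rw [avg_const, mul_one] at h
  exact h

/-- half-sum of the two slices -/
noncomputable def slA {n : ℕ} (g : (Fin (n + 1) → ℤˣ) → ℝ) : (Fin n → ℤˣ) → ℝ :=
  fun x' => (sl g 1 x' + sl g (-1) x') / 2

/-- half-difference of the two slices -/
noncomputable def slB {n : ℕ} (g : (Fin (n + 1) → ℤˣ) → ℝ) : (Fin n → ℤˣ) → ℝ :=
  fun x' => (sl g 1 x' - sl g (-1) x') / 2

lemma noise_lin {n : ℕ} (ε a b : ℝ) (u v : (Fin n → ℤˣ) → ℝ) (y : Fin n → ℤˣ) :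
    noise ε (fun x => a * u x + b * v x) y = a * noise ε u y + b * noise ε v y := by
  unfold noise
  rw [Finset.mul_sum, Finset.mul_sum, ← Finset.sum_add_distrib]
  apply Finset.sum_congr rfl
  intro x _
  ring

lemma w1_one_one (ε : ℝ) : w1 ε 1 1 = 1 - ε := by simp [w1]

lemma w1_neg_one (ε : ℝ) : w1 ε (-1) 1 = ε := by
  have : ¬ ((-1 : ℤˣ) = 1) := by decide
  simp [w1, this]

lemma w1_one_neg (ε : ℝ) : w1 ε 1 (-1) = ε := by
  have : ¬ ((1 : ℤˣ) = -1) := by decide
  simp [w1, this]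

lemma w1_neg_neg (ε : ℝ) : w1 ε (-1) (-1) = 1 - ε := by simp [w1]

lemma sl_noise_one {n : ℕ} (ε : ℝ) (g : (Fin (n + 1) → ℤˣ) → ℝ) (y' : Fin n → ℤˣ) :
    sl (noise ε g) 1 y' = noise ε (slA g) y' + (1 - 2 * ε) * noise ε (slB g) y' := by
  rw [noise_cons, w1_one_one, w1_neg_one]
  have h := noise_lin ε 1 (1 - 2 * ε) (slA g) (slB g) y'
  rw [one_mul] at h
  rw [← h]
  congr 1
  funext x'
  unfold slA slB
  ring

lemma sl_noise_neg {n : ℕ} (ε : ℝ) (g : (Fin (n + 1) → ℤˣ) → ℝ) (y' : Fin n → ℤˣ) :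
    sl (noise ε g) (-1) y' = noise ε (slA g) y' - (1 - 2 * ε) * noise ε (slB g) y' := by
  rw [noise_cons, w1_one_neg, w1_neg_neg]
  have h := noise_lin ε 1 (-(1 - 2 * ε)) (slA g) (slB g) y'
  rw [one_mul] at h
  have e : noise ε (slA g) y' - (1 - 2 * ε) * noise ε (slB g) y'
      = noise ε (slA g) y' + -(1 - 2 * ε) * noise ε (slB g) y' := by ring
  rw [e, ← h]
  congr 1
  funext x'
  unfold slA slB
  ring

lemma avg_slA {n : ℕ} (g : (Fin (n + 1) → ℤˣ) → ℝ) : avg g = avg (slA g) := by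
  rw [avg_cons]
  unfold slA
  have h := avg_lin (1 / 2) (1 / 2) (sl g 1) (sl g (-1))
  have e : (fun x' : Fin n → ℤˣ => (sl g 1 x' + sl g (-1) x') / 2)
      = fun x' => 1 / 2 * sl g 1 x' + 1 / 2 * sl g (-1) x' := by
    funext x'; ring
  rw [e, h]
  ring

lemma avg_slB {n : ℕ} (g : (Fin (n + 1) → ℤˣ) → ℝ) :
    avg (slB g) = (avg (sl g 1) - avg (sl g (-1))) / 2 := by
  unfold slB
  have h := avg_lin (1 / 2) (-(1 / 2)) (sl g 1) (sl g (-1))
  have e : (fun x' : Fin n → ℤˣ => (sl g 1 x' - sl g (-1) x') / 2)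
      = fun x' => 1 / 2 * sl g 1 x' + -(1 / 2) * sl g (-1) x' := by
    funext x'; ring
  rw [e, h]
  ring

/-- averaging a function of the two slices -/
lemma avg_cons_fun {n : ℕ} (g : (Fin (n + 1) → ℤˣ) → ℝ) (F : ℝ → ℝ) :
    avg (fun x => F (g x))
      = avg (fun x' => (F (slA g x' + slB g x') + F (slA g x' - slB g x')) / 2) := by
  rw [avg_cons]
  have e1 : sl (fun x => F (g x)) 1 = fun x' => F (slA g x' + slB g x') := by
    funext x'
    simp only [sl, slA, slB]
    congr 1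
    ring
  have e2 : sl (fun x => F (g x)) (-1) = fun x' => F (slA g x' - slB g x') := by
    funext x'
    simp only [sl, slA, slB]
    congr 1
    ring
  rw [e1, e2]
  have h := avg_lin (1 / 2) (1 / 2) (fun x' => F (slA g x' + slB g x'))
    (fun x' => F (slA g x' - slB g x'))
  have e : (fun x' : Fin n → ℤˣ => (F (slA g x' + slB g x') + F (slA g x' - slB g x')) / 2)
      = fun x' => 1 / 2 * F (slA g x' + slB g x') + 1 / 2 * F (slA g x' - slB g x') := by
    funext x'; ring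
  rw [e, h]
  ring

lemma avg_sq_cons {n : ℕ} (g : (Fin (n + 1) → ℤˣ) → ℝ) :
    avg (fun x => g x ^ 2) = avg (fun x' => slA g x' ^ 2) + avg (fun x' => slB g x' ^ 2) := by
  rw [avg_cons_fun g (fun t => t ^ 2), ← avg_add]
  apply avg_congr
  intro x'
  ring

/-- averaging a function of the noisy version over the `(n+1)`-cube -/
lemma avg_noise_cons_fun {n : ℕ} (ε : ℝ) (g : (Fin (n + 1) → ℤˣ) → ℝ) (F : ℝ → ℝ) :
    avg (fun y => F (noise ε g y))
      = avg (fun y' => (F (noise ε (slA g) y' + (1 - 2 * ε) * noise ε (slB g) y')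
          + F (noise ε (slA g) y' - (1 - 2 * ε) * noise ε (slB g) y')) / 2) := by
  rw [avg_cons]
  have e1 : sl (fun y => F (noise ε g y)) 1
      = fun y' => F (noise ε (slA g) y' + (1 - 2 * ε) * noise ε (slB g) y') := by
    funext y'
    have := sl_noise_one ε g y'
    simp only [sl] at this ⊢
    rw [this]
  have e2 : sl (fun y => F (noise ε g y)) (-1)
      = fun y' => F (noise ε (slA g) y' - (1 - 2 * ε) * noise ε (slB g) y') := by
    funext y'
    have := sl_noise_neg ε g y'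
    simp only [sl] at this ⊢
    rw [this]
  rw [e1, e2]
  have h := avg_lin (1 / 2) (1 / 2)
    (fun y' => F (noise ε (slA g) y' + (1 - 2 * ε) * noise ε (slB g) y'))
    (fun y' => F (noise ε (slA g) y' - (1 - 2 * ε) * noise ε (slB g) y'))
  have e : (fun y' : Fin n → ℤˣ => (F (noise ε (slA g) y' + (1 - 2 * ε) * noise ε (slB g) y')
          + F (noise ε (slA g) y' - (1 - 2 * ε) * noise ε (slB g) y')) / 2)
      = fun y' => 1 / 2 * F (noise ε (slA g) y' + (1 - 2 * ε) * noise ε (slB g) y')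
          + 1 / 2 * F (noise ε (slA g) y' - (1 - 2 * ε) * noise ε (slB g) y') := by
    funext y'; ring
  rw [e, h]
  ring

lemma avg_noise_sq_cons {n : ℕ} (ε : ℝ) (g : (Fin (n + 1) → ℤˣ) → ℝ) :
    avg (fun y => noise ε g y ^ 2)
      = avg (fun y' => noise ε (slA g) y' ^ 2)
        + (1 - 2 * ε) ^ 2 * avg (fun y' => noise ε (slB g) y' ^ 2) := by
  rw [avg_noise_cons_fun ε g (fun t => t ^ 2), ← avg_const_mul, ← avg_add]
  apply avg_congr
  intro y'
  ring

lemma avg_noise_fourth_cons {n : ℕ} (ε : ℝ) (g : (Fin (n + 1) → ℤˣ) → ℝ) :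
    avg (fun y => noise ε g y ^ 4)
      = avg (fun y' => noise ε (slA g) y' ^ 4)
        + 6 * (1 - 2 * ε) ^ 2
            * avg (fun y' => noise ε (slA g) y' ^ 2 * noise ε (slB g) y' ^ 2)
        + (1 - 2 * ε) ^ 4 * avg (fun y' => noise ε (slB g) y' ^ 4) := by
  rw [avg_noise_cons_fun ε g (fun t => t ^ 4), ← avg_const_mul, ← avg_const_mul, ← avg_add,
    ← avg_add]
  apply avg_congr
  intro y'
  ring

/-- on the `0`-cube the noise operator is the identity -/
lemma noise_zero (ε : ℝ) (u : (Fin 0 → ℤˣ) → ℝ) (y : Fin 0 → ℤˣ) : noise ε u y = u y := by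
  unfold noise W
  simp only [Finset.univ_eq_empty, Finset.prod_empty, mul_one]
  rw [Fintype.sum_subsingleton _ y]

lemma avg_zero (u : (Fin 0 → ℤˣ) → ℝ) : avg u = u (fun i => Fin.elim0 i) := by
  unfold avg
  rw [Fintype.sum_subsingleton _ (fun i => Fin.elim0 i)]
  simp

lemma coef_zero {n : ℕ} (g : (Fin (n + 1) → ℤˣ) → ℝ) : coef g 0 = avg (slB g) := by
  unfold coef
  rw [avg_cons, avg_slB]
  have e1 : sl (fun x => g x * sgn (x 0)) 1 = sl g 1 := by
    funext x'
    unfold sl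
    simp [sgn_one]
  have e2 : sl (fun x => g x * sgn (x 0)) (-1) = fun x' => -1 * sl g (-1) x' := by
    funext x'
    unfold sl
    simp [sgn_neg_one]
  rw [e1, e2, avg_const_mul]
  ring

lemma coef_succ {n : ℕ} (g : (Fin (n + 1) → ℤˣ) → ℝ) (j : Fin n) :
    coef g (Fin.succ j) = coef (slA g) j := by
  unfold coef
  rw [avg_cons]
  have e1 : sl (fun x => g x * sgn (x (Fin.succ j))) 1 = fun x' => sl g 1 x' * sgn (x' j) := by
    funext x'
    unfold sl
    simp
  have e2 : sl (fun x => g x * sgn (x (Fin.succ j))) (-1)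
      = fun x' => sl g (-1) x' * sgn (x' j) := by
    funext x'
    unfold sl
    simp
  rw [e1, e2]
  have h := avg_lin (1 / 2) (1 / 2) (fun x' => sl g 1 x' * sgn (x' j))
    (fun x' => sl g (-1) x' * sgn (x' j))
  have e : (fun x' : Fin n → ℤˣ => slA g x' * sgn (x' j))
      = fun x' => 1 / 2 * (sl g 1 x' * sgn (x' j)) + 1 / 2 * (sl g (-1) x' * sgn (x' j)) := by
    funext x'; unfold slA; ring
  rw [e, h]
  ring

lemma wt1_cons {n : ℕ} (g : (Fin (n + 1) → ℤˣ) → ℝ) :
    wt1 g = avg (slB g) ^ 2 + wt1 (slA g) := by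
  unfold wt1
  rw [Fin.sum_univ_succ, coef_zero]
  simp_rw [coef_succ]

lemma wt1_zero (u : (Fin 0 → ℤˣ) → ℝ) : wt1 u = 0 := by
  unfold wt1
  simp

/-- a linear form on the `(n+1)`-cube in terms of its tail -/
lemma linf_cons {n : ℕ} (a : Fin (n + 1) → ℝ) (s : ℤˣ) (x' : Fin n → ℤˣ) :
    linf a (Fin.cons s x') = a 0 * sgn s + linf (fun j => a (Fin.succ j)) x' := by
  unfold linf
  rw [Fin.sum_univ_succ]
  simp

lemma linf_zero (a : Fin 0 → ℝ) (x : Fin 0 → ℤˣ) : linf a x = 0 := by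
  unfold linf
  simp

/-- averaging a function of a linear form over the `(n+1)`-cube -/
lemma avg_linf_cons {n : ℕ} (a : Fin (n + 1) → ℝ) (F : ℝ → ℝ) :
    avg (fun x => F (linf a x))
      = avg (fun x' => (F (a 0 + linf (fun j => a (Fin.succ j)) x')
          + F (- a 0 + linf (fun j => a (Fin.succ j)) x')) / 2) := by
  rw [avg_cons]
  have e1 : sl (fun x => F (linf a x)) 1
      = fun x' => F (a 0 + linf (fun j => a (Fin.succ j)) x') := by
    funext x'
    simp only [sl]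
    rw [linf_cons, sgn_one, mul_one]
  have e2 : sl (fun x => F (linf a x)) (-1)
      = fun x' => F (- a 0 + linf (fun j => a (Fin.succ j)) x') := by
    funext x'
    simp only [sl]
    rw [linf_cons, sgn_neg_one, mul_neg, mul_one]
  rw [e1, e2]
  have h := avg_lin (1 / 2) (1 / 2) (fun x' => F (a 0 + linf (fun j => a (Fin.succ j)) x'))
    (fun x' => F (- a 0 + linf (fun j => a (Fin.succ j)) x'))
  have e : (fun x' : Fin n → ℤˣ => (F (a 0 + linf (fun j => a (Fin.succ j)) x')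
          + F (- a 0 + linf (fun j => a (Fin.succ j)) x')) / 2)
      = fun x' => 1 / 2 * F (a 0 + linf (fun j => a (Fin.succ j)) x')
          + 1 / 2 * F (- a 0 + linf (fun j => a (Fin.succ j)) x') := by
    funext x'; ring
  rw [e, h]
  ring

end Vale.Agent.Lib.P322
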