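import Vale.Agent.Lib.P322.ChainInfo
import Vale.Agent.Lib.P322.DefsOrder

namespace Vale.Agent.Lib.P322
open Finset

/-- relabelling of the cube by a permutation of the coordinates -/
def relabel {n : ℕ} (π : Equiv.Perm (Fin n)) : (Fin n → ℤˣ) ≃ (Fin n → ℤˣ) where
  toFun x := fun j => x (π j)
  invFun x := fun j => x (π.symm j)
  left_inv x := by funext j; simp
  right_inv x := by funext j; simp

lemma relabel_apply {n : ℕ} (π : Equiv.Perm (Fin n)) (x : Fin n → ℤˣ) (j : Fin n) :
    relabel π x j = x (π j) := rfl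

lemma relabel_symm_apply {n : ℕ} (π : Equiv.Perm (Fin n)) (x : Fin n → ℤˣ) (j : Fin n) :
    (relabel π).symm x j = x (π.symm j) := rfl

lemma condMeanOrd_eq {n : ℕ} (g : (Fin n → ℤˣ) → ℝ) (π : Equiv.Perm (Fin n)) (i : ℕ)
    (x : Fin n → ℤˣ) :
    condMeanOrd g π i x = condMean (fun z => g ((relabel π).symm z)) i (relabel π x) := by
  unfold condMeanOrd condMean
  have hiff : ∀ z : Fin n → ℤˣ, (∀ j : Fin n, (j : ℕ) < i → (relabel π).symm z (π j) = x (π j))
      ↔ (∀ j : Fin n, (j : ℕ) < i → z j = relabel π x j) := by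
    intro z
    simp only [relabel_symm_apply, relabel_apply, Equiv.symm_apply_apply]
  congr 1
  · rw [← Equiv.sum_comp (relabel π).symm]
    apply Finset.sum_congr rfl
    intro z _
    exact if_congr (hiff z) rfl rfl
  · rw [← Equiv.sum_comp (relabel π).symm]
    apply Finset.sum_congr rfl
    intro z _
    exact if_congr (hiff z) rfl rfl

lemma qvarOrd_eq {n : ℕ} (f : (Fin n → ℤˣ) → ℤˣ) (π : Equiv.Perm (Fin n)) :
    qvarOrd f π = qvarDoob (fun z => f ((relabel π).symm z)) := by
  unfold qvarOrd qvarDoob doobOrd doob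
  congr 1
  have hre := Equiv.sum_comp (relabel π) (fun x' : Fin n → ℤˣ => ∑ i ∈ Finset.range n,
      (condMean (fun z => if f ((relabel π).symm z) = 1 then (1:ℝ) else 0) (i + 1) x'
        - condMean (fun z => if f ((relabel π).symm z) = 1 then (1:ℝ) else 0) i x') ^ 2 /
      (condMean (fun z => if f ((relabel π).symm z) = 1 then (1:ℝ) else 0) i x'
        * (1 - condMean (fun z => if f ((relabel π).symm z) = 1 then (1:ℝ) else 0) i x')))
  rw [← hre]
  apply Finset.sum_congr rfl
  intro x _
  apply Finset.sum_congr rfl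
  intro i _
  rw [condMeanOrd_eq, condMeanOrd_eq]

lemma W_relabel {n : ℕ} (ε : ℝ) (π : Equiv.Perm (Fin n)) (x y : Fin n → ℤˣ) :
    W ε (relabel π x) y = W ε x ((relabel π).symm y) := by
  unfold W
  rw [← Equiv.prod_comp π (fun k => if x k = (relabel π).symm y k then 1 - ε else ε)]
  apply Finset.prod_congr rfl
  intro j _
  have h : (relabel π x j = y j) ↔ (x (π j) = (relabel π).symm y (π j)) := by
    simp only [relabel_symm_apply, relabel_apply, Equiv.symm_apply_apply]
  exact if_congr h rfl rfl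

lemma infoFY_relabel {n : ℕ} (ε : ℝ) (f : (Fin n → ℤˣ) → ℤˣ) (π : Equiv.Perm (Fin n)) :
    infoFY ε (fun z => f ((relabel π).symm z)) = infoFY ε f := by
  rw [infoFY_eq, infoFY_eq]
  have hp : probOne (fun z => f ((relabel π).symm z)) = probOne f := by
    unfold probOne
    rw [Finset.card_filter, Finset.card_filter]
    push_cast
    congr 1
    exact Equiv.sum_comp (relabel π).symm (fun x => if f x = 1 then (1:ℝ) else 0)
  have hpost : ∀ y, post ε (fun z => f ((relabel π).symm z)) 1 y
      = post ε f 1 ((relabel π).symm y) := by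
    intro y
    unfold post
    rw [← Equiv.sum_comp (relabel π)]
    apply Finset.sum_congr rfl
    intro x _
    simp only [Equiv.symm_apply_apply, W_relabel]
  rw [hp]
  simp_rw [hpost]
  rw [Equiv.sum_comp (relabel π).symm (fun y => h2 (post ε f 1 y))]

theorem info_le_qvarOrd {n : ℕ} {ε : ℝ} (h0 : 0 ≤ ε) (h1 : ε ≤ 1) (f : (Fin n → ℤˣ) → ℤˣ)
    (π : Equiv.Perm (Fin n)) : infoFY ε f ≤ qvarOrd f π * (1 - h2 ε) := by
  rw [qvarOrd_eq, ← infoFY_relabel ε f π]
  exact info_le_qvar h0 h1 _

end Vale.Agent.Lib.P322
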