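import Vale.Agent.Lib.P322.HalfCubeAnalytic
import Vale.Agent.Lib.P322.Order

namespace Vale.Agent.Lib.P322
open Finset

/-- the information in nats as a sum of two entropies of noisy indicators -/
lemma info_eq_ent {n : ℕ} (ε : ℝ) (f : (Fin n → ℤˣ) → ℤˣ) :
    infoFY ε f * Real.log 2 = ent (noise ε (fun x => if f x = 1 then (1:ℝ) else 0))
      + ent (noise ε (fun x => if f x = 1 then (0:ℝ) else 1)) := by
  have hN : (0:ℝ) < 2 ^ n := by positivity
  have hL : 0 < Real.log 2 := Real.log_pos (by norm_num)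
  set b : (Fin n → ℤˣ) → ℝ := fun x => if f x = 1 then 1 else 0 with hb
  set b' : (Fin n → ℤˣ) → ℝ := fun x => if f x = 1 then 0 else 1 with hb'
  have hpost : ∀ y, noise ε b y = post ε f 1 y := by
    intro y
    unfold noise post
    apply Finset.sum_congr rfl
    intro x _
    rw [hb]; dsimp only
    split_ifs <;> simp
  have hpost' : ∀ y, noise ε b' y = 1 - post ε f 1 y := by
    intro y
    rw [← hpost y, ← sum_W_left ε y]
    unfold noise
    rw [← Finset.sum_sub_distrib]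
    apply Finset.sum_congr rfl
    intro x _
    rw [hb, hb']; dsimp only
    split_ifs <;> simp
  have havg : avg b = probOne f := by
    unfold avg probOne
    rw [Finset.card_filter]
    push_cast
    rfl
  have havg' : avg b' = 1 - probOne f := by
    have e : b' = fun x => 1 * (fun _ => (1:ℝ)) x + (-1) * b x := by
      funext x; rw [hb, hb']; dsimp only; split_ifs <;> norm_num
    rw [e, avg_lin, havg]
    unfold avg
    simp
    ring
  have hn1 : ent (noise ε b) = (∑ y, kap (post ε f 1 y)) / 2 ^ n - kap (probOne f) := by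
    unfold ent
    rw [avg_noise, havg]
    unfold avg
    simp_rw [hpost]
  have hn2 : ent (noise ε b') = (∑ y, kap (1 - post ε f 1 y)) / 2 ^ n - kap (1 - probOne f) := by
    unfold ent
    rw [avg_noise, havg']
    unfold avg
    simp_rw [hpost']
  rw [hn1, hn2, infoFY_eq]
  unfold h2
  simp_rw [binEntropy_kap]
  rw [← Finset.sum_div, Finset.sum_sub_distrib, Finset.sum_neg_distrib]
  field_simp
  ring

lemma avg_const_one (n : ℕ) : avg (fun _ : Fin n → ℤˣ => (1:ℝ)) = 1 := by
  unfold avg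
  simp

lemma avg_one_sub {n : ℕ} (g : (Fin n → ℤˣ) → ℝ) : avg (fun x => 1 - g x) = 1 - avg g := by
  have e : (fun x => 1 - g x) = fun x => 1 * (fun _ => (1:ℝ)) x + (-1) * g x := by
    funext x; ring
  rw [e, avg_lin, avg_const_one]
  ring

lemma ent_two_valued {n : ℕ} (g : (Fin n → ℤˣ) → ℝ) (hg : ∀ x, g x = 0 ∨ g x = 1) (a b : ℝ) :
    ent (fun x => a * g x + b * (1 - g x))
      = avg g * kap a + (1 - avg g) * kap b - kap (a * avg g + b * (1 - avg g)) := by
  unfold ent
  have e1 : (fun x => kap (a * g x + b * (1 - g x)))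
      = fun x => kap a * g x + kap b * (fun x => 1 - g x) x := by
    funext x
    rcases hg x with h | h <;> simp [h]
  have e2 : avg (fun x => a * g x + b * (1 - g x)) = a * avg g + b * (1 - avg g) := by
    have := avg_lin a b g (fun x => 1 - g x)
    rw [avg_one_sub] at this
    exact this
  rw [e1, e2, avg_lin, avg_one_sub]
  ring

lemma w1_vals (ε : ℝ) : w1 ε 1 1 = 1 - ε ∧ w1 ε (-1) 1 = ε ∧ w1 ε 1 (-1) = ε
    ∧ w1 ε (-1) (-1) = 1 - ε := by
  have h1 : ¬ ((-1 : ℤˣ) = 1) := by decide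
  have h2 : ¬ ((1 : ℤˣ) = -1) := by decide
  simp [w1, h1, h2]

/-- one step of the chain rule followed by the contraction inequality on the other
coordinates -/
lemma ent_noise_le {n : ℕ} {ε : ℝ} (h0 : 0 ≤ ε) (h1 : ε ≤ 1) (G : (Fin (n + 1) → ℤˣ) → ℝ)
    (hG : ∀ x, 0 ≤ G x) :
    ent (noise ε G) ≤ (1 - 2 * ε) ^ 2
        * ((ent (fun x' => (1 - ε) * sl G 1 x' + ε * sl G (-1) x')
          + ent (fun x' => ε * sl G 1 x' + (1 - ε) * sl G (-1) x')) / 2)
      + ((kap ((1 - ε) * avg (sl G 1) + ε * avg (sl G (-1)))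
          + kap (ε * avg (sl G 1) + (1 - ε) * avg (sl G (-1)))) / 2
          - kap ((avg (sl G 1) + avg (sl G (-1))) / 2)) := by
  obtain ⟨hw11, hw12, hw21, hw22⟩ := w1_vals ε
  have hs1 : ∀ x', 0 ≤ sl G 1 x' := fun x' => hG _
  have hs2 : ∀ x', 0 ≤ sl G (-1) x' := fun x' => hG _
  set c1 : (Fin n → ℤˣ) → ℝ := fun x' => (1 - ε) * sl G 1 x' + ε * sl G (-1) x' with hc1
  set c2 : (Fin n → ℤˣ) → ℝ := fun x' => ε * sl G 1 x' + (1 - ε) * sl G (-1) x' with hc2
  have hn1 : sl (noise ε G) 1 = noise ε c1 := by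
    rw [noise_cons, hw11, hw12]
  have hn2 : sl (noise ε G) (-1) = noise ε c2 := by
    rw [noise_cons, hw21, hw22]
  have hc1n : ∀ x', 0 ≤ c1 x' := by
    intro x'
    rw [hc1]
    have h3 : 0 ≤ (1 - ε) * sl G 1 x' := mul_nonneg (by linarith) (hs1 x')
    have h4 : 0 ≤ ε * sl G (-1) x' := mul_nonneg h0 (hs2 x')
    exact add_nonneg h3 h4
  have hc2n : ∀ x', 0 ≤ c2 x' := by
    intro x'
    rw [hc2]
    have h3 : 0 ≤ ε * sl G 1 x' := mul_nonneg h0 (hs1 x')
    have h4 : 0 ≤ (1 - ε) * sl G (-1) x' := mul_nonneg (by linarith) (hs2 x')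
    exact add_nonneg h3 h4
  have ih1 := sdpi n ε h0 h1 c1 hc1n
  have ih2 := sdpi n ε h0 h1 c2 hc2n
  have ha1 : avg (noise ε c1) = (1 - ε) * avg (sl G 1) + ε * avg (sl G (-1)) := by
    rw [avg_noise, hc1, avg_lin]
  have ha2 : avg (noise ε c2) = ε * avg (sl G 1) + (1 - ε) * avg (sl G (-1)) := by
    rw [avg_noise, hc2, avg_lin]
  rw [ent_cons (noise ε G), hn1, hn2, ha1, ha2]
  have hmid : ((1 - ε) * avg (sl G 1) + ε * avg (sl G (-1))
      + (ε * avg (sl G 1) + (1 - ε) * avg (sl G (-1)))) / 2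
      = (avg (sl G 1) + avg (sl G (-1))) / 2 := by ring
  rw [hmid]
  linarith

lemma ent_two_valued' {n : ℕ} (g : (Fin n → ℤˣ) → ℝ) (hg : ∀ x, g x = 0 ∨ g x = 1) (a b m : ℝ)
    (c : (Fin n → ℤˣ) → ℝ) (hc : ∀ x, c x = a * g x + b * (1 - g x))
    (hm : m = a * avg g + b * (1 - avg g)) :
    ent c = avg g * kap a + (1 - avg g) * kap b - kap m := by
  have : c = fun x => a * g x + b * (1 - g x) := funext hc
  rw [this, hm]
  exact ent_two_valued g hg a b

lemma core_alg {ε t : ℝ} (h0 : 0 ≤ ε) (h1 : ε ≤ 1 / 2) (ht0 : 0 ≤ t) (ht1 : t ≤ 1) :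
    (1 - 2 * ε) ^ 2 * (((t * kap ε + (1 - t) * kap 0 - kap (ε * t))
        + (t * kap (1 - ε) + (1 - t) * kap 0 - kap ((1 - ε) * t))) / 2)
      + ((kap (ε * t) + kap ((1 - ε) * t)) / 2 - kap (t / 2))
      + ((1 - 2 * ε) ^ 2 * (((t * kap (1 - ε) + (1 - t) * kap 1 - kap (1 - ε * t))
        + (t * kap ε + (1 - t) * kap 1 - kap (1 - (1 - ε) * t))) / 2)
      + ((kap (1 - ε * t) + kap (1 - (1 - ε) * t)) / 2 - kap (1 - t / 2)))
      ≤ Real.log 2 - Real.binEntropy ε := by
  have hF := Ffun_nonneg h0 h1 ht0 ht1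
  unfold Ffun at hF
  simp only [binEntropy_kap] at hF ⊢
  rw [kap_zero, kap_one]
  nlinarith [hF]

lemma avg_mem_unit {n : ℕ} (g : (Fin n → ℤˣ) → ℝ) (hg : ∀ x, g x = 0 ∨ g x = 1) :
    0 ≤ avg g ∧ avg g ≤ 1 := by
  constructor
  · apply avg_nonneg
    intro x; rcases hg x with h | h <;> simp [h]
  · have h1 : 0 ≤ avg (fun x => 1 - g x) := by
      apply avg_nonneg
      intro x; rcases hg x with h | h <;> simp [h]
    rw [avg_one_sub] at h1
    linarith

lemma avg_const_zero (n : ℕ) : avg (fun _ : Fin n → ℤˣ => (0:ℝ)) = 0 := by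
  unfold avg
  simp

lemma halfcube_core {n : ℕ} {ε : ℝ} (h0 : 0 ≤ ε) (h1 : ε ≤ 1 / 2) (G : (Fin (n + 1) → ℤˣ) → ℝ)
    (hG01 : ∀ x, G x = 0 ∨ G x = 1) (s : ℤˣ) (hs : ∀ x, x 0 = s → G x = 0) :
    ent (noise ε G) + ent (noise ε (fun x => 1 - G x)) ≤ Real.log 2 - Real.binEntropy ε := by
  have h1' : ε ≤ 1 := by linarith
  have hGn : ∀ x, 0 ≤ G x := by
    intro x; rcases hG01 x with h | h <;> simp [h]
  have hGn' : ∀ x, 0 ≤ (fun x => 1 - G x) x := by
    intro x; rcases hG01 x with h | h <;> simp [h]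
  have b1 := ent_noise_le h0 h1' G hGn
  have b2 := ent_noise_le h0 h1' (fun x => 1 - G x) hGn'
  rcases Int.units_eq_one_or s with rfl | rfl
  · -- G vanishes on the half-cube where the first coordinate is 1
    have hz : sl G 1 = fun _ => 0 := by
      funext x'; exact hs _ (by simp)
    set g := sl G (-1) with hg
    have hg01 : ∀ x', g x' = 0 ∨ g x' = 1 := fun x' => hG01 _
    obtain ⟨ht0, ht1⟩ := avg_mem_unit g hg01
    set t := avg g with ht
    have hz' : sl (fun x => 1 - G x) 1 = fun _ => 1 := by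
      funext x'
      have := congrFun hz x'
      unfold sl at this ⊢
      show 1 - G (Fin.cons 1 x') = 1
      rw [this]; norm_num
    have hg' : sl (fun x => 1 - G x) (-1) = fun x' => 1 - g x' := rfl
    rw [hz, avg_const_zero] at b1
    rw [hz', hg', avg_const_one, avg_one_sub] at b2
    have E1 := ent_two_valued' g hg01 ε 0 (ε * t) (fun x' => (1 - ε) * (fun _ => (0:ℝ)) x' + ε * g x')
      (fun x' => by ring) (by ring)
    have E2 := ent_two_valued' g hg01 (1 - ε) 0 ((1 - ε) * t)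
      (fun x' => ε * (fun _ => (0:ℝ)) x' + (1 - ε) * g x') (fun x' => by ring) (by ring)
    have E3 := ent_two_valued' g hg01 (1 - ε) 1 (1 - ε * t)
      (fun x' => (1 - ε) * (fun _ => (1:ℝ)) x' + ε * (fun x' => 1 - g x') x') (fun x' => by ring)
      (by ring)
    have E4 := ent_two_valued' g hg01 ε 1 (1 - (1 - ε) * t)
      (fun x' => ε * (fun _ => (1:ℝ)) x' + (1 - ε) * (fun x' => 1 - g x') x') (fun x' => by ring)
      (by ring)
    rw [E1, E2] at b1
    rw [E3, E4] at b2
    have a1 : (1 - ε) * 0 + ε * t = ε * t := by ring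
    have a2 : ε * 0 + (1 - ε) * t = (1 - ε) * t := by ring
    have a3 : (0 + t) / 2 = t / 2 := by ring
    have a4 : (1 - ε) * 1 + ε * (1 - t) = 1 - ε * t := by ring
    have a5 : ε * 1 + (1 - ε) * (1 - t) = 1 - (1 - ε) * t := by ring
    have a6 : (1 + (1 - t)) / 2 = 1 - t / 2 := by ring
    rw [a1, a2, a3] at b1
    rw [a4, a5, a6] at b2
    have := core_alg h0 h1 ht0 ht1
    linarith
  · -- G vanishes on the half-cube where the first coordinate is -1
    have hz : sl G (-1) = fun _ => 0 := by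
      funext x'; exact hs _ (by simp)
    set g := sl G 1 with hg
    have hg01 : ∀ x', g x' = 0 ∨ g x' = 1 := fun x' => hG01 _
    obtain ⟨ht0, ht1⟩ := avg_mem_unit g hg01
    set t := avg g with ht
    have hz' : sl (fun x => 1 - G x) (-1) = fun _ => 1 := by
      funext x'
      have := congrFun hz x'
      unfold sl at this ⊢
      show 1 - G (Fin.cons (-1) x') = 1
      rw [this]; norm_num
    have hg' : sl (fun x => 1 - G x) 1 = fun x' => 1 - g x' := rfl
    rw [hz, avg_const_zero] at b1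
    rw [hz', hg', avg_const_one, avg_one_sub] at b2
    have E1 := ent_two_valued' g hg01 (1 - ε) 0 ((1 - ε) * t)
      (fun x' => (1 - ε) * g x' + ε * (fun _ => (0:ℝ)) x') (fun x' => by ring) (by ring)
    have E2 := ent_two_valued' g hg01 ε 0 (ε * t)
      (fun x' => ε * g x' + (1 - ε) * (fun _ => (0:ℝ)) x') (fun x' => by ring) (by ring)
    have E3 := ent_two_valued' g hg01 ε 1 (1 - (1 - ε) * t)
      (fun x' => (1 - ε) * (fun x' => 1 - g x') x' + ε * (fun _ => (1:ℝ)) x') (fun x' => by ring)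
      (by ring)
    have E4 := ent_two_valued' g hg01 (1 - ε) 1 (1 - ε * t)
      (fun x' => ε * (fun x' => 1 - g x') x' + (1 - ε) * (fun _ => (1:ℝ)) x') (fun x' => by ring)
      (by ring)
    rw [E1, E2] at b1
    rw [E3, E4] at b2
    have a1 : (1 - ε) * t + ε * 0 = (1 - ε) * t := by ring
    have a2 : ε * t + (1 - ε) * 0 = ε * t := by ring
    have a3 : (t + 0) / 2 = t / 2 := by ring
    have a4 : (1 - ε) * (1 - t) + ε * 1 = 1 - (1 - ε) * t := by ring
    have a5 : ε * (1 - t) + (1 - ε) * 1 = 1 - ε * t := by ring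
    have a6 : ((1 - t) + 1) / 2 = 1 - t / 2 := by ring
    rw [a1, a2, a3] at b1
    rw [a4, a5, a6] at b2
    have := core_alg h0 h1 ht0 ht1
    linarith

theorem ck_of_halfcube_zero {n : ℕ} {ε : ℝ} (h0 : 0 ≤ ε) (h1 : ε ≤ 1 / 2)
    (f : (Fin (n + 1) → ℤˣ) → ℤˣ) (s v : ℤˣ) (hf : ∀ x, x 0 = s → f x = v) :
    infoFY ε f ≤ 1 - h2 ε := by
  have hL : 0 < Real.log 2 := Real.log_pos (by norm_num)
  have hid := info_eq_ent ε f
  have key : infoFY ε f * Real.log 2 ≤ Real.log 2 - Real.binEntropy ε := by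
    rcases Int.units_eq_one_or v with rfl | rfl
    · have hc := halfcube_core h0 h1 (fun x => if f x = 1 then (0:ℝ) else 1)
        (by intro x; split_ifs <;> simp) s
        (by intro x hx; simp [hf x hx])
      have e : (fun x => 1 - (fun x => if f x = 1 then (0:ℝ) else 1) x)
          = fun x => if f x = 1 then (1:ℝ) else 0 := by
        funext x; dsimp only; split_ifs <;> norm_num
      rw [e] at hc
      rw [hid]; linarith
    · have hne : ¬ ((-1 : ℤˣ) = 1) := by decide
      have hc := halfcube_core h0 h1 (fun x => if f x = 1 then (1:ℝ) else 0)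
        (by intro x; split_ifs <;> simp) s
        (by intro x hx; simp [hf x hx, hne])
      have e : (fun x => 1 - (fun x => if f x = 1 then (1:ℝ) else 0) x)
          = fun x => if f x = 1 then (0:ℝ) else 1 := by
        funext x; dsimp only; split_ifs <;> norm_num
      rw [e] at hc
      rw [hid]; linarith
  unfold h2
  have e : 1 - Real.binEntropy ε / Real.log 2 = (Real.log 2 - Real.binEntropy ε) / Real.log 2 := by
    field_simp
  rw [e, le_div_iff₀ hL]
  exact key

theorem ck_of_halfcube {n : ℕ} {ε : ℝ} (h0 : 0 ≤ ε) (h1 : ε ≤ 1 / 2) (f : (Fin n → ℤˣ) → ℤˣ)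
    (i : Fin n) (b v : ℤˣ) (hf : ∀ x, x i = b → f x = v) : infoFY ε f ≤ 1 - h2 ε := by
  cases n with
  | zero => exact i.elim0
  | succ m =>
    rw [← infoFY_relabel ε f (Equiv.swap 0 i)]
    apply ck_of_halfcube_zero h0 h1 _ b v
    intro z hz
    apply hf
    rw [relabel_symm_apply]
    simpa using hz

end Vale.Agent.Lib.P322
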