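import Vale.Agent.Lib.P322.Biased

namespace Vale.Agent.Lib.P322
open Real

/-- auxiliary one-variable function: `(1 - 2e) * Pfun e` is the minimum over `t` of the
derivative gap in the half-cube inequality -/
noncomputable def Pfun (e : ℝ) : ℝ :=
  -(e * log e) + (1 - e) * log (1 - e) - e * (1 - e) * (1 - 2 * e)

lemma Pfun_nonneg_small {e : ℝ} (h0 : 0 < e) (h1 : e ≤ 1 / 8) : 0 ≤ Pfun e := by
  unfold Pfun
  have hL2 := Real.log_two_gt_d9
  have hle : log e ≤ -(3 * log 2) := by
    have h8 : log e ≤ log (1 / 8) := Real.log_le_log h0 h1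
    have e8 : log ((1:ℝ) / 8) = -(3 * log 2) := by
      have : ((1:ℝ) / 8) = (2 ^ 3)⁻¹ := by norm_num
      rw [this, Real.log_inv, Real.log_pow]; norm_num
    linarith
  have h1e : 0 < 1 - e := by linarith
  have hlog : 1 - (1 - e)⁻¹ ≤ log (1 - e) := Real.one_sub_inv_le_log_of_pos h1e
  have hm : -e ≤ (1 - e) * log (1 - e) := by
    have := mul_le_mul_of_nonneg_left hlog h1e.le
    have e2 : (1 - e) * (1 - (1 - e)⁻¹) = -e := by field_simp; ring
    linarith
  have h3 : 2 * e ≤ -(e * log e) := by nlinarith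
  have h4 : e * (1 - e) * (1 - 2 * e) ≤ e := by nlinarith [mul_pos h0 h1e]
  linarith

lemma Pfun_hasDerivAt {e : ℝ} (h0 : 0 < e) (h1 : e < 1) :
    HasDerivAt Pfun (-log e - log (1 - e) - 3 + 6 * (e * (1 - e))) e := by
  have d1 : HasDerivAt (fun x : ℝ => x * log x) (log e + 1) e := Real.hasDerivAt_mul_log h0.ne'
  have hh2 : HasDerivAt (fun x : ℝ => 1 - x) (-1) e := by
    simpa using (hasDerivAt_id e).const_sub 1
  have d2 : HasDerivAt (fun x : ℝ => (1 - x) * log (1 - x)) (-(log (1 - e) + 1)) e := by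
    have := (Real.hasDerivAt_mul_log (x := 1 - e) (by linarith)).comp e hh2
    exact this.congr_deriv (by ring)
  have d3 : HasDerivAt (fun x : ℝ => x * (1 - x) * (1 - 2 * x)) (1 - 6 * e + 6 * e ^ 2) e := by
    have hh1 : HasDerivAt (fun x : ℝ => x) 1 e := hasDerivAt_id e
    have hh3 : HasDerivAt (fun x : ℝ => 1 - 2 * x) (-2) e := by
      simpa using ((hasDerivAt_id e).const_mul 2).const_sub 1
    exact ((hh1.mul hh2).mul hh3).congr_deriv (by simp only [Pi.mul_apply]; ring)
  have := (d1.neg.add d2).sub d3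
  exact this.congr_deriv (by ring)

lemma Pfun_deriv_nonpos {e : ℝ} (h0 : 1 / 8 ≤ e) (h1 : e ≤ 1 / 2) :
    -log e - log (1 - e) - 3 + 6 * (e * (1 - e)) ≤ 0 := by
  have he : 0 < e := by linarith
  have h1e : 0 < 1 - e := by linarith
  set k := e * (1 - e) with hk
  have hk0 : 7 / 64 ≤ k := by rw [hk]; nlinarith
  have hk1 : k ≤ 1 / 4 := by rw [hk]; nlinarith [sq_nonneg (e - 1 / 2)]
  have hkpos : 0 < k := by linarith
  have hlogk : log k = log e + log (1 - e) := by rw [hk, Real.log_mul he.ne' h1e.ne']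
  have hL2 := Real.log_two_lt_d9
  have hL3 : log 3 ≤ 8 / 5 * log 2 := by
    have := Real.log_le_log (by norm_num : (0:ℝ) < 3 ^ 5) (by norm_num : (3:ℝ) ^ 5 ≤ 2 ^ 8)
    rw [Real.log_pow, Real.log_pow] at this
    push_cast at this
    linarith
  have hL6 : log 6 = log 2 + log 3 := by
    have : (6:ℝ) = 2 * 3 := by norm_num
    rw [this, Real.log_mul (by norm_num) (by norm_num)]
  have htan : log (k⁻¹ / 6) ≤ k⁻¹ / 6 - 1 := Real.log_le_sub_one_of_pos (by positivity)
  have hdiv : log (k⁻¹ / 6) = -log k - log 6 := by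
    rw [Real.log_div (by positivity) (by norm_num), Real.log_inv]
  have hinv : k⁻¹ / 6 ≤ 2.1978 - 6 * k := by
    rw [div_le_iff₀ (by norm_num), inv_le_iff_one_le_mul₀ hkpos]
    nlinarith [mul_nonneg (sub_nonneg.mpr hk0) (sub_nonneg.mpr hk1)]
  linarith

lemma Pfun_half : Pfun (1 / 2) = 0 := by
  unfold Pfun
  norm_num

lemma Pfun_nonneg {e : ℝ} (h0 : 0 < e) (h1 : e ≤ 1 / 2) : 0 ≤ Pfun e := by
  rcases le_or_gt e (1 / 8) with h | h
  · exact Pfun_nonneg_small h0 h
  · have hanti : AntitoneOn Pfun (Set.Icc (1 / 8) (1 / 2)) := by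
      apply antitoneOn_of_deriv_nonpos (convex_Icc _ _)
      · intro x hx
        exact (Pfun_hasDerivAt (by linarith [hx.1]) (by linarith [hx.2])).continuousAt.continuousWithinAt
      · intro x hx
        rw [interior_Icc] at hx
        exact (Pfun_hasDerivAt (by linarith [hx.1]) (by linarith [hx.2])).differentiableAt.differentiableWithinAt
      · intro x hx
        rw [interior_Icc] at hx
        rw [(Pfun_hasDerivAt (by linarith [hx.1]) (by linarith [hx.2])).deriv]
        exact Pfun_deriv_nonpos hx.1.le hx.2.le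
    have := hanti (a := e) (b := 1 / 2) ⟨h.le, h1⟩ ⟨by norm_num, le_refl _⟩ h1
    rw [Pfun_half] at this
    exact this

/-- minus the `t`-derivative of `Ffun` -/
noncomputable def Gfun (e t : ℝ) : ℝ :=
  1 / 2 * (log (1 - t / 2) - log (t / 2))
    - 2 * (e * (1 - e)) * ((1 - e) * (log (1 - (1 - e) * t) - log ((1 - e) * t))
        + e * (log (1 - e * t) - log (e * t)))
    - (1 - 4 * (e * (1 - e))) * binEntropy e

/-- the gap in the half-cube inequality, in nats -/
noncomputable def Ffun (e t : ℝ) : ℝ :=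
  log 2 - binEntropy e - binEntropy (t / 2)
    + 2 * (e * (1 - e)) * (binEntropy ((1 - e) * t) + binEntropy (e * t))
    + (1 - 4 * (e * (1 - e))) * t * binEntropy e

/-- the `t`-derivative of `Gfun` -/
noncomputable def Gder (e t : ℝ) : ℝ :=
  -(1 / (2 * (2 - t)) + 1 / (2 * t))
    + 2 * (e * (1 - e)) * ((1 - e) ^ 2 / (1 - (1 - e) * t) + e ^ 2 / (1 - e * t) + 1 / t)

lemma binEntropy_scale_hasDerivAt {c t : ℝ} (h0 : c * t ≠ 0) (h1 : c * t ≠ 1) :
    HasDerivAt (fun x : ℝ => binEntropy (c * x)) (c * (log (1 - c * t) - log (c * t))) t := by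
  have hh : HasDerivAt (fun x : ℝ => c * x) c t := by
    simpa using (hasDerivAt_id t).const_mul c
  have := (Real.hasDerivAt_binEntropy h0 h1).comp t hh
  exact this.congr_deriv (by ring)

lemma Ffun_hasDerivAt {e t : ℝ} (he0 : 0 < e) (he1 : e < 1) (ht0 : 0 < t) (ht1 : t < 1) :
    HasDerivAt (Ffun e) (-Gfun e t) t := by
  have d1 : HasDerivAt (fun x : ℝ => binEntropy (x / 2))
      (1 / 2 * (log (1 - t / 2) - log (t / 2))) t := by
    have := binEntropy_scale_hasDerivAt (c := 1 / 2) (t := t) (by positivity) (by linarith)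
    have e1 : (fun x : ℝ => binEntropy (1 / 2 * x)) = fun x : ℝ => binEntropy (x / 2) := by
      funext x; congr 1; ring
    have e2 : (1:ℝ) / 2 * t = t / 2 := by ring
    rw [e1, e2] at this
    exact this
  have d2 := binEntropy_scale_hasDerivAt (c := 1 - e) (t := t)
    (mul_pos (by linarith) ht0).ne' (by nlinarith)
  have d3 := binEntropy_scale_hasDerivAt (c := e) (t := t) (mul_pos he0 ht0).ne' (by nlinarith)
  have d4 : HasDerivAt (fun x : ℝ => (1 - 4 * (e * (1 - e))) * x * binEntropy e)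
      ((1 - 4 * (e * (1 - e))) * binEntropy e) t := by
    have := ((hasDerivAt_id t).const_mul (1 - 4 * (e * (1 - e)))).mul_const (binEntropy e)
    simpa using this
  have := (((hasDerivAt_const t (log 2 - binEntropy e)).sub d1).add
    ((d2.add d3).const_mul (2 * (e * (1 - e))))).add d4
  unfold Gfun
  exact this.congr_deriv (by ring)

lemma Gfun_hasDerivAt {e t : ℝ} (he0 : 0 < e) (he1 : e < 1) (ht0 : 0 < t) (ht1 : t ≤ 1) :
    HasDerivAt (Gfun e) (Gder e t) t := by
  have h1e : 0 < 1 - e := by linarith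
  have p1 : 0 < 1 - t / 2 := by linarith
  have p2 : 0 < t / 2 := by linarith
  have p3 : 0 < 1 - (1 - e) * t := by nlinarith
  have p4 : 0 < (1 - e) * t := mul_pos h1e ht0
  have p5 : 0 < 1 - e * t := by nlinarith
  have p6 : 0 < e * t := mul_pos he0 ht0
  have a1 : HasDerivAt (fun x : ℝ => log (1 - x / 2)) (-(1 / 2) / (1 - t / 2)) t := by
    have hh : HasDerivAt (fun x : ℝ => 1 - x / 2) (-(1 / 2)) t := by
      simpa using ((hasDerivAt_id t).div_const 2).const_sub 1
    exact hh.log p1.ne'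
  have a2 : HasDerivAt (fun x : ℝ => log (x / 2)) (1 / 2 / (t / 2)) t := by
    have hh : HasDerivAt (fun x : ℝ => x / 2) (1 / 2) t := by
      simpa using (hasDerivAt_id t).div_const 2
    exact hh.log p2.ne'
  have a3 : HasDerivAt (fun x : ℝ => log (1 - (1 - e) * x)) (-(1 - e) / (1 - (1 - e) * t)) t := by
    have hh : HasDerivAt (fun x : ℝ => 1 - (1 - e) * x) (-(1 - e)) t := by
      simpa using ((hasDerivAt_id t).const_mul (1 - e)).const_sub 1
    exact hh.log p3.ne'
  have a4 : HasDerivAt (fun x : ℝ => log ((1 - e) * x)) ((1 - e) / ((1 - e) * t)) t := by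
    have hh : HasDerivAt (fun x : ℝ => (1 - e) * x) (1 - e) t := by
      simpa using (hasDerivAt_id t).const_mul (1 - e)
    exact hh.log p4.ne'
  have a5 : HasDerivAt (fun x : ℝ => log (1 - e * x)) (-e / (1 - e * t)) t := by
    have hh : HasDerivAt (fun x : ℝ => 1 - e * x) (-e) t := by
      simpa using ((hasDerivAt_id t).const_mul e).const_sub 1
    exact hh.log p5.ne'
  have a6 : HasDerivAt (fun x : ℝ => log (e * x)) (e / (e * t)) t := by
    have hh : HasDerivAt (fun x : ℝ => e * x) e t := by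
      simpa using (hasDerivAt_id t).const_mul e
    exact hh.log p6.ne'
  have := (((a1.sub a2).const_mul (1 / 2)).sub
    ((((a3.sub a4).const_mul (1 - e)).add ((a5.sub a6).const_mul e)).const_mul
      (2 * (e * (1 - e))))).sub (hasDerivAt_const t ((1 - 4 * (e * (1 - e))) * binEntropy e))
  unfold Gder
  refine this.congr_deriv ?_
  field_simp
  ring

lemma Gder_eq {e t : ℝ} (he0 : 0 < e) (he1 : e < 1) (ht0 : 0 < t) (ht1 : t ≤ 1) :
    Gder e t = -((1 - 4 * (e * (1 - e))) * ((1 - t) - e * (1 - e) * t * (2 - t)))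
      / (t * (2 - t) * ((1 - (1 - e) * t) * (1 - e * t))) := by
  have h1e : 0 < 1 - e := by linarith
  have p3 : 0 < 1 - (1 - e) * t := by nlinarith
  have p5 : 0 < 1 - e * t := by nlinarith
  have p7 : 0 < 2 - t := by linarith
  unfold Gder
  obtain ⟨a, ha⟩ : ∃ a : ℝ, a = 1 - (1 - e) * t := ⟨_, rfl⟩
  obtain ⟨b, hb⟩ : ∃ b : ℝ, b = 1 - e * t := ⟨_, rfl⟩
  obtain ⟨c, hc⟩ : ∃ c : ℝ, c = 2 - t := ⟨_, rfl⟩
  rw [← ha, ← hb, ← hc]
  have n3 : a ≠ 0 := by rw [ha]; exact p3.ne'
  have n5 : b ≠ 0 := by rw [hb]; exact p5.ne'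
  have n7 : c ≠ 0 := by rw [hc]; exact p7.ne'
  have n0 := ht0.ne'
  field_simp
  rw [ha, hb, hc]
  ring

lemma Gder_le {e t : ℝ} (he0 : 0 < e) (he1 : e ≤ 1 / 2) (ht0 : 0 < t) (ht1 : t ≤ 1) :
    Gder e t ≤ 1 - 4 * (e * (1 - e)) := by
  have h1e : 0 < 1 - e := by linarith
  have p3 : 0 < 1 - (1 - e) * t := by nlinarith
  have p5 : 0 < 1 - e * t := by nlinarith
  have p7 : 0 < 2 - t := by linarith
  have hk1 : e * (1 - e) ≤ 1 / 4 := by nlinarith [sq_nonneg (e - 1 / 2)]
  have hk0 : 0 < e * (1 - e) := mul_pos he0 h1e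
  rw [Gder_eq he0 (by linarith) ht0 ht1, div_le_iff₀ (by positivity)]
  have hprod : (1 - (1 - e) * t) * (1 - e * t) = 1 - t + e * (1 - e) * t ^ 2 := by ring
  rw [hprod]
  set k := e * (1 - e) with hk
  have hq : 0 ≤ 1 - 4 * k := by linarith
  have key : 0 ≤ (1 - t) * (1 + t * (2 - t) * (1 - k * (1 + t))) := by
    apply mul_nonneg (by linarith)
    have : 0 ≤ 1 - k * (1 + t) := by nlinarith
    have : 0 ≤ t * (2 - t) * (1 - k * (1 + t)) := by positivity
    linarith
  have e1 : (1 - 4 * k) * (t * (2 - t) * (1 - t + k * t ^ 2))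
      - -((1 - 4 * k) * (1 - t - k * t * (2 - t)))
      = (1 - 4 * k) * ((1 - t) * (1 + t * (2 - t) * (1 - k * (1 + t)))) := by ring
  nlinarith [mul_nonneg hq key]

lemma Gder_nonpos {e t : ℝ} (he0 : 0 < e) (he1 : e ≤ 1 / 2) (ht0 : 0 < t)
    (ht1 : t ≤ 1 - e * (1 - e)) : Gder e t ≤ 0 := by
  have h1e : 0 < 1 - e := by linarith
  have hk1 : e * (1 - e) ≤ 1 / 4 := by nlinarith [sq_nonneg (e - 1 / 2)]
  have hk0 : 0 < e * (1 - e) := mul_pos he0 h1e
  have ht1' : t ≤ 1 := by linarith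
  have p3 : 0 < 1 - (1 - e) * t := by nlinarith
  have p5 : 0 < 1 - e * t := by nlinarith
  have p7 : 0 < 2 - t := by linarith
  rw [Gder_eq he0 (by linarith) ht0 ht1']
  apply div_nonpos_of_nonpos_of_nonneg _ (by positivity)
  set k := e * (1 - e) with hk
  have hq : 0 ≤ 1 - 4 * k := by linarith
  have h2 : 0 ≤ 1 - t - k * t * (2 - t) := by nlinarith [sq_nonneg (1 - t)]
  have := mul_nonneg hq h2
  linarith

lemma Gfun_one (e : ℝ) :
    Gfun e 1 - (1 - 4 * (e * (1 - e))) * (e * (1 - e)) = (1 - 2 * e) * Pfun e := by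
  unfold Gfun Pfun
  rw [binEntropy_eq']
  have e1 : (1:ℝ) - 1 / 2 = 1 / 2 := by norm_num
  have e2 : (1:ℝ) - (1 - e) * 1 = e := by ring
  have e3 : (1 - e) * 1 = 1 - e := by ring
  have e4 : (1:ℝ) - e * 1 = 1 - e := by ring
  have e5 : e * 1 = e := by ring
  rw [e1, e2, e3, e4, e5]
  ring

lemma Gfun_ge {e t : ℝ} (he0 : 0 < e) (he1 : e ≤ 1 / 2) (ht0 : 0 < t) (ht1 : t ≤ 1) :
    0 ≤ Gfun e t := by
  have h1e : 0 < 1 - e := by linarith
  have hk1 : e * (1 - e) ≤ 1 / 4 := by nlinarith [sq_nonneg (e - 1 / 2)]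
  have hk0 : 0 < e * (1 - e) := mul_pos he0 h1e
  set k := e * (1 - e) with hk
  have hP : 0 ≤ (1 - 2 * e) * Pfun e := mul_nonneg (by linarith) (Pfun_nonneg he0 he1)
  rw [← Gfun_one e] at hP
  have hq : 0 ≤ 1 - 4 * k := by linarith
  -- general mean value bound on an interval [a,b] inside (0,1]
  have mv : ∀ a b : ℝ, 0 < a → a ≤ b → b ≤ 1 → ∀ C : ℝ, (∀ x, a < x → x < b → Gder e x ≤ C) →
      Gfun e b - Gfun e a ≤ C * (b - a) := by
    intro a b ha hab hb C hC
    apply (convex_Icc a b).image_sub_le_mul_sub_of_deriv_le (f := Gfun e)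
    · intro x hx
      exact (Gfun_hasDerivAt he0 (by linarith) (by linarith [hx.1]) (by linarith [hx.2])).continuousAt.continuousWithinAt
    · intro x hx
      rw [interior_Icc] at hx
      exact (Gfun_hasDerivAt he0 (by linarith) (by linarith [hx.1]) (by linarith [hx.2])).differentiableAt.differentiableWithinAt
    · intro x hx
      rw [interior_Icc] at hx
      rw [(Gfun_hasDerivAt he0 (by linarith) (by linarith [hx.1]) (by linarith [hx.2])).deriv]
      exact hC x hx.1 hx.2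
    · exact ⟨le_refl _, hab⟩
    · exact ⟨hab, le_refl _⟩
    · exact hab
  rcases le_or_gt (1 - k) t with h | h
  · have := mv t 1 ht0 ht1 (le_refl _) (1 - 4 * k)
      (fun x hx1 hx2 => Gder_le he0 he1 (by linarith) hx2.le)
    nlinarith
  · have m1 := mv t (1 - k) ht0 h.le (by linarith) 0
      (fun x hx1 hx2 => Gder_nonpos he0 he1 (by linarith) hx2.le)
    have m2 := mv (1 - k) 1 (by linarith) (by linarith) (le_refl _) (1 - 4 * k)
      (fun x hx1 hx2 => Gder_le he0 he1 (by linarith) hx2.le)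
    nlinarith

lemma Ffun_one (e : ℝ) : Ffun e 1 = 0 := by
  unfold Ffun
  have e1 : (1 - e) * 1 = 1 - e := by ring
  have e2 : e * 1 = e := by ring
  have e3 : (1:ℝ) / 2 = 2⁻¹ := by norm_num
  rw [e1, e2, e3, binEntropy_one_sub, binEntropy_two_inv]
  ring

lemma Ffun_continuous (e : ℝ) : Continuous (Ffun e) := by
  unfold Ffun
  have c1 : Continuous (fun t : ℝ => binEntropy (t / 2)) :=
    binEntropy_continuous.comp (continuous_id.div_const 2)
  have c2 : Continuous (fun t : ℝ => binEntropy ((1 - e) * t)) :=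
    binEntropy_continuous.comp (continuous_const.mul continuous_id)
  have c3 : Continuous (fun t : ℝ => binEntropy (e * t)) :=
    binEntropy_continuous.comp (continuous_const.mul continuous_id)
  exact ((continuous_const.sub c1).add (continuous_const.mul (c2.add c3))).add
    ((continuous_const.mul continuous_id).mul continuous_const)

theorem Ffun_nonneg {e t : ℝ} (he0 : 0 ≤ e) (he1 : e ≤ 1 / 2) (ht0 : 0 ≤ t) (ht1 : t ≤ 1) :
    0 ≤ Ffun e t := by
  rcases eq_or_lt_of_le he0 with h0 | h0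
  · subst h0
    unfold Ffun
    have := binEntropy_le_log_two (p := t / 2)
    simp
    linarith
  rcases eq_or_lt_of_le he1 with h1 | h1
  · subst h1
    unfold Ffun
    have e1 : ((1:ℝ) - 1 / 2) * t = t / 2 := by ring
    have e2 : (1:ℝ) / 2 * t = t / 2 := by ring
    have e3 : (1:ℝ) / 2 = 2⁻¹ := by norm_num
    rw [e1, e2]
    rw [e3, binEntropy_two_inv]
    ring_nf
    exact le_refl _
  have hanti : AntitoneOn (Ffun e) (Set.Icc 0 1) := by
    apply antitoneOn_of_deriv_nonpos (convex_Icc _ _)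
    · exact (Ffun_continuous e).continuousOn
    · intro x hx
      rw [interior_Icc] at hx
      exact (Ffun_hasDerivAt h0 (by linarith) hx.1 hx.2).differentiableAt.differentiableWithinAt
    · intro x hx
      rw [interior_Icc] at hx
      rw [(Ffun_hasDerivAt h0 (by linarith) hx.1 hx.2).deriv]
      have := Gfun_ge h0 he1 hx.1 hx.2.le
      linarith
  have := hanti (a := t) (b := 1) ⟨ht0, ht1⟩ ⟨by norm_num, le_refl _⟩ ht1
  rw [Ffun_one] at this
  exact this

end Vale.Agent.Lib.P322
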