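import Mathlib

namespace Vale.Agent.Lib.P322

/-- Four-cell identity: half the binary entropy of `2 * J` in terms of `negMulLog`. -/
lemma leafCore_half (J : ℝ) :
    Real.binEntropy (2 * J) / 2
      = Real.negMulLog J + Real.negMulLog (1 / 2 - J) - Real.log 2 / 2 := by
  rw [Real.binEntropy_eq_negMulLog_add_negMulLog_one_sub]
  have e1 : (1 : ℝ) - 2 * J = 2 * (1 / 2 - J) := by ring
  rw [e1, Real.negMulLog_mul, Real.negMulLog_mul]
  have h2 : Real.negMulLog 2 = -(2 * Real.log 2) := by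
    simp [Real.negMulLog]
  rw [h2]
  ring

/-- Perspective identity for `negMulLog`. -/
lemma leafCore_persp {p u v : ℝ} (hp : p ≠ 0) (huv : u + v = p) :
    Real.negMulLog u + Real.negMulLog v - Real.negMulLog p
      = p * Real.binEntropy (u / p) := by
  obtain ⟨t, rfl⟩ : ∃ t, u = p * t := ⟨u / p, by field_simp⟩
  have hv : v = p * (1 - t) := by linarith
  subst hv
  rw [mul_div_cancel_left₀ t hp, Real.binEntropy_eq_negMulLog_add_negMulLog_one_sub,
    Real.negMulLog_mul, Real.negMulLog_mul]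
  ring

/-- Chord bound: the concavity of the binary entropy on the chord from `ε` to
`ε + (1 - 2 * ε) * s`, combined with the hypothesis on that chord. -/
lemma leafCore_chord {ε s p b : ℝ} (h0 : 0 ≤ ε) (h1 : ε ≤ 1 / 2) (hs0 : 0 ≤ s) (hs1 : s ≤ 1)
    (hp : 0 ≤ p) (hb : 0 ≤ b) (hbs : b ≤ s * p)
    (hstar : 2 * (1 - 2 * ε) ^ 2 * s * Real.binEntropy ε
      ≤ (1 - (1 - 2 * ε) ^ 2) * (Real.binEntropy (ε + (1 - 2 * ε) * s) - Real.binEntropy ε)) :
    (1 - (1 - 2 * ε) ^ 2) * p * Real.binEntropy ε + 2 * (1 - 2 * ε) ^ 2 * b * Real.binEntropy ε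
      ≤ (1 - (1 - 2 * ε) ^ 2) * (Real.negMulLog ((1 - ε) * p - (1 - 2 * ε) * b)
          + Real.negMulLog (ε * p + (1 - 2 * ε) * b) - Real.negMulLog p) := by
  rcases hp.eq_or_lt with rfl | hp'
  · have hb0 : b = 0 := le_antisymm (by simpa using hbs) hb
    subst hb0
    simp
  · have hK : 0 ≤ 1 - (1 - 2 * ε) ^ 2 := by nlinarith
    have hpers := leafCore_persp (p := p) (u := ε * p + (1 - 2 * ε) * b)
      (v := (1 - ε) * p - (1 - 2 * ε) * b) hp'.ne' (by ring)
    have ht : (ε * p + (1 - 2 * ε) * b) / p = ε + (1 - 2 * ε) * (b / p) := by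
      field_simp
    rw [ht] at hpers
    have key : Real.negMulLog ((1 - ε) * p - (1 - 2 * ε) * b)
        + Real.negMulLog (ε * p + (1 - 2 * ε) * b) - Real.negMulLog p
        = p * Real.binEntropy (ε + (1 - 2 * ε) * (b / p)) := by
      rw [← hpers]
      ring
    rw [key]
    rcases hb.eq_or_lt with rfl | hb'
    · simp only [zero_div, mul_zero, add_zero]
      exact le_of_eq (by ring)
    · have hs' : 0 < s := by
        by_contra h
        have hs00 : s = 0 := le_antisymm (not_lt.mp h) hs0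
        subst hs00
        simp only [zero_mul] at hbs
        linarith
      obtain ⟨θ, hθ⟩ : ∃ θ : ℝ, θ = b / (p * s) := ⟨_, rfl⟩
      have hθ0 : 0 ≤ θ := by
        rw [hθ]
        positivity
      have hθ1 : θ ≤ 1 := by
        rw [hθ, div_le_one (by positivity)]
        linarith [mul_comm s p]
      have hpθ : p * θ * s = b := by
        rw [hθ]
        field_simp
      have hx : ε ∈ Set.Icc (0 : ℝ) 1 := ⟨h0, by linarith⟩
      have hy : ε + (1 - 2 * ε) * s ∈ Set.Icc (0 : ℝ) 1 := by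
        constructor
        · have : 0 ≤ (1 - 2 * ε) * s := mul_nonneg (by linarith) hs0
          linarith
        · have : (1 - 2 * ε) * s ≤ (1 - 2 * ε) * 1 :=
            mul_le_mul_of_nonneg_left hs1 (by linarith)
          linarith
      have hθ1' : (0 : ℝ) ≤ 1 - θ := by linarith
      have hconc := Real.strictConcave_binEntropy.concaveOn.2 hx hy hθ1' hθ0 (by ring)
      simp only [smul_eq_mul] at hconc
      have hpt : (1 - θ) * ε + θ * (ε + (1 - 2 * ε) * s) = ε + (1 - 2 * ε) * (b / p) := by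
        rw [← hpθ]
        field_simp
        ring
      rw [hpt] at hconc
      have h3 : p * θ * (2 * (1 - 2 * ε) ^ 2 * s * Real.binEntropy ε)
          ≤ p * θ * ((1 - (1 - 2 * ε) ^ 2)
            * (Real.binEntropy (ε + (1 - 2 * ε) * s) - Real.binEntropy ε)) :=
        mul_le_mul_of_nonneg_left hstar (by positivity)
      have h4 : (1 - (1 - 2 * ε) ^ 2) * p * ((1 - θ) * Real.binEntropy ε
            + θ * Real.binEntropy (ε + (1 - 2 * ε) * s))
          ≤ (1 - (1 - 2 * ε) ^ 2) * p * Real.binEntropy (ε + (1 - 2 * ε) * (b / p)) :=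
        mul_le_mul_of_nonneg_left hconc (by positivity)
      have e : 2 * (1 - 2 * ε) ^ 2 * b * Real.binEntropy ε
          = p * θ * (2 * (1 - 2 * ε) ^ 2 * s * Real.binEntropy ε) := by
        rw [← hpθ]
        ring
      generalize Real.binEntropy (ε + (1 - 2 * ε) * (b / p)) = Ht at h4 ⊢
      generalize Real.binEntropy (ε + (1 - 2 * ε) * s) = Hs at h3 h4
      generalize Real.binEntropy ε = He at h3 h4 e ⊢
      rw [e]
      linarith

/-- the real-variable core of the local optimality of dictators -/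
theorem core_local {ε s a b c d I : ℝ} (h0 : 0 ≤ ε) (h1 : ε ≤ 1 / 2) (hs0 : 0 ≤ s) (hs1 : s ≤ 1)
    (ha : 0 ≤ a) (hb : 0 ≤ b) (hc : 0 ≤ c) (hd : 0 ≤ d)
    (hac : a + c = 1 / 2) (hbd : b + d = 1 / 2) (hI : 1 - 2 * (b + c) ≤ I)
    (hbs : b ≤ s * (a + b)) (hcs : c ≤ s * (c + d))
    (hstar : 2 * (1 - 2 * ε) ^ 2 * s * Real.binEntropy ε
      ≤ (1 - (1 - 2 * ε) ^ 2) * (Real.binEntropy (ε + (1 - 2 * ε) * s) - Real.binEntropy ε)) :
    Real.binEntropy (a + b)
        - (1 - (1 - 2 * ε) ^ 2) * ((Real.binEntropy (2 * ((1 - ε) * a + ε * b))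
            + Real.binEntropy (2 * (ε * a + (1 - ε) * b))) / 2)
        - (1 - 2 * ε) ^ 2 * I * Real.binEntropy ε
      ≤ Real.log 2 - Real.binEntropy ε := by
  have hρ2 : 0 ≤ (1 - 2 * ε) ^ 2 := sq_nonneg _
  have hH : 0 ≤ Real.binEntropy ε := Real.binEntropy_nonneg h0 (by linarith)
  have hlog : Real.binEntropy (a + b) ≤ Real.log 2 := Real.binEntropy_le_log_two
  have hp : 0 ≤ a + b := by linarith
  have hq : 0 ≤ c + d := by linarith
  have c1 := leafCore_chord h0 h1 hs0 hs1 hp hb hbs hstar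
  have c2 := leafCore_chord h0 h1 hs0 hs1 hq hc hcs hstar
  have e1 := leafCore_half ((1 - ε) * a + ε * b)
  have e2 := leafCore_half (ε * a + (1 - ε) * b)
  have ha' : a = 1 / 2 - c := by linarith
  have hb' : b = 1 / 2 - d := by linarith
  have a1 : (1 - ε) * (a + b) - (1 - 2 * ε) * b = (1 - ε) * a + ε * b := by ring
  have a2 : ε * (a + b) + (1 - 2 * ε) * b = ε * a + (1 - ε) * b := by ring
  have a3 : (1 - ε) * (c + d) - (1 - 2 * ε) * c = 1 / 2 - (ε * a + (1 - ε) * b) := by
    rw [ha', hb']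
    ring
  have a4 : ε * (c + d) + (1 - 2 * ε) * c = 1 / 2 - ((1 - ε) * a + ε * b) := by
    rw [ha', hb']
    ring
  have hpq : Real.binEntropy (a + b) = Real.negMulLog (a + b) + Real.negMulLog (c + d) := by
    rw [Real.binEntropy_eq_negMulLog_add_negMulLog_one_sub]
    have : 1 - (a + b) = c + d := by linarith
    rw [this]
  rw [a1, a2] at c1
  rw [a3, a4] at c2
  have hsum : (1 - (1 - 2 * ε) ^ 2) * (a + b) * Real.binEntropy ε
      + (1 - (1 - 2 * ε) ^ 2) * (c + d) * Real.binEntropy ε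
      = (1 - (1 - 2 * ε) ^ 2) * Real.binEntropy ε := by
    have h1' : a + b + (c + d) = 1 := by linarith
    calc (1 - (1 - 2 * ε) ^ 2) * (a + b) * Real.binEntropy ε
          + (1 - (1 - 2 * ε) ^ 2) * (c + d) * Real.binEntropy ε
        = (1 - (1 - 2 * ε) ^ 2) * Real.binEntropy ε * (a + b + (c + d)) := by ring
      _ = (1 - (1 - 2 * ε) ^ 2) * Real.binEntropy ε := by rw [h1', mul_one]
  have e12 : (Real.binEntropy (2 * ((1 - ε) * a + ε * b))
      + Real.binEntropy (2 * (ε * a + (1 - ε) * b))) / 2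
      = Real.negMulLog ((1 - ε) * a + ε * b) + Real.negMulLog (1 / 2 - ((1 - ε) * a + ε * b))
        + Real.negMulLog (ε * a + (1 - ε) * b) + Real.negMulLog (1 / 2 - (ε * a + (1 - ε) * b))
        - Real.log 2 := by
    linarith
  rw [e12]
  have p1 := mul_nonneg hρ2 (sub_nonneg.mpr hlog)
  have p2 := mul_nonneg (mul_nonneg hρ2 hH) (sub_nonneg.mpr hI)
  rw [hpq] at p1 ⊢
  generalize Real.negMulLog ((1 - ε) * a + ε * b) = N11 at c1 ⊢
  generalize Real.negMulLog (ε * a + (1 - ε) * b) = N12 at c1 ⊢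
  generalize Real.negMulLog (1 / 2 - ((1 - ε) * a + ε * b)) = N21 at c2 ⊢
  generalize Real.negMulLog (1 / 2 - (ε * a + (1 - ε) * b)) = N22 at c2 ⊢
  generalize Real.negMulLog (a + b) = Np at c1 p1 ⊢
  generalize Real.negMulLog (c + d) = Nq at c2 p1 ⊢
  generalize Real.binEntropy ε = He at c1 c2 hsum p1 p2 ⊢
  generalize Real.log 2 = L at p1 ⊢
  nlinarith [c1, c2, hsum, p1, p2]

end Vale.Agent.Lib.P322
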