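import Mathlib

namespace Vale.Agent.Lib.P322

theorem leafGap_hasDerivAt {t : ℝ} (h0 : 0 < t) (h1 : t < 1) :
    HasDerivAt (fun t : ℝ => (1 - t) * Real.log (1 - t) - t * Real.log t
        - 2 / 3 * t * (1 - t) * (1 - 2 * t))
      ((Real.log (1 - t) + 1) * (-1) - (Real.log t + 1) - 2 / 3 * (1 - 6 * t + 6 * t ^ 2)) t := by
  have a1 : HasDerivAt (fun y : ℝ => 1 - y) (-1) t := by
    simpa using (hasDerivAt_id t).const_sub 1
  have b1 : HasDerivAt (fun y : ℝ => (1 - y) * Real.log (1 - y))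
      ((Real.log (1 - t) + 1) * (-1)) t :=
    (Real.hasDerivAt_mul_log (by linarith : (1 - t) ≠ 0)).comp t a1
  have b2 : HasDerivAt (fun y : ℝ => y * Real.log y) (Real.log t + 1) t :=
    Real.hasDerivAt_mul_log h0.ne'
  have b3 : HasDerivAt (fun y : ℝ => 2 / 3 * y * (1 - y) * (1 - 2 * y))
      (2 / 3 * (1 - 6 * t + 6 * t ^ 2)) t := by
    have c1 : HasDerivAt (fun y : ℝ => y - 3 * y ^ 2 + 2 * y ^ 3)
        (1 - 3 * (2 * t) + 2 * (3 * t ^ 2)) t := by
      have d1 := hasDerivAt_id' t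
      have d2 := (hasDerivAt_pow 2 t).const_mul 3
      have d3 := (hasDerivAt_pow 3 t).const_mul 2
      have d4 := (d1.fun_sub d2).fun_add d3
      refine d4.congr_deriv ?_
      norm_num
    have c2 := c1.const_mul (2 / 3)
    have e1 : (fun y : ℝ => 2 / 3 * y * (1 - y) * (1 - 2 * y))
        = fun y : ℝ => 2 / 3 * (y - 3 * y ^ 2 + 2 * y ^ 3) := by
      funext y
      ring
    rw [e1]
    exact c2.congr_deriv (by ring)
  exact (b1.sub b2).sub b3

theorem leafGap_log_mono {p q : ℝ} (hp : 0 < p) (hpq : p ≤ q) (hq : q ≤ 1 / 4) :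
    -Real.log q + 4 * q ≤ -Real.log p + 4 * p := by
  have hq0 : 0 < q := lt_of_lt_of_le hp hpq
  have h1 := Real.one_sub_inv_le_log_of_pos (div_pos hq0 hp)
  rw [Real.log_div hq0.ne' hp.ne', inv_div] at h1
  have h2 : 4 * (q - p) ≤ 1 - p / q := by
    rw [one_sub_div hq0.ne', le_div_iff₀ hq0]
    nlinarith
  linarith

/-- a cubic lower bound for `(1 - e) log (1 - e) - e log e` on `(0, 1/2]` -/
theorem entropy_gap_lower {e : ℝ} (he0 : 0 < e) (he1 : e ≤ 1 / 2) :
    2 / 3 * e * (1 - e) * (1 - 2 * e) ≤ (1 - e) * Real.log (1 - e) - e * Real.log e := by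
  set F : ℝ → ℝ := fun t : ℝ => (1 - t) * Real.log (1 - t) - t * Real.log t
        - 2 / 3 * t * (1 - t) * (1 - 2 * t) with hF
  have hcont : Continuous F := by
    have h1 : Continuous fun t : ℝ => t * Real.log t := Real.continuous_mul_log
    have h2 : Continuous fun t : ℝ => (1 - t) * Real.log (1 - t) :=
      h1.comp (continuous_const.sub continuous_id)
    simp only [hF]
    exact (h2.sub h1).sub (by fun_prop)
  have hin : ∀ t ∈ Set.Ioo (0 : ℝ) (1 / 2), 0 < t ∧ t < 1 := by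
    intro t ht
    exact ⟨ht.1, by linarith [ht.2]⟩
  have hconc : ConcaveOn ℝ (Set.Icc (0 : ℝ) (1 / 2)) F := by
    apply AntitoneOn.concaveOn_of_deriv (convex_Icc _ _) hcont.continuousOn
    · intro t ht
      rw [interior_Icc] at ht
      obtain ⟨h0, h1⟩ := hin t ht
      exact (leafGap_hasDerivAt h0 h1).differentiableAt.differentiableWithinAt
    · intro s hs t ht hst
      rw [interior_Icc] at hs ht
      obtain ⟨hs0, hs1⟩ := hin s hs
      obtain ⟨ht0, ht1⟩ := hin t ht
      rw [(leafGap_hasDerivAt hs0 hs1).deriv, (leafGap_hasDerivAt ht0 ht1).deriv]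
      have hp : 0 < s * (1 - s) := mul_pos hs0 (by linarith)
      have hpq : s * (1 - s) ≤ t * (1 - t) := by nlinarith [hs.2, ht.2]
      have hq : t * (1 - t) ≤ 1 / 4 := by nlinarith [sq_nonneg (t - 1 / 2)]
      have h := leafGap_log_mono hp hpq hq
      rw [Real.log_mul hs0.ne' (by linarith), Real.log_mul ht0.ne' (by linarith)] at h
      nlinarith
  have h0 : F 0 = 0 := by
    simp [hF]
  have h12 : F (1 / 2) = 0 := by
    simp only [hF]
    norm_num
  have he : e ∈ Set.Icc (0 : ℝ) (1 / 2) := ⟨he0.le, he1⟩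
  have h := hconc.min_le_of_mem_Icc (Set.left_mem_Icc.mpr (by norm_num))
    (Set.right_mem_Icc.mpr (by norm_num)) he
  rw [h0, h12, min_self] at h
  simp only [hF] at h
  linarith

end Vale.Agent.Lib.P322
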