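import Mathlib

namespace Vale.Agent.Lib.P322

theorem leafTaylor_hasDerivAt_D {e x : ℝ} (h1 : 0 < e + x) (h2 : 0 < 1 - e - x) :
    HasDerivAt (fun y : ℝ => Real.log (1 - e - y) - Real.log (e + y)
        - Real.log ((1 - e) / e) + y / (e * (1 - e)))
      (-1 / (1 - e - x) - 1 / (e + x) + 1 / (e * (1 - e))) x := by
  have a1 : HasDerivAt (fun y : ℝ => 1 - e - y) (-1) x := by
    simpa using (hasDerivAt_id x).const_sub (1 - e)
  have a2 : HasDerivAt (fun y : ℝ => e + y) 1 x := by
    simpa using (hasDerivAt_id x).const_add e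
  have b1 := a1.log h2.ne'
  have b2 := a2.log h1.ne'
  have b3 : HasDerivAt (fun y : ℝ => y / (e * (1 - e))) (1 / (e * (1 - e))) x := by
    simpa using (hasDerivAt_id x).div_const (e * (1 - e))
  exact ((b1.sub b2).sub_const (Real.log ((1 - e) / e))).add b3

theorem leafTaylor_D_nonneg {e x : ℝ} (he0 : 0 < e) (he1 : e ≤ 1 / 2) (hx0 : 0 ≤ x)
    (hx1 : x ≤ 1 - 2 * e) :
    0 ≤ Real.log (1 - e - x) - Real.log (e + x) - Real.log ((1 - e) / e) + x / (e * (1 - e)) := by
  set D : ℝ → ℝ := fun y : ℝ => Real.log (1 - e - y) - Real.log (e + y)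
        - Real.log ((1 - e) / e) + y / (e * (1 - e)) with hD
  have hpos : ∀ y ∈ Set.Icc (0 : ℝ) (1 - 2 * e), 0 < e + y ∧ 0 < 1 - e - y := by
    intro y hy
    exact ⟨by linarith [hy.1], by linarith [hy.2]⟩
  have hmono : MonotoneOn D (Set.Icc 0 (1 - 2 * e)) := by
    apply monotoneOn_of_deriv_nonneg (convex_Icc _ _)
    · intro y hy
      obtain ⟨h1, h2⟩ := hpos y hy
      exact (leafTaylor_hasDerivAt_D h1 h2).continuousAt.continuousWithinAt
    · intro y hy
      rw [interior_Icc] at hy
      obtain ⟨h1, h2⟩ := hpos y (Set.Ioo_subset_Icc_self hy)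
      exact (leafTaylor_hasDerivAt_D h1 h2).differentiableAt.differentiableWithinAt
    · intro y hy
      rw [interior_Icc] at hy
      obtain ⟨h1, h2⟩ := hpos y (Set.Ioo_subset_Icc_self hy)
      rw [(leafTaylor_hasDerivAt_D h1 h2).deriv]
      have he' : 0 < e * (1 - e) := by nlinarith
      have hq : 0 < (1 - e - y) * (e + y) := mul_pos h2 h1
      have hle : e * (1 - e) ≤ (1 - e - y) * (e + y) := by nlinarith [hy.1, hy.2]
      have e1 : -1 / (1 - e - y) - 1 / (e + y) + 1 / (e * (1 - e))
          = 1 / (e * (1 - e)) - 1 / ((1 - e - y) * (e + y)) := by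
        field_simp
        ring
      rw [e1]
      have := one_div_le_one_div_of_le he' hle
      linarith
  have h0 : D 0 = 0 := by
    simp only [hD]
    rw [Real.log_div (by linarith) he0.ne']
    simp
  have hx : x ∈ Set.Icc (0 : ℝ) (1 - 2 * e) := ⟨hx0, hx1⟩
  have h00 : (0 : ℝ) ∈ Set.Icc (0 : ℝ) (1 - 2 * e) := ⟨le_rfl, by linarith⟩
  have := hmono h00 hx hx0
  rw [h0] at this
  exact this

/-- second order lower bound for the binary entropy (in nats) to the right of `e` -/
theorem binEntropy_taylor_lower {e x : ℝ} (he0 : 0 < e) (he1 : e ≤ 1 / 2) (hx0 : 0 ≤ x)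
    (hx1 : x ≤ 1 - 2 * e) :
    x * Real.log ((1 - e) / e) - x ^ 2 / (2 * e * (1 - e))
      ≤ Real.binEntropy (e + x) - Real.binEntropy e := by
  set K : ℝ → ℝ := fun y : ℝ => Real.binEntropy (e + y) - y * Real.log ((1 - e) / e)
      + y ^ 2 / (2 * e * (1 - e)) with hK
  have hKd : ∀ y ∈ Set.Ioo (0 : ℝ) (1 - 2 * e), HasDerivAt K
      (Real.log (1 - e - y) - Real.log (e + y) - Real.log ((1 - e) / e) + y / (e * (1 - e))) y := by
    intro y hy
    have h1 : e + y ≠ 0 := by linarith [hy.1]
    have h2 : e + y ≠ 1 := by linarith [hy.2]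
    have a2 : HasDerivAt (fun y : ℝ => e + y) 1 y := by
      simpa using (hasDerivAt_id y).const_add e
    have b1 : HasDerivAt (fun y : ℝ => Real.binEntropy (e + y))
        ((Real.log (1 - (e + y)) - Real.log (e + y)) * 1) y :=
      (Real.hasDerivAt_binEntropy h1 h2).comp y a2
    have b2 : HasDerivAt (fun y : ℝ => y * Real.log ((1 - e) / e))
        (Real.log ((1 - e) / e)) y := by
      simpa using (hasDerivAt_id y).mul_const (Real.log ((1 - e) / e))
    have b3 : HasDerivAt (fun y : ℝ => y ^ 2 / (2 * e * (1 - e)))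
        (2 * y / (2 * e * (1 - e))) y := by
      have := (hasDerivAt_pow 2 y).div_const (2 * e * (1 - e))
      simpa using this
    have b4 := (b1.sub b2).add b3
    refine b4.congr_deriv ?_
    have he' : e * (1 - e) ≠ 0 := by
      have : 0 < e * (1 - e) := by nlinarith
      exact this.ne'
    have e3 : 1 - (e + y) = 1 - e - y := by ring
    rw [e3]
    field_simp
  have hmono : MonotoneOn K (Set.Icc 0 (1 - 2 * e)) := by
    apply monotoneOn_of_deriv_nonneg (convex_Icc _ _)
    · have hc : Continuous K := by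
        simp only [hK]
        have := Real.binEntropy_continuous
        fun_prop
      exact hc.continuousOn
    · intro y hy
      rw [interior_Icc] at hy
      exact (hKd y hy).differentiableAt.differentiableWithinAt
    · intro y hy
      rw [interior_Icc] at hy
      rw [(hKd y hy).deriv]
      exact leafTaylor_D_nonneg he0 he1 hy.1.le hy.2.le
  have hx : x ∈ Set.Icc (0 : ℝ) (1 - 2 * e) := ⟨hx0, hx1⟩
  have h00 : (0 : ℝ) ∈ Set.Icc (0 : ℝ) (1 - 2 * e) := ⟨le_rfl, by linarith⟩
  have h := hmono h00 hx hx0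
  simp only [hK] at h
  simp only [add_zero, zero_mul, sub_zero, ne_eq, OfNat.ofNat_ne_zero, not_false_eq_true,
    zero_pow, zero_div] at h
  linarith

end Vale.Agent.Lib.P322
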