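import Vale.Agent.Lib.P322.OneCoord
import Vale.Agent.Lib.P322.CoordCells
import Vale.Agent.Lib.P322.LeafCore
import Vale.Agent.Lib.P322.LeafTaylor
import Vale.Agent.Lib.P322.LeafGap

namespace Vale.Agent.Lib.P322
open Finset

/-- an explicit range of `s` in which the condition of the local theorem holds -/
theorem local_condition_log {e s : ℝ} (he0 : 0 ≤ e) (he1 : e ≤ 1 / 2) (hs0 : 0 ≤ s) (hs1 : s ≤ 1)
    (hs : (1 - 2 * e) * s ≤ (1 - e) * Real.log (1 - e) - e * Real.log e) :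
    2 * (1 - 2 * e) ^ 2 * s * Real.binEntropy e
      ≤ (1 - (1 - 2 * e) ^ 2) * (Real.binEntropy (e + (1 - 2 * e) * s) - Real.binEntropy e) := by
  rcases he0.eq_or_lt with rfl | hpos
  · have hs' : s = 0 := by
      have : s ≤ 0 := by simpa using hs
      linarith
    subst hs'
    simp
  · have h1e : 0 < 1 - e := by linarith
    have hρ : 0 ≤ 1 - 2 * e := by linarith
    have hprod0 : 0 < e * (1 - e) := mul_pos hpos h1e
    set x : ℝ := (1 - 2 * e) * s with hx
    have hx0 : 0 ≤ x := mul_nonneg hρ hs0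
    have hx1 : x ≤ 1 - 2 * e := by
      have := mul_le_mul_of_nonneg_left hs1 hρ
      linarith
    have T := binEntropy_taylor_lower hpos he1 hx0 hx1
    have hlog : Real.log ((1 - e) / e) = Real.log (1 - e) - Real.log e :=
      Real.log_div h1e.ne' hpos.ne'
    have hH : Real.binEntropy e = - (e * Real.log e) - (1 - e) * Real.log (1 - e) :=
      binEntropy_eq' e
    have hcoef : 0 ≤ 1 - (1 - 2 * e) ^ 2 := by nlinarith
    have step := mul_le_mul_of_nonneg_left T hcoef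
    have key : (1 - (1 - 2 * e) ^ 2) * (x * Real.log ((1 - e) / e) - x ^ 2 / (2 * e * (1 - e)))
        - 2 * (1 - 2 * e) ^ 2 * s * Real.binEntropy e
        = 2 * x * ((1 - e) * Real.log (1 - e) - e * Real.log e - x) := by
      rw [hlog, hH, hx]
      field_simp
      ring
    have hnn : 0 ≤ 2 * x * ((1 - e) * Real.log (1 - e) - e * Real.log e - x) := by
      apply mul_nonneg (by linarith)
      linarith
    linarith

/-- a simpler explicit range -/
theorem local_condition {e s : ℝ} (he0 : 0 ≤ e) (he1 : e ≤ 1 / 2) (hs0 : 0 ≤ s)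
    (hs : s ≤ 2 / 3 * e * (1 - e)) :
    2 * (1 - 2 * e) ^ 2 * s * Real.binEntropy e
      ≤ (1 - (1 - 2 * e) ^ 2) * (Real.binEntropy (e + (1 - 2 * e) * s) - Real.binEntropy e) := by
  have hprod : e * (1 - e) ≤ 1 / 4 := by nlinarith [sq_nonneg (1 - 2 * e)]
  have hs1 : s ≤ 1 := by linarith
  rcases he0.eq_or_lt with rfl | hpos
  · have hs' : s = 0 := by
      have : s ≤ 0 := by simpa using hs
      linarith
    subst hs'
    simp
  · have hρ : 0 ≤ 1 - 2 * e := by linarith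
    have G := entropy_gap_lower hpos he1
    apply local_condition_log he0 he1 hs0 hs1
    have h3 : (1 - 2 * e) * s ≤ (1 - 2 * e) * (2 / 3 * e * (1 - e)) :=
      mul_le_mul_of_nonneg_left hs hρ
    linarith

/-- The inequality for functions which predict a coordinate with small conditional error. -/
theorem ck_of_local {n : ℕ} {ε : ℝ} (h0 : 0 ≤ ε) (h1 : ε ≤ 1 / 2) (f : (Fin n → ℤˣ) → ℤˣ)
    (i : Fin n) (s : ℝ) (hs0 : 0 ≤ s) (hs1 : s ≤ 1)
    (hcond : ∀ u : ℤˣ, ((Finset.univ.filter (fun x => f x = u ∧ x i ≠ u)).card : ℝ)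
        ≤ s * ((Finset.univ.filter (fun x => f x = u)).card : ℝ))
    (hstar : 2 * (1 - 2 * ε) ^ 2 * s * h2 ε
        ≤ (1 - (1 - 2 * ε) ^ 2) * (h2 (ε + (1 - 2 * ε) * s) - h2 ε)) :
    infoFY ε f ≤ 1 - h2 ε := by
  have hL : 0 < Real.log 2 := Real.log_pos (by norm_num)
  have hN : (0:ℝ) < 2 ^ n := by positivity
  have O := onecoord h0 (by linarith) f i
  set a := cellP f i 1 1 with ha
  set b := cellP f i 1 (-1) with hb
  set c := cellP f i (-1) 1 with hc
  set d := cellP f i (-1) (-1) with hd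
  have ha0 : 0 ≤ a := cellP_nonneg f i 1 1
  have hb0 : 0 ≤ b := cellP_nonneg f i 1 (-1)
  have hc0 : 0 ≤ c := cellP_nonneg f i (-1) 1
  have hd0 : 0 ≤ d := cellP_nonneg f i (-1) (-1)
  obtain ⟨hac, hbd⟩ := cells_half f i
  have hI := infl_ge_cells f i
  obtain ⟨hC1, hC2⟩ := condOne_cells ε f i
  have hP := probOne_cells f i
  have hbs : b ≤ s * (a + b) := by
    obtain ⟨k1, k2⟩ := card_cond f i 1
    have := hcond 1
    rw [k1, k2] at this
    have h3 : 2 ^ n * b ≤ 2 ^ n * (s * (a + b)) := by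
      calc 2 ^ n * b = 2 ^ n * cellP f i 1 (-1) := rfl
        _ ≤ s * (2 ^ n * (cellP f i 1 1 + cellP f i 1 (-1))) := this
        _ = 2 ^ n * (s * (a + b)) := by ring
    exact le_of_mul_le_mul_left h3 hN
  have hcs : c ≤ s * (c + d) := by
    obtain ⟨k1, k2⟩ := card_cond f i (-1)
    have := hcond (-1)
    rw [k1, k2, neg_neg] at this
    have h3 : 2 ^ n * c ≤ 2 ^ n * (s * (c + d)) := by
      calc 2 ^ n * c = 2 ^ n * cellP f i (-1) 1 := rfl
        _ ≤ s * (2 ^ n * (cellP f i (-1) 1 + cellP f i (-1) (-1))) := this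
        _ = 2 ^ n * (s * (c + d)) := by ring
    exact le_of_mul_le_mul_left h3 hN
  have hstar' : 2 * (1 - 2 * ε) ^ 2 * s * Real.binEntropy ε
      ≤ (1 - (1 - 2 * ε) ^ 2)
        * (Real.binEntropy (ε + (1 - 2 * ε) * s) - Real.binEntropy ε) := by
    unfold h2 at hstar
    have e1 : 2 * (1 - 2 * ε) ^ 2 * s * (Real.binEntropy ε / Real.log 2)
        = (2 * (1 - 2 * ε) ^ 2 * s * Real.binEntropy ε) / Real.log 2 := by ring
    have e2 : (1 - (1 - 2 * ε) ^ 2)
        * (Real.binEntropy (ε + (1 - 2 * ε) * s) / Real.log 2 - Real.binEntropy ε / Real.log 2)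
        = ((1 - (1 - 2 * ε) ^ 2)
          * (Real.binEntropy (ε + (1 - 2 * ε) * s) - Real.binEntropy ε)) / Real.log 2 := by ring
    rw [e1, e2, div_le_div_iff_of_pos_right hL] at hstar
    exact hstar
  have core := core_local h0 h1 hs0 hs1 ha0 hb0 hc0 hd0 hac hbd hI hbs hcs hstar'
  rw [hP, hC1, hC2] at O
  unfold h2 at O ⊢
  have e3 : Real.binEntropy (a + b) / Real.log 2
      - (1 - (1 - 2 * ε) ^ 2)
        * ((Real.binEntropy (2 * ((1 - ε) * a + ε * b)) / Real.log 2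
          + Real.binEntropy (2 * (ε * a + (1 - ε) * b)) / Real.log 2) / 2)
      - (1 - 2 * ε) ^ 2 * infl f i * (Real.binEntropy ε / Real.log 2)
      = (Real.binEntropy (a + b)
        - (1 - (1 - 2 * ε) ^ 2) * ((Real.binEntropy (2 * ((1 - ε) * a + ε * b))
            + Real.binEntropy (2 * (ε * a + (1 - ε) * b))) / 2)
        - (1 - 2 * ε) ^ 2 * infl f i * Real.binEntropy ε) / Real.log 2 := by ring
  have e4 : 1 - Real.binEntropy ε / Real.log 2 = (Real.log 2 - Real.binEntropy ε) / Real.log 2 := by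
    field_simp
  rw [e3] at O
  rw [e4]
  exact O.trans ((div_le_div_iff_of_pos_right hL).mpr core)

/-- The inequality in an explicit Hamming ball around a coordinate function. -/
theorem ck_of_near_coordinate {n : ℕ} {ε : ℝ} (h0 : 0 ≤ ε) (h1 : ε ≤ 1 / 2)
    (f : (Fin n → ℤˣ) → ℤˣ) (i : Fin n)
    (hδ : ((Finset.univ.filter (fun x => f x ≠ x i)).card : ℝ) / 2 ^ n ≤ ε * (1 - ε) / 4) :
    infoFY ε f ≤ 1 - h2 ε := by
  have hL : 0 < Real.log 2 := Real.log_pos (by norm_num)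
  have hN : (0:ℝ) < 2 ^ n := by positivity
  have hprod : ε * (1 - ε) ≤ 1 / 4 := by nlinarith [sq_nonneg (1 - 2 * ε)]
  have hprod0 : 0 ≤ ε * (1 - ε) := mul_nonneg h0 (by linarith)
  set s : ℝ := 2 / 3 * ε * (1 - ε) with hs
  have hs0 : 0 ≤ s := by rw [hs]; nlinarith
  have hs1 : s ≤ 1 := by rw [hs]; nlinarith
  have ha0 : 0 ≤ cellP f i 1 1 := cellP_nonneg f i 1 1
  have hb0 : 0 ≤ cellP f i 1 (-1) := cellP_nonneg f i 1 (-1)
  have hc0 : 0 ≤ cellP f i (-1) 1 := cellP_nonneg f i (-1) 1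
  have hd0 : 0 ≤ cellP f i (-1) (-1) := cellP_nonneg f i (-1) (-1)
  obtain ⟨hac, hbd⟩ := cells_half f i
  rw [card_disagree] at hδ
  apply ck_of_local h0 h1 f i s hs0 hs1
  · intro u
    obtain ⟨k1, k2⟩ := card_cond f i u
    rw [k1, k2]
    rcases Int.units_eq_one_or u with rfl | rfl
    · have h5 : cellP f i 1 (-1) ≤ s * (cellP f i 1 1 + cellP f i 1 (-1)) := by
        have h6 : 7 / 16 ≤ cellP f i 1 1 + cellP f i 1 (-1) := by linarith
        have h7 : s * (7 / 16) ≤ s * (cellP f i 1 1 + cellP f i 1 (-1)) :=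
          mul_le_mul_of_nonneg_left h6 hs0
        rw [hs] at h7 ⊢
        nlinarith
      calc 2 ^ n * cellP f i 1 (-1) ≤ 2 ^ n * (s * (cellP f i 1 1 + cellP f i 1 (-1))) :=
            mul_le_mul_of_nonneg_left h5 hN.le
        _ = s * (2 ^ n * (cellP f i 1 1 + cellP f i 1 (-1))) := by ring
    · rw [neg_neg]
      have h5 : cellP f i (-1) 1 ≤ s * (cellP f i (-1) 1 + cellP f i (-1) (-1)) := by
        have h6 : 7 / 16 ≤ cellP f i (-1) 1 + cellP f i (-1) (-1) := by linarith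
        have h7 : s * (7 / 16) ≤ s * (cellP f i (-1) 1 + cellP f i (-1) (-1)) :=
          mul_le_mul_of_nonneg_left h6 hs0
        rw [hs] at h7 ⊢
        nlinarith
      calc 2 ^ n * cellP f i (-1) 1
          ≤ 2 ^ n * (s * (cellP f i (-1) 1 + cellP f i (-1) (-1))) :=
            mul_le_mul_of_nonneg_left h5 hN.le
        _ = s * (2 ^ n * (cellP f i (-1) 1 + cellP f i (-1) (-1))) := by ring
  · have lc := local_condition h0 h1 hs0 (le_of_eq hs)
    unfold h2
    have e1 : 2 * (1 - 2 * ε) ^ 2 * s * (Real.binEntropy ε / Real.log 2)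
        = (2 * (1 - 2 * ε) ^ 2 * s * Real.binEntropy ε) / Real.log 2 := by ring
    have e2 : (1 - (1 - 2 * ε) ^ 2)
        * (Real.binEntropy (ε + (1 - 2 * ε) * s) / Real.log 2 - Real.binEntropy ε / Real.log 2)
        = ((1 - (1 - 2 * ε) ^ 2)
          * (Real.binEntropy (ε + (1 - 2 * ε) * s) - Real.binEntropy ε)) / Real.log 2 := by ring
    rw [e1, e2, div_le_div_iff_of_pos_right hL]
    exact lc

lemma h2_one_sub (p : ℝ) : h2 (1 - p) = h2 p := by
  unfold h2
  rw [Real.binEntropy_one_sub]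

/-- the information is unchanged when `f` is replaced by `-f` -/
lemma infoFY_neg {n : ℕ} (ε : ℝ) (f : (Fin n → ℤˣ) → ℤˣ) :
    infoFY ε (fun x => - f x) = infoFY ε f := by
  have hN : (0:ℝ) < 2 ^ n := by positivity
  have hiff : ∀ x, (- f x = 1) ↔ (f x = -1) := by
    intro x
    rcases Int.units_eq_one_or (f x) with h | h <;> simp [h]
  have hpost : ∀ y, post ε (fun x => - f x) 1 y = 1 - post ε f 1 y := by
    intro y
    have h3 : post ε (fun x => - f x) 1 y = post ε f (-1) y := by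
      unfold post
      apply Finset.sum_congr rfl
      intro x _
      exact if_congr (hiff x) rfl rfl
    have := post_add ε f y
    linarith
  have hp : probOne (fun x => - f x) = 1 - probOne f := by
    have h4 : probOne (fun x => - f x) = cnt f (-1) / 2 ^ n := by
      unfold probOne cnt
      have hfe : (Finset.univ.filter (fun x : Fin n → ℤˣ => - f x = 1))
          = Finset.univ.filter (fun x => f x = -1) := by
        apply Finset.filter_congr
        intro x _
        exact hiff x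
      rw [hfe]
    rw [h4, probOne_eq]
    have := cnt_add f
    field_simp
    linarith
  rw [infoFY_eq, infoFY_eq, hp, h2_one_sub]
  simp_rw [hpost, h2_one_sub]

/-- The inequality in an explicit Hamming ball around minus a coordinate function. -/
theorem ck_of_near_anticoordinate {n : ℕ} {ε : ℝ} (h0 : 0 ≤ ε) (h1 : ε ≤ 1 / 2)
    (f : (Fin n → ℤˣ) → ℤˣ) (i : Fin n)
    (hδ : ((Finset.univ.filter (fun x => f x ≠ - x i)).card : ℝ) / 2 ^ n ≤ ε * (1 - ε) / 4) :
    infoFY ε f ≤ 1 - h2 ε := by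
  rw [← infoFY_neg]
  apply ck_of_near_coordinate h0 h1 _ i
  have e : (Finset.univ.filter (fun x : Fin n → ℤˣ => - f x ≠ x i))
      = Finset.univ.filter (fun x => f x ≠ - x i) := by
    apply Finset.filter_congr
    intro x _
    rcases Int.units_eq_one_or (f x) with h | h <;> rcases Int.units_eq_one_or (x i) with h' | h' <;>
      simp [h, h']
  rw [e]
  exact hδ

/-- the conjectured inequality on the union of five classes of Boolean functions -/
theorem ck_union_plus {n : ℕ} {ε : ℝ} (h0 : 0 ≤ ε) (h1 : ε ≤ 1 / 2) (f : (Fin n → ℤˣ) → ℤˣ)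
    (hf : (∃ τ : (Fin n → ℤˣ) → (Fin n → ℤˣ), (∀ x, τ (τ x) = x) ∧
              ∀ x, (∃! i, τ x i ≠ x i) ∧ f (τ x) = - f x)
        ∨ (∃ (i : Fin n) (u : ℤˣ), ∀ x, f x = u → f (Function.update x i (-(x i))) = -u)
        ∨ (∃ π : Equiv.Perm (Fin n), qvarOrd f π ≤ 1)
        ∨ (probOne f ≤ 3 / 16 ∨ 13 / 16 ≤ probOne f)
        ∨ (∃ i : Fin n,
            ((Finset.univ.filter (fun x => f x ≠ x i)).card : ℝ) / 2 ^ n ≤ ε * (1 - ε) / 4
            ∨ ((Finset.univ.filter (fun x => f x ≠ - x i)).card : ℝ) / 2 ^ n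
                ≤ ε * (1 - ε) / 4)) :
    infoFY ε f ≤ 1 - h2 ε := by
  rcases hf with h | h | h | h | ⟨i, h | h⟩
  · exact ck_union h0 h1 f (Or.inl h)
  · exact ck_union h0 h1 f (Or.inr (Or.inl h))
  · exact ck_union h0 h1 f (Or.inr (Or.inr (Or.inl h)))
  · exact ck_union h0 h1 f (Or.inr (Or.inr (Or.inr h)))
  · exact ck_of_near_coordinate h0 h1 f i h
  · exact ck_of_near_anticoordinate h0 h1 f i h

/-- the explicit range, in bits -/
theorem local_condition_bits {ε s : ℝ} (h0 : 0 ≤ ε) (h1 : ε ≤ 1 / 2) (hs0 : 0 ≤ s)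
    (hs : s ≤ 2 / 3 * ε * (1 - ε)) :
    2 * (1 - 2 * ε) ^ 2 * s * h2 ε
      ≤ (1 - (1 - 2 * ε) ^ 2) * (h2 (ε + (1 - 2 * ε) * s) - h2 ε) := by
  have hL : 0 < Real.log 2 := Real.log_pos (by norm_num)
  have lc := local_condition h0 h1 hs0 hs
  unfold h2
  have e1 : 2 * (1 - 2 * ε) ^ 2 * s * (Real.binEntropy ε / Real.log 2)
      = (2 * (1 - 2 * ε) ^ 2 * s * Real.binEntropy ε) / Real.log 2 := by ring
  have e2 : (1 - (1 - 2 * ε) ^ 2)
      * (Real.binEntropy (ε + (1 - 2 * ε) * s) / Real.log 2 - Real.binEntropy ε / Real.log 2)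
      = ((1 - (1 - 2 * ε) ^ 2)
        * (Real.binEntropy (ε + (1 - 2 * ε) * s) - Real.binEntropy ε)) / Real.log 2 := by ring
  rw [e1, e2, div_le_div_iff_of_pos_right hL]
  exact lc

/-- the logarithmic explicit range, in bits -/
theorem local_condition_log_bits {ε s : ℝ} (h0 : 0 ≤ ε) (h1 : ε ≤ 1 / 2) (hs0 : 0 ≤ s)
    (hs1 : s ≤ 1)
    (hs : (1 - 2 * ε) * s ≤ (1 - ε) * Real.log (1 - ε) - ε * Real.log ε) :
    2 * (1 - 2 * ε) ^ 2 * s * h2 ε
      ≤ (1 - (1 - 2 * ε) ^ 2) * (h2 (ε + (1 - 2 * ε) * s) - h2 ε) := by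
  have hL : 0 < Real.log 2 := Real.log_pos (by norm_num)
  have lc := local_condition_log h0 h1 hs0 hs1 hs
  unfold h2
  have e1 : 2 * (1 - 2 * ε) ^ 2 * s * (Real.binEntropy ε / Real.log 2)
      = (2 * (1 - 2 * ε) ^ 2 * s * Real.binEntropy ε) / Real.log 2 := by ring
  have e2 : (1 - (1 - 2 * ε) ^ 2)
      * (Real.binEntropy (ε + (1 - 2 * ε) * s) / Real.log 2 - Real.binEntropy ε / Real.log 2)
      = ((1 - (1 - 2 * ε) ^ 2)
        * (Real.binEntropy (ε + (1 - 2 * ε) * s) - Real.binEntropy ε)) / Real.log 2 := by ring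
  rw [e1, e2, div_le_div_iff_of_pos_right hL]
  exact lc

end Vale.Agent.Lib.P322
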