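import Vale.Agent.Lib.P322.HNLevelIneq
import Vale.Agent.Lib.P322.HNInfo
import Vale.Agent.Lib.P322.HNMomBounds
import Vale.Agent.Lib.P322.HNFinal
import Vale.Agent.Lib.P322.Local

namespace Vale.Agent.Lib.P322
open Finset

lemma wt1_nonneg {n : ℕ} (u : (Fin n → ℤˣ) → ℝ) : 0 ≤ wt1 u := by
  unfold wt1
  exact Finset.sum_nonneg (fun i _ => sq_nonneg _)

/-- The Courtade-Kumar inequality for every Boolean function when `11/24 ≤ ε ≤ 1/2`. -/
theorem ck_high_noise {n : ℕ} {ε : ℝ} (h0 : 11 / 24 ≤ ε) (h1 : ε ≤ 1 / 2)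
    (f : (Fin n → ℤˣ) → ℤˣ) : infoFY ε f ≤ 1 - h2 ε := by
  have hε0 : 0 ≤ ε := by linarith
  have hε1 : ε ≤ 1 := by linarith
  by_cases hb : probOne f ≤ 3 / 16 ∨ 13 / 16 ≤ probOne f
  · exact ck_of_biased hε0 hε1 f hb
  rw [not_or, not_le, not_le] at hb
  obtain ⟨hp0, hp1⟩ := hb
  have hrad : (5105 : ℝ) / 100000 ≤ ε * (1 - ε) / 4 := by nlinarith
  rcases fkn_gap f with hW | ⟨i, hi⟩
  · -- far from the dictators
    set p := probOne f with hp
    set ρ := 1 - 2 * ε with hρ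
    have hρ0 : 0 ≤ ρ := by rw [hρ]; linarith
    have hρ1 : ρ ≤ 1 / 12 := by rw [hρ]; linarith
    have hσ : (1 - 2 * ε) ^ 2 ≤ 1 := by rw [← hρ]; nlinarith
    have h3σ : 3 * (1 - 2 * ε) ^ 2 ≤ 1 := by rw [← hρ]; nlinarith
    have hL : 0 < Real.log 2 := Real.log_pos (by norm_num)
    have hinfo := info_le_moments hε0 hε1 f (by linarith) (by linarith)
    have hm2 := second_moment_le (ε := ε) hσ f
    have hm4 := fourth_moment_le (ε := ε) h3σ f
    have hm3 := third_moment_abs_le (ε := ε) h3σ f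
    rw [← hρ, abs_of_nonneg hρ0] at hm3
    rw [← hρ] at hm2 hm4
    have hfin := hn_final (p := p) (ρ := ρ) (W := wt1 (fR f)) (by linarith) (by linarith) hρ0 hρ1
      (wt1_nonneg _) hW (wt1_le_two_probOne f) (wt1_le_two_probNeg f) hm2 hm3 hm4
    have hρabs : |1 - 2 * ε| ≤ 1 := by rw [← hρ, abs_of_nonneg hρ0]; linarith
    have hA := Afun_ge_sq hρabs
    have hid := log_two_sub_binEntropy ε
    have e : 1 - h2 ε = Afun (1 - 2 * ε) / 2 / Real.log 2 := by
      unfold h2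
      rw [← hid]
      field_simp
    rw [e, le_div_iff₀ hL]
    rw [← hρ] at hA ⊢
    linarith
  · -- near a dictator or an antidictator
    rcases le_abs'.mp hi with hneg | hpos
    · apply ck_of_near_anticoordinate hε0 h1 f i
      rw [coef_dist_neg]
      linarith
    · apply ck_of_near_coordinate hε0 h1 f i
      rw [coef_dist]
      linarith

end Vale.Agent.Lib.P322
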