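import Vale.Agent.Lib.P322.HN2Gap
import Vale.Agent.Lib.P322.HN2Mid
import Vale.Agent.Lib.P322.HN2Mix
import Vale.Agent.Lib.P322.HN2Mom
import Vale.Agent.Lib.P322.HN2KL
import Vale.Agent.Lib.P322.HN2Final
import Vale.Agent.Lib.P322.HighNoise

namespace Vale.Agent.Lib.P322
open Finset

/-- The Courtade-Kumar inequality for every Boolean function when `2/5 ≤ ε ≤ 1/2`. -/
theorem ck_high_noise2 {n : ℕ} {ε : ℝ} (h0 : 2 / 5 ≤ ε) (h1 : ε ≤ 1 / 2)
    (f : (Fin n → ℤˣ) → ℤˣ) : infoFY ε f ≤ 1 - h2 ε := by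
  have hε0 : 0 ≤ ε := by linarith
  have hε1 : ε ≤ 1 := by linarith
  by_cases hb : probOne f ≤ 11 / 50 ∨ 39 / 50 ≤ probOne f
  · exact ck_of_biased2 h0 h1 f hb
  rw [not_or, not_le, not_le] at hb
  obtain ⟨hp0, hp1⟩ := hb
  rcases fkn_gap2 f with hW | ⟨i, hi⟩
  · -- far from the dictators
    set p := probOne f with hp
    set ρ := 1 - 2 * ε with hρ
    have hρ0 : 0 ≤ ρ := by rw [hρ]; linarith
    have hρ1 : ρ ≤ 1 / 5 := by rw [hρ]; linarith
    have hσ : (1 - 2 * ε) ^ 2 ≤ 1 := by rw [← hρ]; nlinarith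
    have h3σ : 3 * (1 - 2 * ε) ^ 2 ≤ 1 := by rw [← hρ]; nlinarith
    have hL : 0 < Real.log 2 := Real.log_pos (by norm_num)
    have hW0 : 0 ≤ wt1 (fR f) := wt1_nonneg _
    have hWp := wt1_le_two_probOne f
    have hWq := wt1_le_two_probNeg f
    rw [← hp] at hWp hWq
    -- the two square roots
    have hR0 : 0 ≤ p * (1 - p) - wt1 (fR f) / 4 := by
      have hm2 := second_moment_le (ε := 0) (by norm_num) f
      have hnn : 0 ≤ avg (fun y => (post 0 f 1 y - probOne f) ^ 2) := by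
        unfold avg
        apply div_nonneg _ (by positivity)
        exact Finset.sum_nonneg (fun y _ => sq_nonneg _)
      rw [← hp] at hm2 hnn
      nlinarith
    obtain ⟨σ, hσ0, hσ2⟩ : ∃ σ : ℝ, 0 ≤ σ ∧ σ ^ 2 = wt1 (fR f) / 4 :=
      ⟨Real.sqrt (wt1 (fR f) / 4), Real.sqrt_nonneg _, Real.sq_sqrt (by linarith)⟩
    obtain ⟨K, hK0, hK2⟩ : ∃ K : ℝ, 0 ≤ K ∧ K ^ 2 = p * (1 - p) - wt1 (fR f) / 4 :=
      ⟨Real.sqrt (p * (1 - p) - wt1 (fR f) / 4), Real.sqrt_nonneg _, Real.sq_sqrt hR0⟩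
    have hinfo := info_le_moments2 hε0 hε1 f (by linarith) (by linarith)
    have hm2 := second_moment_le (ε := ε) hσ f
    have hm3 := third_moment_fine (ε := ε) (by rw [← hρ]; exact hρ0) h3σ f σ K hσ0 hK0 hσ2
      (by rw [hK2])
    have hm4 := fourth_moment_fine (ε := ε) (by rw [← hρ]; exact hρ0) h3σ f σ K hσ0 hK0 hσ2
      (by rw [hK2])
    rw [← hρ] at hm2 hm3 hm4
    rw [← hp] at hm2 hm3 hm4 hinfo
    have hfin := hn_final2 (p := p) (ρ := ρ) (σ := σ) (K := K)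
      (M2 := avg (fun y => (post ε f 1 y - p) ^ 2))
      (M3 := avg (fun y => (post ε f 1 y - p) ^ 3))
      (M4 := avg (fun y => (post ε f 1 y - p) ^ 4))
      (by linarith) (by linarith) hρ0 hρ1 hσ0 hK0 (by rw [hσ2, hK2]; ring)
      (by rw [hσ2]; linarith) (by rw [hσ2]; linarith) (by rw [hσ2]; linarith)
      (by rw [hσ2, hK2]; linarith) hm3 hm4
    have hρabs : |1 - 2 * ε| ≤ 1 := by rw [← hρ, abs_of_nonneg hρ0]; linarith
    have hA := Afun_ge_sq hρabs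
    have hid := log_two_sub_binEntropy ε
    have e : 1 - h2 ε = Afun (1 - 2 * ε) / 2 / Real.log 2 := by
      unfold h2
      rw [← hid]
      field_simp
    rw [e, le_div_iff₀ hL]
    rw [← hρ] at hA ⊢
    linarith
  · -- a large level-one coefficient
    exact ck_of_mid_coordinate h0 h1 f i hi

end Vale.Agent.Lib.P322
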