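import Vale.Agent.Lib.P322.HalfCube
import Vale.Agent.Lib.P322.DefsLex

namespace Vale.Agent.Lib.P322
open Finset

lemma sum_two_pow_lt (m : ℕ) : ∑ k ∈ Finset.range m, 2 ^ k < 2 ^ m := by
  induction m with
  | zero => simp
  | succ m ih =>
    rw [Finset.sum_range_succ, pow_succ]
    omega

lemma lexRank_succ {m : ℕ} (x : Fin (m + 1) → ℤˣ) :
    lexRank x = (if x 0 = -1 then 2 ^ m else 0)
      + ∑ j : Fin m, if x (Fin.succ j) = -1 then 2 ^ (m - 1 - (j : ℕ)) else 0 := by
  unfold lexRank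
  rw [Fin.sum_univ_succ]
  congr 1
  apply Finset.sum_congr rfl
  intro j _
  have : m + 1 - 1 - ((Fin.succ j : Fin (m + 1)) : ℕ) = m - 1 - (j : ℕ) := by
    simp only [Fin.val_succ]
    omega
  rw [this]

lemma lex_tail_lt {m : ℕ} (x : Fin (m + 1) → ℤˣ) :
    (∑ j : Fin m, if x (Fin.succ j) = -1 then 2 ^ (m - 1 - (j : ℕ)) else 0) < 2 ^ m := by
  have h1 : (∑ j : Fin m, if x (Fin.succ j) = -1 then 2 ^ (m - 1 - (j : ℕ)) else 0)
      ≤ ∑ j : Fin m, 2 ^ (m - 1 - (j : ℕ)) := by
    apply Finset.sum_le_sum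
    intro j _
    split_ifs
    · exact le_refl _
    · exact Nat.zero_le _
  have h2 : ∑ j : Fin m, 2 ^ (m - 1 - (j : ℕ)) = ∑ k ∈ Finset.range m, 2 ^ k := by
    rw [Fin.sum_univ_eq_sum_range (fun j => 2 ^ (m - 1 - j)) m]
    exact Finset.sum_range_reflect (fun k => 2 ^ k) m
  have h3 := sum_two_pow_lt m
  omega

theorem ck_dim_zero {ε : ℝ} (h0 : 0 ≤ ε) (h1 : ε ≤ 1 / 2) (f : (Fin 0 → ℤˣ) → ℤˣ) :
    infoFY ε f ≤ 1 - h2 ε := by
  apply ck_of_biased h0 (by linarith) f
  unfold probOne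
  have hc : (Finset.univ.filter (fun x => f x = 1)).card ≤ 1 := by
    calc (Finset.univ.filter (fun x => f x = 1)).card
        ≤ (Finset.univ : Finset (Fin 0 → ℤˣ)).card := Finset.card_filter_le _ _
      _ = 1 := by simp
  interval_cases h : (Finset.univ.filter (fun x => f x = 1)).card
  · left; norm_num
  · right; norm_num

theorem ck_lex {ε : ℝ} (h0 : 0 ≤ ε) (h1 : ε ≤ 1 / 2) (n t : ℕ) :
    infoFY ε (lexFun n t) ≤ 1 - h2 ε := by
  cases n with
  | zero => exact ck_dim_zero h0 h1 _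
  | succ m =>
    have hne : ¬ ((1 : ℤˣ) = -1) := by decide
    rcases le_or_gt t (2 ^ m) with ht | ht
    · apply ck_of_halfcube h0 h1 (lexFun (m + 1) t) 0 (-1) (-1)
      intro x hx
      unfold lexFun
      have : ¬ (lexRank x < t) := by
        rw [lexRank_succ, hx]
        simp only [if_true]
        omega
      rw [if_neg this]
    · apply ck_of_halfcube h0 h1 (lexFun (m + 1) t) 0 1 1
      intro x hx
      unfold lexFun
      have : lexRank x < t := by
        rw [lexRank_succ, hx, if_neg hne]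
        have := lex_tail_lt x
        omega
      rw [if_pos this]

end Vale.Agent.Lib.P322
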