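import Vale.Agent.Lib.P322.Basic

namespace Vale.Agent.Lib.P322
open Finset

/-- single-letter noise weight -/
noncomputable def w1 (ε : ℝ) (s t : ℤˣ) : ℝ := if s = t then 1 - ε else ε

lemma W_eq_prod {n : ℕ} (ε : ℝ) (x y : Fin n → ℤˣ) : W ε x y = ∏ i, w1 ε (x i) (y i) := rfl

lemma w1_flip {ε : ℝ} (_h0 : 0 ≤ ε) (h1 : ε ≤ 1 / 2) (s s' t : ℤˣ) (h : s' ≠ s) :
    ε * w1 ε s t ≤ (1 - ε) * w1 ε s' t := by
  unfold w1
  by_cases hs : s = t
  · have hs' : ¬ s' = t := fun h' => h (h'.trans hs.symm)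
    simp [hs, hs']
    linarith
  · have hs' : s' = t := by
      rcases Int.units_eq_one_or s with a | a <;> rcases Int.units_eq_one_or s' with b | b <;>
        rcases Int.units_eq_one_or t with c | c <;> simp_all
    simp [hs, hs']
    nlinarith

lemma W_adjacent {n : ℕ} {ε : ℝ} (h0 : 0 ≤ ε) (h1 : ε ≤ 1 / 2) (x x' y : Fin n → ℤˣ)
    (h : ∃! i, x' i ≠ x i) : ε * W ε x y ≤ (1 - ε) * W ε x' y := by
  obtain ⟨i, hi, huniq⟩ := h
  have hrest : ∀ j ∈ (Finset.univ.erase i : Finset (Fin n)), w1 ε (x' j) (y j) = w1 ε (x j) (y j) := by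
    intro j hj
    have hji : j ≠ i := (Finset.mem_erase.mp hj).1
    have : x' j = x j := by
      by_contra hne
      exact hji (huniq j hne)
    rw [this]
  rw [W_eq_prod, W_eq_prod, ← Finset.mul_prod_erase _ _ (Finset.mem_univ i),
    ← Finset.mul_prod_erase (Finset.univ) (fun j => w1 ε (x' j) (y j)) (Finset.mem_univ i),
    Finset.prod_congr rfl hrest]
  have hP : 0 ≤ ∏ j ∈ (Finset.univ.erase i : Finset (Fin n)), w1 ε (x j) (y j) := by
    apply Finset.prod_nonneg
    intro j _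
    unfold w1
    split_ifs <;> linarith
  have := w1_flip h0 h1 (x i) (x' i) (y i) hi
  nlinarith [mul_le_mul_of_nonneg_right this hP]

lemma binEntropy_ge (ε d T : ℝ) (h0 : 0 ≤ ε) (h1 : ε ≤ 1 / 2) (hd0 : 0 ≤ d) (hd1 : d ≤ 1)
    (hT1 : ε * d ≤ T) (hT2 : T ≤ 1 - ε * d) : d * Real.binEntropy ε ≤ Real.binEntropy T := by
  have hεd0 : 0 ≤ ε * d := mul_nonneg h0 hd0
  have hεd1 : ε * d ≤ 1 / 2 := by nlinarith
  have step1 : d * Real.binEntropy ε ≤ Real.binEntropy (ε * d) := by
    have hx : ε ∈ Set.Icc (0:ℝ) 1 := ⟨h0, by linarith⟩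
    have hy : (0:ℝ) ∈ Set.Icc (0:ℝ) 1 := ⟨le_rfl, zero_le_one⟩
    have hb : (0:ℝ) ≤ 1 - d := by linarith
    have hab : d + (1 - d) = 1 := by ring
    have hc := Real.strictConcave_binEntropy.concaveOn.2 hx hy hd0 hb hab
    simp only [smul_eq_mul, Real.binEntropy_zero, mul_zero, add_zero] at hc
    rwa [mul_comm d ε] at hc
  have step2 : Real.binEntropy (ε * d) ≤ Real.binEntropy T := by
    have hmono := Real.binEntropy_strictMonoOn.monotoneOn
    by_cases hT : T ≤ 1 / 2
    · exact hmono ⟨hεd0, by norm_num at hεd1 ⊢; linarith⟩ ⟨by linarith, by norm_num at hT ⊢; linarith⟩ hT1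
    · rw [not_le] at hT
      rw [← Real.binEntropy_one_sub T]
      exact hmono ⟨hεd0, by norm_num at hεd1 ⊢; linarith⟩
        ⟨by linarith, by norm_num at hT ⊢; linarith⟩ (by linarith)
  linarith

theorem matching_bound {n : ℕ} {ε : ℝ} (h0 : 0 ≤ ε) (h1 : ε ≤ 1 / 2) (f : (Fin n → ℤˣ) → ℤˣ)
    (τ : (Fin n → ℤˣ) → (Fin n → ℤˣ)) (hinv : ∀ x, τ (τ x) = x)
    (hτ : ∀ x, τ x = x ∨ ((∃! i, τ x i ≠ x i) ∧ f (τ x) = - f x)) (y : Fin n → ℤˣ) :
    (∑ x, if τ x ≠ x then W ε x y else 0) * Real.binEntropy ε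
      ≤ Real.binEntropy (post ε f 1 y) := by
  have hε1 : ε ≤ 1 := by linarith
  set TD : ℝ := ∑ x, if (τ x ≠ x ∧ f x = 1) then W ε x y else 0 with hTD
  set UD : ℝ := ∑ x, if (τ x ≠ x ∧ f x = -1) then W ε x y else 0 with hUD
  set d : ℝ := ∑ x, if τ x ≠ x then W ε x y else 0 with hd
  have hdsum : d = TD + UD := by
    rw [hd, hTD, hUD, ← Finset.sum_add_distrib]
    apply Finset.sum_congr rfl
    intro x _
    by_cases hx : τ x = x
    · simp [hx]
    · rcases Int.units_eq_one_or (f x) with h | h <;> simp [hx, h]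
  have hTD0 : 0 ≤ TD := by
    apply Finset.sum_nonneg; intro x _; split_ifs
    · exact W_nonneg h0 hε1 x y
    · exact le_rfl
  have hUD0 : 0 ≤ UD := by
    apply Finset.sum_nonneg; intro x _; split_ifs
    · exact W_nonneg h0 hε1 x y
    · exact le_rfl
  have hT_ge : TD ≤ post ε f 1 y := by
    rw [hTD]; unfold post
    apply Finset.sum_le_sum
    intro x _
    by_cases hfx : f x = 1
    · by_cases hx : τ x = x
      · simp [hfx, hx, W_nonneg h0 hε1 x y]
      · simp [hfx, hx]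
    · simp [hfx]
  have hU_ge : UD ≤ post ε f (-1) y := by
    rw [hUD]; unfold post
    apply Finset.sum_le_sum
    intro x _
    by_cases hfx : f x = -1
    · by_cases hx : τ x = x
      · simp [hfx, hx, W_nonneg h0 hε1 x y]
      · simp [hfx, hx]
    · simp [hfx]
  let e : Equiv.Perm (Fin n → ℤˣ) := Function.Involutive.toPerm τ hinv
  have hUD' : UD = ∑ x, if (τ x ≠ x ∧ f x = 1) then W ε (τ x) y else 0 := by
    rw [hUD, ← Equiv.sum_comp e]
    apply Finset.sum_congr rfl
    intro x _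
    have he : e x = τ x := rfl
    rw [he, hinv x]
    rcases hτ x with hx | ⟨-, hx⟩
    · have : ¬ (x ≠ τ x) := by simp [hx]
      simp [hx]
    · have hne : (x ≠ τ x) ↔ (τ x ≠ x) := ne_comm
      have hf : f (τ x) = -1 ↔ f x = 1 := by
        rw [hx]
        constructor
        · intro h; simpa using congrArg Neg.neg h
        · intro h; rw [h]
      simp only [hne, hf]
  have hTD' : TD = ∑ x, if (τ x ≠ x ∧ f x = -1) then W ε (τ x) y else 0 := by
    rw [hTD, ← Equiv.sum_comp e]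
    apply Finset.sum_congr rfl
    intro x _
    have he : e x = τ x := rfl
    rw [he, hinv x]
    rcases hτ x with hx | ⟨-, hx⟩
    · simp [hx]
    · have hne : (x ≠ τ x) ↔ (τ x ≠ x) := ne_comm
      have hf : f (τ x) = 1 ↔ f x = -1 := by
        rw [hx]
        constructor
        · intro h; simpa using congrArg Neg.neg h
        · intro h; rw [h]; simp
      simp only [hne, hf]
  have hadj : ∀ x, τ x ≠ x → ε * W ε x y ≤ (1 - ε) * W ε (τ x) y := by
    intro x hx
    rcases hτ x with h | ⟨h, -⟩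
    · exact absurd h hx
    · exact W_adjacent h0 h1 x (τ x) y h
  have k1 : ε * TD ≤ (1 - ε) * UD := by
    rw [hUD', hTD, Finset.mul_sum, Finset.mul_sum]
    apply Finset.sum_le_sum
    intro x _
    by_cases hc : τ x ≠ x ∧ f x = 1
    · simp only [hc, ne_eq, not_false_eq_true, and_self, if_true]
      exact hadj x hc.1
    · simp [hc]
  have k2 : ε * UD ≤ (1 - ε) * TD := by
    rw [hTD', hUD, Finset.mul_sum, Finset.mul_sum]
    apply Finset.sum_le_sum
    intro x _
    by_cases hc : τ x ≠ x ∧ f x = -1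
    · simp only [hc, ne_eq, not_false_eq_true, and_self, if_true]
      exact hadj x hc.1
    · simp [hc]
  have hd0 : 0 ≤ d := by rw [hdsum]; linarith
  have hd1 : d ≤ 1 := by
    have := post_add ε f y
    rw [hdsum]; linarith
  have hmul : d * Real.binEntropy ε ≤ Real.binEntropy (post ε f 1 y) := by
    apply binEntropy_ge ε d _ h0 h1 hd0 hd1
    · rw [hdsum]; nlinarith
    · have := post_add ε f y
      rw [hdsum]; nlinarith
  exact hmul

lemma h2_half : h2 (1 / 2) = 1 := by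
  unfold h2
  have hL : 0 < Real.log 2 := Real.log_pos (by norm_num)
  rw [one_div, Real.binEntropy_two_inv]
  exact div_self hL.ne'

theorem matching_info {n : ℕ} {ε : ℝ} (h0 : 0 ≤ ε) (h1 : ε ≤ 1 / 2) (f : (Fin n → ℤˣ) → ℤˣ)
    (τ : (Fin n → ℤˣ) → (Fin n → ℤˣ)) (hinv : ∀ x, τ (τ x) = x)
    (hτ : ∀ x, τ x = x ∨ ((∃! i, τ x i ≠ x i) ∧ f (τ x) = - f x)) :
    infoFY ε f ≤ h2 (probOne f)
      - (((Finset.univ.filter (fun x => τ x ≠ x)).card : ℝ) / 2 ^ n) * h2 ε := by
  have hN : (0:ℝ) < 2 ^ n := by positivity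
  have hL : 0 < Real.log 2 := Real.log_pos (by norm_num)
  rw [infoFY_eq]
  have key : ((Finset.univ.filter (fun x => τ x ≠ x)).card : ℝ) * h2 ε
      ≤ ∑ y, h2 (post ε f 1 y) := by
    have hsum : ((Finset.univ.filter (fun x => τ x ≠ x)).card : ℝ)
        = ∑ y, ∑ x, if τ x ≠ x then W ε x y else 0 := by
      rw [Finset.sum_comm]
      have : ∀ x : Fin n → ℤˣ, (∑ y, if τ x ≠ x then W ε x y else 0)
          = if τ x ≠ x then 1 else 0 := by
        intro x
        split_ifs
        · exact sum_W_right ε x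
        · simp
      simp_rw [this]
      rw [Finset.card_filter]
      push_cast
      rfl
    rw [hsum, Finset.sum_mul]
    apply Finset.sum_le_sum
    intro y _
    unfold h2
    rw [← mul_div_assoc]
    exact div_le_div_of_nonneg_right (matching_bound h0 h1 f τ hinv hτ y) hL.le
  have : ((Finset.univ.filter (fun x => τ x ≠ x)).card : ℝ) / 2 ^ n * h2 ε
      ≤ (∑ y, h2 (post ε f 1 y)) / 2 ^ n := by
    rw [div_mul_eq_mul_div]
    exact div_le_div_of_nonneg_right key hN.le
  linarith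

theorem matching_balanced {n : ℕ} (f : (Fin n → ℤˣ) → ℤˣ)
    (τ : (Fin n → ℤˣ) → (Fin n → ℤˣ)) (hinv : ∀ x, τ (τ x) = x)
    (hτ : ∀ x, τ x = x ∨ ((∃! i, τ x i ≠ x i) ∧ f (τ x) = - f x))
    (hfix : ∀ x, τ x ≠ x) : probOne f = 1 / 2 := by
  have hN : (0:ℝ) < 2 ^ n := by positivity
  let e : Equiv.Perm (Fin n → ℤˣ) := Function.Involutive.toPerm τ hinv
  have hcnt : cnt f 1 = cnt f (-1) := by
    unfold cnt
    rw [Finset.card_filter, Finset.card_filter]
    push_cast
    rw [← Equiv.sum_comp e]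
    apply Finset.sum_congr rfl
    intro x _
    have he : e x = τ x := rfl
    rw [he]
    rcases hτ x with hx | ⟨-, hx⟩
    · exact absurd hx (hfix x)
    · have hf : f (τ x) = 1 ↔ f x = -1 := by
        rw [hx]
        constructor
        · intro h; simpa using congrArg Neg.neg h
        · intro h; rw [h]; simp
      simp only [hf]
  have hadd := cnt_add f
  rw [probOne_eq]
  rw [div_eq_div_iff hN.ne' (by norm_num)]
  linarith

end Vale.Agent.Lib.P322
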