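import Vale.Agent.Lib.P322.CoordBasic

namespace Vale.Agent.Lib.P322
open Finset

lemma ent_four_valued {n : ℕ} (p q : (Fin n → ℤˣ) → ℝ) (hp : ∀ x, p x = 0 ∨ p x = 1)
    (hq : ∀ x, q x = 0 ∨ q x = 1) (a b : ℝ) (hab : a + b = 1) :
    ent (fun x => a * p x + b * q x)
      = avg (fun x => p x * (1 - q x)) * kap a + avg (fun x => (1 - p x) * q x) * kap b
        - kap (a * avg p + b * avg q) := by
  unfold ent
  have e1 : (fun x => kap (a * p x + b * q x))
      = fun x => kap a * (fun x => p x * (1 - q x)) x + kap b * (fun x => (1 - p x) * q x) x := by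
    funext x
    rcases hp x with h | h <;> rcases hq x with h' | h' <;>
      simp [h, h', kap_zero, kap_one, hab]
  rw [e1, avg_lin, avg_lin]
  ring

/-- one step of the chain rule on the first coordinate and the contraction inequality on the
others, for the indicator of a set and of its complement -/
lemma onecoord_core {n : ℕ} {ε : ℝ} (h0 : 0 ≤ ε) (h1 : ε ≤ 1) (G : (Fin (n + 1) → ℤˣ) → ℝ)
    (hG01 : ∀ x, G x = 0 ∨ G x = 1) :
    ent (noise ε G) + ent (noise ε (fun x => 1 - G x))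
      ≤ Real.binEntropy ((avg (sl G 1) + avg (sl G (-1))) / 2)
        - (1 - (1 - 2 * ε) ^ 2)
          * ((Real.binEntropy ((1 - ε) * avg (sl G 1) + ε * avg (sl G (-1)))
            + Real.binEntropy (ε * avg (sl G 1) + (1 - ε) * avg (sl G (-1)))) / 2)
        - (1 - 2 * ε) ^ 2 * (avg (fun x' => sl G 1 x' * (1 - sl G (-1) x'))
            + avg (fun x' => (1 - sl G 1 x') * sl G (-1) x')) * Real.binEntropy ε := by
  have hGn : ∀ x, 0 ≤ G x := by
    intro x; rcases hG01 x with h | h <;> simp [h]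
  have hGn' : ∀ x, 0 ≤ (fun x => 1 - G x) x := by
    intro x; rcases hG01 x with h | h <;> simp [h]
  have b1 := ent_noise_le h0 h1 G hGn
  have b2 := ent_noise_le h0 h1 (fun x => 1 - G x) hGn'
  set p := sl G 1 with hp
  set q := sl G (-1) with hq
  have hp01 : ∀ x', p x' = 0 ∨ p x' = 1 := fun x' => hG01 _
  have hq01 : ∀ x', q x' = 0 ∨ q x' = 1 := fun x' => hG01 _
  have hp01' : ∀ x', (fun x' => 1 - p x') x' = 0 ∨ (fun x' => 1 - p x') x' = 1 := by
    intro x'; rcases hp01 x' with h | h <;> simp [h]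
  have hq01' : ∀ x', (fun x' => 1 - q x') x' = 0 ∨ (fun x' => 1 - q x') x' = 1 := by
    intro x'; rcases hq01 x' with h | h <;> simp [h]
  have hp' : sl (fun x => 1 - G x) 1 = fun x' => 1 - p x' := rfl
  have hq' : sl (fun x => 1 - G x) (-1) = fun x' => 1 - q x' := rfl
  rw [hp', hq', avg_one_sub, avg_one_sub] at b2
  set r₁ := avg (fun x' => p x' * (1 - q x')) with hr₁
  set r₂ := avg (fun x' => (1 - p x') * q x') with hr₂
  have E1 := ent_four_valued p q hp01 hq01 (1 - ε) ε (by ring)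
  have E2 := ent_four_valued p q hp01 hq01 ε (1 - ε) (by ring)
  have E3 := ent_four_valued (fun x' => 1 - p x') (fun x' => 1 - q x') hp01' hq01' (1 - ε) ε
    (by ring)
  have E4 := ent_four_valued (fun x' => 1 - p x') (fun x' => 1 - q x') hp01' hq01' ε (1 - ε)
    (by ring)
  have s1 : (fun x' => (fun x' => 1 - p x') x' * (1 - (fun x' => 1 - q x') x'))
      = fun x' => (1 - p x') * q x' := by
    funext x'; ring
  have s2 : (fun x' => (1 - (fun x' => 1 - p x') x') * (fun x' => 1 - q x') x')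
      = fun x' => p x' * (1 - q x') := by
    funext x'; ring
  rw [s1, s2, avg_one_sub, avg_one_sub, ← hr₁, ← hr₂] at E3 E4
  rw [← hr₁, ← hr₂] at E1 E2
  rw [E1, E2] at b1
  rw [E3, E4] at b2
  have a4 : (1 - ε) * (1 - avg p) + ε * (1 - avg q) = 1 - ((1 - ε) * avg p + ε * avg q) := by ring
  have a5 : ε * (1 - avg p) + (1 - ε) * (1 - avg q) = 1 - (ε * avg p + (1 - ε) * avg q) := by ring
  have a6 : ((1 - avg p) + (1 - avg q)) / 2 = 1 - (avg p + avg q) / 2 := by ring
  rw [a4, a5, a6] at b2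
  rw [binEntropy_kap ((avg p + avg q) / 2), binEntropy_kap ((1 - ε) * avg p + ε * avg q),
    binEntropy_kap (ε * avg p + (1 - ε) * avg q), binEntropy_kap ε]
  linarith

lemma avg_ind_eq_probOne {n : ℕ} (f : (Fin n → ℤˣ) → ℤˣ) :
    avg (fun x => if f x = 1 then (1:ℝ) else 0) = probOne f := by
  unfold avg probOne
  rw [Finset.card_filter]
  push_cast
  rfl

lemma condOne_zero {n : ℕ} (ε : ℝ) (f : (Fin (n + 1) → ℤˣ) → ℤˣ) (s : ℤˣ) :
    condOne ε f 0 s
      = w1 ε s 1 * avg (sl (fun x => if f x = 1 then (1:ℝ) else 0) 1)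
        + w1 ε s (-1) * avg (sl (fun x => if f x = 1 then (1:ℝ) else 0) (-1)) := by
  rw [condOne_eq, sum_cons]
  unfold avg sl
  have e1 : ∀ (t : ℤˣ) (x' : Fin n → ℤˣ),
      (if f (Fin.cons t x') = 1 then w1 ε s ((Fin.cons t x' : Fin (n + 1) → ℤˣ) 0) else 0)
        = w1 ε s t * (if f (Fin.cons t x') = 1 then (1:ℝ) else 0) := by
    intro t x'
    rw [Fin.cons_zero]
    split_ifs <;> simp
  simp_rw [e1]
  rw [← Finset.mul_sum, ← Finset.mul_sum, pow_succ]
  field_simp

lemma infl_zero {n : ℕ} (f : (Fin (n + 1) → ℤˣ) → ℤˣ) :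
    infl f 0
      = avg (fun x' => sl (fun x => if f x = 1 then (1:ℝ) else 0) 1 x'
            * (1 - sl (fun x => if f x = 1 then (1:ℝ) else 0) (-1) x'))
        + avg (fun x' => (1 - sl (fun x => if f x = 1 then (1:ℝ) else 0) 1 x')
            * sl (fun x => if f x = 1 then (1:ℝ) else 0) (-1) x') := by
  unfold infl
  rw [Finset.card_filter]
  push_cast
  rw [sum_cons]
  unfold avg sl
  have hne : ¬ ((-1 : ℤˣ) = 1) := by decide
  have hne' : ¬ ((1 : ℤˣ) = -1) := by decide
  have e1 : ∀ x' : Fin n → ℤˣ,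
      (if f (Function.update (Fin.cons 1 x' : Fin (n + 1) → ℤˣ) 0
          (-((Fin.cons 1 x' : Fin (n + 1) → ℤˣ) 0))) ≠ f (Fin.cons 1 x') then (1:ℝ) else 0)
        = (if f (Fin.cons 1 x') = 1 then (1:ℝ) else 0)
            * (1 - (if f (Fin.cons (-1) x') = 1 then (1:ℝ) else 0))
          + (1 - (if f (Fin.cons 1 x') = 1 then (1:ℝ) else 0))
            * (if f (Fin.cons (-1) x') = 1 then (1:ℝ) else 0) := by
    intro x'
    rw [Fin.cons_zero, Fin.update_cons_zero]
    rcases Int.units_eq_one_or (f (Fin.cons 1 x')) with h | h <;>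
      rcases Int.units_eq_one_or (f (Fin.cons (-1) x')) with h' | h' <;>
      simp [h, h', hne, hne']
  have e2 : ∀ x' : Fin n → ℤˣ,
      (if f (Function.update (Fin.cons (-1) x' : Fin (n + 1) → ℤˣ) 0
          (-((Fin.cons (-1) x' : Fin (n + 1) → ℤˣ) 0))) ≠ f (Fin.cons (-1) x') then (1:ℝ) else 0)
        = (if f (Fin.cons 1 x') = 1 then (1:ℝ) else 0)
            * (1 - (if f (Fin.cons (-1) x') = 1 then (1:ℝ) else 0))
          + (1 - (if f (Fin.cons 1 x') = 1 then (1:ℝ) else 0))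
            * (if f (Fin.cons (-1) x') = 1 then (1:ℝ) else 0) := by
    intro x'
    rw [Fin.cons_zero, Fin.update_cons_zero, neg_neg]
    rcases Int.units_eq_one_or (f (Fin.cons 1 x')) with h | h <;>
      rcases Int.units_eq_one_or (f (Fin.cons (-1) x')) with h' | h' <;>
      simp [h, h', hne, hne']
  simp_rw [e1, e2]
  rw [Finset.sum_add_distrib, pow_succ]
  field_simp
  ring

/-- the one-coordinate inequality for the first coordinate -/
theorem onecoord_zero {n : ℕ} {ε : ℝ} (h0 : 0 ≤ ε) (h1 : ε ≤ 1) (f : (Fin (n + 1) → ℤˣ) → ℤˣ) :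
    infoFY ε f ≤ h2 (probOne f)
        - (1 - (1 - 2 * ε) ^ 2) * ((h2 (condOne ε f 0 1) + h2 (condOne ε f 0 (-1))) / 2)
        - (1 - 2 * ε) ^ 2 * infl f 0 * h2 ε := by
  have hL : 0 < Real.log 2 := Real.log_pos (by norm_num)
  have hid := info_eq_ent ε f
  have hc := onecoord_core h0 h1 (fun x => if f x = 1 then (1:ℝ) else 0)
    (by intro x; split_ifs <;> simp)
  have e : (fun x => 1 - (fun x => if f x = 1 then (1:ℝ) else 0) x)
      = fun x => if f x = 1 then (0:ℝ) else 1 := by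
    funext x; dsimp only; split_ifs <;> norm_num
  rw [e] at hc
  obtain ⟨hw11, hw12, hw21, hw22⟩ := w1_vals ε
  have c1 := condOne_zero ε f 1
  have c2 := condOne_zero ε f (-1)
  rw [hw11, hw21] at c1
  rw [hw12, hw22] at c2
  have hP : (avg (sl (fun x => if f x = 1 then (1:ℝ) else 0) 1)
      + avg (sl (fun x => if f x = 1 then (1:ℝ) else 0) (-1))) / 2 = probOne f := by
    rw [← avg_cons, avg_ind_eq_probOne]
  rw [hP, ← c1, ← c2, ← infl_zero] at hc
  have key : infoFY ε f * Real.log 2 ≤ Real.binEntropy (probOne f)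
      - (1 - (1 - 2 * ε) ^ 2)
        * ((Real.binEntropy (condOne ε f 0 1) + Real.binEntropy (condOne ε f 0 (-1))) / 2)
      - (1 - 2 * ε) ^ 2 * infl f 0 * Real.binEntropy ε := by
    rw [hid]; exact hc
  unfold h2
  rw [← le_div_iff₀ hL] at key
  refine key.trans (le_of_eq ?_)
  field_simp

lemma probOne_relabel {n : ℕ} (f : (Fin n → ℤˣ) → ℤˣ) (π : Equiv.Perm (Fin n)) :
    probOne (fun z => f ((relabel π).symm z)) = probOne f := by
  unfold probOne
  rw [Finset.card_filter, Finset.card_filter]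
  push_cast
  congr 1
  exact Equiv.sum_comp (relabel π).symm (fun x => if f x = 1 then (1:ℝ) else 0)

lemma condOne_relabel_zero {m : ℕ} (ε : ℝ) (f : (Fin (m + 1) → ℤˣ) → ℤˣ) (i : Fin (m + 1))
    (s : ℤˣ) :
    condOne ε (fun z => f ((relabel (Equiv.swap 0 i)).symm z)) 0 s = condOne ε f i s := by
  rw [condOne_eq, condOne_eq]
  congr 2
  rw [← Equiv.sum_comp (relabel (Equiv.swap 0 i))]
  apply Finset.sum_congr rfl
  intro x _
  simp only [Equiv.symm_apply_apply, relabel_apply, Equiv.swap_apply_left]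

lemma infl_relabel_zero {m : ℕ} (f : (Fin (m + 1) → ℤˣ) → ℤˣ) (i : Fin (m + 1)) :
    infl (fun z => f ((relabel (Equiv.swap 0 i)).symm z)) 0 = infl f i := by
  unfold infl
  rw [Finset.card_filter, Finset.card_filter]
  push_cast
  congr 1
  rw [← Equiv.sum_comp (relabel (Equiv.swap 0 i))]
  apply Finset.sum_congr rfl
  intro x _
  have e : (relabel (Equiv.swap 0 i)) x 0 = x i := by
    rw [relabel_apply, Equiv.swap_apply_left]
  simp only [relabel_symm_update, Equiv.symm_apply_apply, e]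

/-- the one-coordinate inequality: `H(f(X)|Y) ≥ (1-ρ²) H(f(X)|Y_i) + ρ² Inf_i(f) h₂(ε)`. -/
theorem onecoord {n : ℕ} {ε : ℝ} (h0 : 0 ≤ ε) (h1 : ε ≤ 1) (f : (Fin n → ℤˣ) → ℤˣ) (i : Fin n) :
    infoFY ε f ≤ h2 (probOne f)
        - (1 - (1 - 2 * ε) ^ 2) * ((h2 (condOne ε f i 1) + h2 (condOne ε f i (-1))) / 2)
        - (1 - 2 * ε) ^ 2 * infl f i * h2 ε := by
  cases n with
  | zero => exact i.elim0
  | succ m =>
    have h := onecoord_zero h0 h1 (fun z => f ((relabel (Equiv.swap 0 i)).symm z))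
    rw [infoFY_relabel, probOne_relabel, condOne_relabel_zero, condOne_relabel_zero,
      infl_relabel_zero] at h
    exact h

end Vale.Agent.Lib.P322
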