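import Mathlib

namespace Vale.Agent.Lib.P322
open Finset

/-- `A x = (1+x) log (1+x) + (1-x) log (1-x)` -/
noncomputable def Afun (x : ℝ) : ℝ := (1 + x) * Real.log (1 + x) + (1 - x) * Real.log (1 - x)

lemma Afun_continuous : Continuous Afun := by
  unfold Afun
  have h1 : Continuous fun x : ℝ => (1 + x) * Real.log (1 + x) :=
    Real.continuous_mul_log.comp (continuous_const.add continuous_id)
  have h2 : Continuous fun x : ℝ => (1 - x) * Real.log (1 - x) :=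
    Real.continuous_mul_log.comp (continuous_const.sub continuous_id)
  exact h1.add h2

lemma Afun_hasSum {x : ℝ} (hx : |x| < 1) :
    HasSum (fun k : ℕ => x ^ (2 * k + 2) / ((2 * (k:ℝ) + 1) * ((k:ℝ) + 1))) (Afun x) := by
  have hx' := abs_lt.mp hx
  have h1 := Real.hasSum_log_sub_log_of_abs_lt_one hx
  have hx2 : |x ^ 2| < 1 := by
    rw [abs_pow]
    exact pow_lt_one₀ (abs_nonneg x) hx (by norm_num)
  have h2 := Real.hasSum_pow_div_log_of_abs_lt_one hx2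
  have hA : Afun x = x * (Real.log (1 + x) - Real.log (1 - x)) - (-Real.log (1 - x ^ 2)) := by
    unfold Afun
    have : (1 - x ^ 2) = (1 + x) * (1 - x) := by ring
    rw [this, Real.log_mul (by linarith) (by linarith)]
    ring
  rw [hA]
  have h3 := (h1.mul_left x).sub h2
  have h4 : (fun k : ℕ => x ^ (2 * k + 2) / ((2 * (k:ℝ) + 1) * ((k:ℝ) + 1)))
      = (fun b : ℕ => x * (2 * (1 / (2 * (b:ℝ) + 1)) * x ^ (2 * b + 1)) - (x ^ 2) ^ (b + 1) / ((b:ℝ) + 1)) := by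
    funext k
    have e1 : (2 * (k:ℝ) + 1) ≠ 0 := by positivity
    have e2 : ((k:ℝ) + 1) ≠ 0 := by positivity
    field_simp
    ring
  rw [h4]
  exact h3

lemma Afun_scale_open {x ρ : ℝ} (hx : |x| < 1) (hρ : |ρ| ≤ 1) :
    Afun (ρ * x) ≤ ρ ^ 2 * Afun x := by
  have hρx : |ρ * x| < 1 := by
    rw [abs_mul]
    calc |ρ| * |x| ≤ 1 * |x| := mul_le_mul_of_nonneg_right hρ (abs_nonneg x)
      _ = |x| := one_mul _
      _ < 1 := hx
  have h1 := Afun_hasSum hρx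
  have h2 := (Afun_hasSum hx).mul_left (ρ ^ 2)
  apply hasSum_le _ h1 h2
  intro k
  have hk : (0:ℝ) < (2 * (k:ℝ) + 1) * ((k:ℝ) + 1) := by positivity
  rw [← mul_div_assoc]
  apply div_le_div_of_nonneg_right _ hk.le
  have e : (ρ * x) ^ (2 * k + 2) = (ρ ^ 2) ^ (k + 1) * (x ^ 2) ^ (k + 1) := by
    rw [mul_pow, ← pow_mul, ← pow_mul]
    ring_nf
  have e' : x ^ (2 * k + 2) = (x ^ 2) ^ (k + 1) := by
    rw [← pow_mul]; ring_nf
  rw [e, e']
  have hρ2 : ρ ^ 2 ≤ 1 := by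
    have := abs_le.mp hρ
    nlinarith
  have hρ20 : 0 ≤ ρ ^ 2 := sq_nonneg ρ
  have hx20 : 0 ≤ (x ^ 2) ^ (k + 1) := pow_nonneg (sq_nonneg x) _
  have hp : (ρ ^ 2) ^ (k + 1) ≤ ρ ^ 2 := by
    calc (ρ ^ 2) ^ (k + 1) = (ρ ^ 2) ^ k * ρ ^ 2 := pow_succ _ _
      _ ≤ 1 * ρ ^ 2 := mul_le_mul_of_nonneg_right (pow_le_one₀ hρ20 hρ2) hρ20
      _ = ρ ^ 2 := one_mul _
  exact mul_le_mul_of_nonneg_right hp hx20

lemma Afun_scale {x ρ : ℝ} (hx : |x| ≤ 1) (hρ : |ρ| ≤ 1) :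
    Afun (ρ * x) ≤ ρ ^ 2 * Afun x := by
  have hcl : x ∈ closure (Set.Ioo (-1:ℝ) 1) := by
    rw [closure_Ioo (by norm_num)]
    exact abs_le.mp hx
  have hf : ContinuousOn (fun x => Afun (ρ * x)) (closure (Set.Ioo (-1:ℝ) 1)) :=
    (Afun_continuous.comp (continuous_const.mul continuous_id)).continuousOn
  have hg : ContinuousOn (fun x => ρ ^ 2 * Afun x) (closure (Set.Ioo (-1:ℝ) 1)) :=
    (continuous_const.mul Afun_continuous).continuousOn
  refine le_on_closure (f := fun x => Afun (ρ * x)) (g := fun x => ρ ^ 2 * Afun x) ?_ hf hg hcl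
  intro z hz
  exact Afun_scale_open (abs_lt.mpr hz) hρ

lemma Afun_ge_sq_open {x : ℝ} (hx : |x| < 1) : x ^ 2 ≤ Afun x := by
  have h := Afun_hasSum hx
  have h0 : ∀ k : ℕ, (0:ℝ) ≤ x ^ (2 * k + 2) / ((2 * (k:ℝ) + 1) * ((k:ℝ) + 1)) := by
    intro k
    have e' : x ^ (2 * k + 2) = (x ^ 2) ^ (k + 1) := by
      rw [← pow_mul]; ring_nf
    rw [e']
    have : 0 ≤ (x ^ 2) ^ (k + 1) := pow_nonneg (sq_nonneg x) _
    positivity
  have := sum_le_hasSum ({0} : Finset ℕ) (fun k _ => h0 k) h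
  simpa using this

lemma Afun_ge_sq {x : ℝ} (hx : |x| ≤ 1) : x ^ 2 ≤ Afun x := by
  have hcl : x ∈ closure (Set.Ioo (-1:ℝ) 1) := by
    rw [closure_Ioo (by norm_num)]
    exact abs_le.mp hx
  refine le_on_closure (f := fun x => x ^ 2) (g := Afun) ?_ (by fun_prop) Afun_continuous.continuousOn hcl
  intro z hz
  exact Afun_ge_sq_open (abs_lt.mpr hz)

/-- `κ t = t log t` -/
noncomputable def kap (t : ℝ) : ℝ := t * Real.log t

lemma kap_zero : kap 0 = 0 := by simp [kap]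

lemma kap_one : kap 1 = 0 := by simp [kap]

lemma kap_mul {m c : ℝ} (hm : 0 < m) : kap (m * c) = m * c * (Real.log m + Real.log c) := by
  unfold kap
  by_cases hc : c = 0
  · simp [hc]
  · rw [Real.log_mul hm.ne' hc]

lemma mul_log_div (u m : ℝ) (hm : m ≠ 0) :
    u * Real.log (u / m) = kap u - u * Real.log m := by
  unfold kap
  by_cases hu : u = 0
  · simp [hu]
  · rw [Real.log_div hu hm]; ring

lemma K_id {m z : ℝ} (hm : 0 < m) :
    (kap (m * (1 + z)) + kap (m * (1 - z))) / 2 - kap m = m / 2 * Afun z := by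
  rw [kap_mul hm, kap_mul hm]
  unfold kap Afun
  ring

lemma two_point {u v ε : ℝ} (hu : 0 ≤ u) (hv : 0 ≤ v) (h0 : 0 ≤ ε) (h1 : ε ≤ 1) :
    (kap ((1 - ε) * u + ε * v) + kap (ε * u + (1 - ε) * v)) / 2 - kap ((u + v) / 2)
      ≤ (1 - 2 * ε) ^ 2 * ((kap u + kap v) / 2 - kap ((u + v) / 2)) := by
  by_cases hm0 : u + v = 0
  · have hu0 : u = 0 := by linarith
    have hv0 : v = 0 := by linarith
    simp [hu0, hv0, kap_zero]
  · have hm : 0 < (u + v) / 2 := by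
      have : 0 < u + v := lt_of_le_of_ne (by linarith) (Ne.symm hm0)
      linarith
    set m := (u + v) / 2 with hmdef
    set x := (u - v) / (u + v) with hxdef
    set ρ := 1 - 2 * ε with hρdef
    have hx : |x| ≤ 1 := by
      rw [hxdef, abs_div, div_le_one (abs_pos.mpr hm0)]
      rw [abs_le]
      constructor
      · rw [abs_of_nonneg (by linarith : (0:ℝ) ≤ u + v)]; linarith
      · rw [abs_of_nonneg (by linarith : (0:ℝ) ≤ u + v)]; linarith
    have hρ : |ρ| ≤ 1 := by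
      rw [abs_le]; constructor <;> linarith
    have hmx : m * x = (u - v) / 2 := by
      rw [hmdef, hxdef]; field_simp
    have eu : u = m * (1 + x) := by rw [mul_add, hmx, hmdef]; ring
    have ev : v = m * (1 - x) := by rw [mul_sub, hmx, hmdef]; ring
    have ep : (1 - ε) * u + ε * v = m * (1 + ρ * x) := by
      have : m * (1 + ρ * x) = m + ρ * (m * x) := by ring
      rw [this, hmx, hmdef, hρdef]; ring
    have eq : ε * u + (1 - ε) * v = m * (1 - ρ * x) := by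
      have : m * (1 - ρ * x) = m - ρ * (m * x) := by ring
      rw [this, hmx, hmdef, hρdef]; ring
    rw [ep, eq, K_id hm]
    have e2 : (kap u + kap v) / 2 - kap m = m / 2 * Afun x := by
      rw [← K_id hm, ← eu, ← ev]
    rw [e2]
    have := Afun_scale hx hρ
    have hm2 : 0 ≤ m / 2 := by linarith
    nlinarith [mul_le_mul_of_nonneg_left this hm2]

lemma log_sum_two {u₁ u₂ m₁ m₂ t : ℝ} (hu₁ : 0 ≤ u₁) (hu₂ : 0 ≤ u₂) (hm₁ : 0 < m₁) (hm₂ : 0 < m₂)
    (ht0 : 0 ≤ t) (ht1 : t ≤ 1) :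
    kap (t * u₁ + (1 - t) * u₂) - (t * u₁ + (1 - t) * u₂) * Real.log (t * m₁ + (1 - t) * m₂)
      ≤ t * (kap u₁ - u₁ * Real.log m₁) + (1 - t) * (kap u₂ - u₂ * Real.log m₂) := by
  have hm : 0 < t * m₁ + (1 - t) * m₂ := by
    rcases eq_or_lt_of_le ht0 with h | h
    · rw [← h]; simpa using hm₂
    · have : 0 ≤ (1 - t) * m₂ := mul_nonneg (by linarith) hm₂.le
      have : 0 < t * m₁ := mul_pos h hm₁
      linarith
  set m := t * m₁ + (1 - t) * m₂ with hmdef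
  set u := t * u₁ + (1 - t) * u₂ with hudef
  have hα : 0 ≤ t * m₁ / m := div_nonneg (mul_nonneg ht0 hm₁.le) hm.le
  have hβ : 0 ≤ (1 - t) * m₂ / m := div_nonneg (mul_nonneg (by linarith) hm₂.le) hm.le
  have hαβ : t * m₁ / m + (1 - t) * m₂ / m = 1 := by
    rw [← add_div, ← hmdef]; exact div_self hm.ne'
  have hr₁ : u₁ / m₁ ∈ Set.Ici (0:ℝ) := div_nonneg hu₁ hm₁.le
  have hr₂ : u₂ / m₂ ∈ Set.Ici (0:ℝ) := div_nonneg hu₂ hm₂.le
  have hc := Real.convexOn_mul_log.2 hr₁ hr₂ hα hβ hαβ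
  simp only [smul_eq_mul] at hc
  have e1 : t * m₁ / m * (u₁ / m₁) + (1 - t) * m₂ / m * (u₂ / m₂) = u / m := by
    rw [hudef]; field_simp
  rw [e1] at hc
  have hc' := mul_le_mul_of_nonneg_left hc hm.le
  have e2 : m * (u / m * Real.log (u / m)) = kap u - u * Real.log m := by
    rw [← mul_log_div u m hm.ne']; field_simp
  have e3 : m * (t * m₁ / m * (u₁ / m₁ * Real.log (u₁ / m₁)) + (1 - t) * m₂ / m * (u₂ / m₂ * Real.log (u₂ / m₂)))
      = t * (u₁ * Real.log (u₁ / m₁)) + (1 - t) * (u₂ * Real.log (u₂ / m₂)) := by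
    field_simp
  rw [e2, e3, mul_log_div u₁ m₁ hm₁.ne', mul_log_div u₂ m₂ hm₂.ne'] at hc'
  exact hc'

end Vale.Agent.Lib.P322
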