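import Vale.Agent.Lib.P322.Matching
import Vale.Agent.Lib.P322.Series

namespace Vale.Agent.Lib.P322
open Finset

noncomputable def avg {n : ℕ} (g : (Fin n → ℤˣ) → ℝ) : ℝ := (∑ x, g x) / 2 ^ n

noncomputable def ent {n : ℕ} (g : (Fin n → ℤˣ) → ℝ) : ℝ :=
  avg (fun x => kap (g x)) - kap (avg g)

noncomputable def noise {n : ℕ} (ε : ℝ) (g : (Fin n → ℤˣ) → ℝ) (y : Fin n → ℤˣ) : ℝ :=
  ∑ x, g x * W ε x y

lemma avg_nonneg {n : ℕ} {g : (Fin n → ℤˣ) → ℝ} (hg : ∀ x, 0 ≤ g x) : 0 ≤ avg g := by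
  unfold avg
  exact div_nonneg (Finset.sum_nonneg (fun x _ => hg x)) (by positivity)

lemma avg_lin {n : ℕ} (a b : ℝ) (g₁ g₂ : (Fin n → ℤˣ) → ℝ) :
    avg (fun x => a * g₁ x + b * g₂ x) = a * avg g₁ + b * avg g₂ := by
  unfold avg
  rw [Finset.sum_add_distrib, ← Finset.mul_sum, ← Finset.mul_sum]
  ring

lemma avg_eq_zero {n : ℕ} {g : (Fin n → ℤˣ) → ℝ} (hg : ∀ x, 0 ≤ g x) (h : avg g = 0) :
    ∀ x, g x = 0 := by
  unfold avg at h
  have hN : (0:ℝ) < 2 ^ n := by positivity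
  have hs : ∑ x, g x = 0 := by
    rcases div_eq_zero_iff.mp h with h' | h'
    · exact h'
    · exact absurd h' hN.ne'
  intro x
  exact (Finset.sum_eq_zero_iff_of_nonneg (fun x _ => hg x)).mp hs x (Finset.mem_univ x)

lemma avg_noise {n : ℕ} (ε : ℝ) (g : (Fin n → ℤˣ) → ℝ) : avg (noise ε g) = avg g := by
  unfold avg noise
  rw [Finset.sum_comm]
  congr 1
  apply Finset.sum_congr rfl
  intro x _
  rw [← Finset.mul_sum, sum_W_right, mul_one]

lemma ent_smul {n : ℕ} {c : ℝ} (hc : 0 ≤ c) (g : (Fin n → ℤˣ) → ℝ) :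
    ent (fun x => c * g x) = c * ent g := by
  rcases eq_or_lt_of_le hc with h | h
  · subst h
    simp [ent, avg, kap_zero]
  · unfold ent
    have e1 : avg (fun x => c * g x) = c * avg g := by
      have := avg_lin c 0 g g
      simpa using this
    have e2 : (fun x => kap (c * g x)) = fun x => c * kap (g x) + (c * Real.log c) * g x := by
      funext x
      rw [kap_mul h]; unfold kap; ring
    rw [e1, e2, avg_lin, kap_mul h]
    unfold kap
    ring

lemma ent_convex {n : ℕ} {g₁ g₂ : (Fin n → ℤˣ) → ℝ} (h₁ : ∀ x, 0 ≤ g₁ x) (h₂ : ∀ x, 0 ≤ g₂ x)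
    {t : ℝ} (ht0 : 0 ≤ t) (ht1 : t ≤ 1) :
    ent (fun x => t * g₁ x + (1 - t) * g₂ x) ≤ t * ent g₁ + (1 - t) * ent g₂ := by
  have hm₁ := avg_nonneg h₁
  have hm₂ := avg_nonneg h₂
  have ht1' : 0 ≤ 1 - t := by linarith
  rcases eq_or_lt_of_le hm₁ with hz₁ | hp₁
  · have hg : ∀ x, g₁ x = 0 := avg_eq_zero h₁ hz₁.symm
    have e : (fun x => t * g₁ x + (1 - t) * g₂ x) = fun x => (1 - t) * g₂ x := by
      funext x; rw [hg x]; ring
    have e0 : ent g₁ = 0 := by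
      have : g₁ = fun _ => 0 := funext hg
      rw [this]; simp [ent, avg, kap_zero]
    rw [e, ent_smul ht1', e0]; linarith
  rcases eq_or_lt_of_le hm₂ with hz₂ | hp₂
  · have hg : ∀ x, g₂ x = 0 := avg_eq_zero h₂ hz₂.symm
    have e : (fun x => t * g₁ x + (1 - t) * g₂ x) = fun x => t * g₁ x := by
      funext x; rw [hg x]; ring
    have e0 : ent g₂ = 0 := by
      have : g₂ = fun _ => 0 := funext hg
      rw [this]; simp [ent, avg, kap_zero]
    rw [e, ent_smul ht0, e0]; linarith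
  · have hN : (0:ℝ) < 2 ^ n := by positivity
    have havg : avg (fun x => t * g₁ x + (1 - t) * g₂ x) = t * avg g₁ + (1 - t) * avg g₂ :=
      avg_lin t (1 - t) g₁ g₂
    have hpt : ∀ x, kap (t * g₁ x + (1 - t) * g₂ x)
        - (t * g₁ x + (1 - t) * g₂ x) * Real.log (t * avg g₁ + (1 - t) * avg g₂)
        ≤ t * (kap (g₁ x) - g₁ x * Real.log (avg g₁))
          + (1 - t) * (kap (g₂ x) - g₂ x * Real.log (avg g₂)) :=
      fun x => log_sum_two (h₁ x) (h₂ x) hp₁ hp₂ ht0 ht1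
    have hsum := Finset.sum_le_sum (fun x (_ : x ∈ (Finset.univ : Finset (Fin n → ℤˣ))) => hpt x)
    have hdiv := div_le_div_of_nonneg_right hsum hN.le
    have eL : (∑ x, (kap (t * g₁ x + (1 - t) * g₂ x)
        - (t * g₁ x + (1 - t) * g₂ x) * Real.log (t * avg g₁ + (1 - t) * avg g₂))) / 2 ^ n
        = ent (fun x => t * g₁ x + (1 - t) * g₂ x) := by
      unfold ent
      rw [havg]
      unfold kap avg
      rw [Finset.sum_sub_distrib, ← Finset.sum_mul, Finset.sum_add_distrib, ← Finset.mul_sum,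
        ← Finset.mul_sum]
      field_simp
    have eR : (∑ x, (t * (kap (g₁ x) - g₁ x * Real.log (avg g₁))
          + (1 - t) * (kap (g₂ x) - g₂ x * Real.log (avg g₂)))) / 2 ^ n
        = t * ent g₁ + (1 - t) * ent g₂ := by
      unfold ent
      unfold kap avg
      rw [Finset.sum_add_distrib, ← Finset.mul_sum, ← Finset.mul_sum, Finset.sum_sub_distrib,
        Finset.sum_sub_distrib, ← Finset.sum_mul, ← Finset.sum_mul]
      field_simp
    rw [eL, eR] at hdiv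
    exact hdiv

lemma sum_cons {n : ℕ} (F : (Fin (n + 1) → ℤˣ) → ℝ) :
    ∑ x, F x = ∑ x' : Fin n → ℤˣ, F (Fin.cons 1 x') + ∑ x' : Fin n → ℤˣ, F (Fin.cons (-1) x') := by
  rw [← (Fin.consEquiv (fun _ : Fin (n + 1) => ℤˣ)).sum_comp, Fintype.sum_prod_type, sum_units]
  rfl

lemma W_cons {n : ℕ} (ε : ℝ) (s t : ℤˣ) (x' y' : Fin n → ℤˣ) :
    W ε (Fin.cons s x' : Fin (n + 1) → ℤˣ) (Fin.cons t y') = w1 ε s t * W ε x' y' := by
  unfold W
  rw [Fin.prod_univ_succ]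
  simp only [Fin.cons_zero, Fin.cons_succ]
  rfl

/-- slice of a function on the `(n+1)`-cube -/
noncomputable def sl {n : ℕ} (g : (Fin (n + 1) → ℤˣ) → ℝ) (s : ℤˣ) : (Fin n → ℤˣ) → ℝ :=
  fun x' => g (Fin.cons s x')

lemma avg_cons {n : ℕ} (g : (Fin (n + 1) → ℤˣ) → ℝ) :
    avg g = (avg (sl g 1) + avg (sl g (-1))) / 2 := by
  unfold avg sl
  rw [sum_cons, pow_succ]
  field_simp

lemma ent_cons {n : ℕ} (G : (Fin (n + 1) → ℤˣ) → ℝ) :
    ent G = (ent (sl G 1) + ent (sl G (-1))) / 2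
      + ((kap (avg (sl G 1)) + kap (avg (sl G (-1)))) / 2
          - kap ((avg (sl G 1) + avg (sl G (-1))) / 2)) := by
  unfold ent
  rw [avg_cons G, avg_cons (fun x => kap (G x))]
  have e : ∀ s, sl (fun x => kap (G x)) s = fun x' => kap (sl G s x') := fun s => rfl
  rw [e, e]
  ring

lemma noise_cons {n : ℕ} (ε : ℝ) (g : (Fin (n + 1) → ℤˣ) → ℝ) (t : ℤˣ) :
    sl (noise ε g) t = noise ε (fun x' => w1 ε 1 t * sl g 1 x' + w1 ε (-1) t * sl g (-1) x') := by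
  funext y'
  unfold sl noise
  rw [sum_cons]
  simp_rw [W_cons]
  rw [← Finset.sum_add_distrib]
  apply Finset.sum_congr rfl
  intro x' _
  ring

lemma ent_zero (g : (Fin 0 → ℤˣ) → ℝ) : ent g = 0 := by
  unfold ent avg
  simp

theorem sdpi : ∀ (n : ℕ) (ε : ℝ), 0 ≤ ε → ε ≤ 1 → ∀ g : (Fin n → ℤˣ) → ℝ, (∀ x, 0 ≤ g x) →
    ent (noise ε g) ≤ (1 - 2 * ε) ^ 2 * ent g := by
  intro n
  induction n with
  | zero =>
    intro ε _ _ g _
    rw [ent_zero, ent_zero]; simp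
  | succ n ih =>
    intro ε h0 h1 g hg
    have hs1 : ∀ x', 0 ≤ sl g 1 x' := fun x' => hg _
    have hs2 : ∀ x', 0 ≤ sl g (-1) x' := fun x' => hg _
    have hw11 : w1 ε 1 1 = 1 - ε := by simp [w1]
    have hw12 : w1 ε (-1) 1 = ε := by
      have : ¬ ((-1 : ℤˣ) = 1) := by decide
      simp [w1, this]
    have hw21 : w1 ε 1 (-1) = ε := by
      have : ¬ ((1 : ℤˣ) = -1) := by decide
      simp [w1, this]
    have hw22 : w1 ε (-1) (-1) = 1 - ε := by simp [w1]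
    set c1 : (Fin n → ℤˣ) → ℝ := fun x' => (1 - ε) * sl g 1 x' + (1 - (1 - ε)) * sl g (-1) x' with hc1
    set c2 : (Fin n → ℤˣ) → ℝ := fun x' => ε * sl g 1 x' + (1 - ε) * sl g (-1) x' with hc2
    have hn1 : sl (noise ε g) 1 = noise ε c1 := by
      rw [noise_cons, hw11, hw12, hc1]
      congr 1; funext x'; ring
    have hn2 : sl (noise ε g) (-1) = noise ε c2 := by
      rw [noise_cons, hw21, hw22]
    have hc1n : ∀ x', 0 ≤ c1 x' := by
      intro x'
      have := hs1 x'; have := hs2 x'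
      rw [hc1]
      have h3 : 0 ≤ (1 - ε) * sl g 1 x' := mul_nonneg (by linarith) (hs1 x')
      have h4 : 0 ≤ (1 - (1 - ε)) * sl g (-1) x' := mul_nonneg (by linarith) (hs2 x')
      simpa using add_nonneg h3 h4
    have hc2n : ∀ x', 0 ≤ c2 x' := by
      intro x'
      rw [hc2]
      have h3 : 0 ≤ ε * sl g 1 x' := mul_nonneg h0 (hs1 x')
      have h4 : 0 ≤ (1 - ε) * sl g (-1) x' := mul_nonneg (by linarith) (hs2 x')
      simpa using add_nonneg h3 h4
    have ih1 := ih ε h0 h1 c1 hc1n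
    have ih2 := ih ε h0 h1 c2 hc2n
    have cv1 : ent c1 ≤ (1 - ε) * ent (sl g 1) + (1 - (1 - ε)) * ent (sl g (-1)) :=
      ent_convex hs1 hs2 (by linarith) (by linarith)
    have cv2 : ent c2 ≤ ε * ent (sl g 1) + (1 - ε) * ent (sl g (-1)) :=
      ent_convex hs1 hs2 h0 h1
    have ha1 : avg (noise ε c1) = (1 - ε) * avg (sl g 1) + ε * avg (sl g (-1)) := by
      rw [avg_noise, hc1, avg_lin]; ring
    have ha2 : avg (noise ε c2) = ε * avg (sl g 1) + (1 - ε) * avg (sl g (-1)) := by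
      rw [avg_noise, hc2, avg_lin]
    have tp := two_point (avg_nonneg hs1) (avg_nonneg hs2) h0 h1
    rw [ent_cons (noise ε g), ent_cons g, hn1, hn2, ha1, ha2]
    have hmid : ((1 - ε) * avg (sl g 1) + ε * avg (sl g (-1))
        + (ε * avg (sl g 1) + (1 - ε) * avg (sl g (-1)))) / 2
        = (avg (sl g 1) + avg (sl g (-1))) / 2 := by ring
    rw [hmid]
    have hρ : 0 ≤ (1 - 2 * ε) ^ 2 := sq_nonneg _
    nlinarith [mul_le_mul_of_nonneg_left cv1 hρ, mul_le_mul_of_nonneg_left cv2 hρ]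

end Vale.Agent.Lib.P322
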