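import Vale.Agent.Lib.P322.EdgeFree

namespace Vale.Agent.Lib.P322
open Finset

/-- the inequality for functions whose sensitive edges contain a perfect matching -/
theorem ck_of_matching {n : ℕ} {ε : ℝ} (h0 : 0 ≤ ε) (h1 : ε ≤ 1 / 2) (f : (Fin n → ℤˣ) → ℤˣ)
    (τ : (Fin n → ℤˣ) → (Fin n → ℤˣ)) (hinv : ∀ x, τ (τ x) = x)
    (hτ : ∀ x, (∃! i, τ x i ≠ x i) ∧ f (τ x) = - f x) : infoFY ε f ≤ 1 - h2 ε := by
  have hτ' : ∀ x, τ x = x ∨ ((∃! i, τ x i ≠ x i) ∧ f (τ x) = - f x) := fun x => Or.inr (hτ x)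
  have hfix : ∀ x, τ x ≠ x := by
    intro x hx
    obtain ⟨i, hi, -⟩ := (hτ x).1
    exact hi (by rw [hx])
  have hmain := matching_info h0 h1 f τ hinv hτ'
  have hbal := matching_balanced f τ hinv hτ' hfix
  have hcard : ((Finset.univ.filter (fun x => τ x ≠ x)).card : ℝ) = 2 ^ n := by
    have : Finset.univ.filter (fun x => τ x ≠ x) = Finset.univ := by
      apply Finset.filter_true_of_mem
      intro x _
      exact hfix x
    rw [this]
    simp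
  have hN : (0:ℝ) < 2 ^ n := by positivity
  rw [hbal, h2_half, hcard, div_self hN.ne', one_mul] at hmain
  exact hmain

/-- the inequality on the union of the four classes -/
theorem ck_union {n : ℕ} {ε : ℝ} (h0 : 0 ≤ ε) (h1 : ε ≤ 1 / 2) (f : (Fin n → ℤˣ) → ℤˣ)
    (hf : (∃ τ : (Fin n → ℤˣ) → (Fin n → ℤˣ), (∀ x, τ (τ x) = x) ∧
              ∀ x, (∃! i, τ x i ≠ x i) ∧ f (τ x) = - f x)
        ∨ (∃ (i : Fin n) (u : ℤˣ), ∀ x, f x = u → f (Function.update x i (-(x i))) = -u)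
        ∨ (∃ π : Equiv.Perm (Fin n), qvarOrd f π ≤ 1)
        ∨ probOne f ≤ 3 / 16 ∨ 13 / 16 ≤ probOne f) :
    infoFY ε f ≤ 1 - h2 ε := by
  have hε1 : ε ≤ 1 := by linarith
  rcases hf with ⟨τ, hinv, hτ⟩ | ⟨i, u, hu⟩ | ⟨π, hq⟩ | hb
  · exact ck_of_matching h0 h1 f τ hinv hτ
  · exact ck_of_edgefree h0 h1 f i u hu
  · have hmain := info_le_qvarOrd h0 hε1 f π
    have hnn := one_sub_h2_nonneg h0 hε1
    calc infoFY ε f ≤ qvarOrd f π * (1 - h2 ε) := hmain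
      _ ≤ 1 * (1 - h2 ε) := mul_le_mul_of_nonneg_right hq hnn
      _ = 1 - h2 ε := one_mul _
  · exact ck_of_biased h0 hε1 f hb

end Vale.Agent.Lib.P322
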